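import Vale.Agent.P113.Defs

/-! P113: elementary analysis of `rho`, `sigma`, bumps and their periodizations. -/

namespace Vale.Agent.P113

open Set MeasureTheory Filter Topology
open scoped ContDiff

noncomputable section

lemma rho_eq (s : ℝ) : rho s = expNegInvGlue (1 - s ^ 2) := by
  unfold rho expNegInvGlue
  by_cases h : |s| < 1
  · have h1 : s ^ 2 < 1 := (sq_lt_one_iff_abs_lt_one s).2 h
    rw [if_pos h, if_neg (by linarith)]
    congr 1
    rw [neg_div, one_div]
  · have h1 : ¬ s ^ 2 < 1 := fun hs => h ((sq_lt_one_iff_abs_lt_one s).1 hs)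
    rw [if_neg h, if_pos (by linarith [not_lt.1 h1])]

lemma rho_contDiff : ContDiff ℝ ∞ rho := by
  have : rho = fun s => expNegInvGlue (1 - s ^ 2) := funext rho_eq
  rw [this]
  exact expNegInvGlue.contDiff.comp (contDiff_const.sub (contDiff_id.pow 2))

lemma rho_zero {s : ℝ} (h : 1 ≤ |s|) : rho s = 0 := if_neg (not_lt.2 h)

lemma rho_nonneg (s : ℝ) : 0 ≤ rho s := by
  unfold rho; split_ifs <;> positivity

lemma rho_hasCompactSupport : HasCompactSupport rho :=
  HasCompactSupport.of_support_subset_isCompact (isCompact_Icc (a := (-1 : ℝ)) (b := 1))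
    fun s hs => by
      by_contra h
      refine hs (rho_zero ?_)
      by_contra h'
      exact h (by rw [mem_Icc]; constructor <;> linarith [abs_lt.1 (not_le.1 h')])

lemma rho_integrable : Integrable rho :=
  rho_contDiff.continuous.integrable_of_hasCompactSupport rho_hasCompactSupport

lemma kappa_pos : 0 < kappa := by
  refine rho_contDiff.continuous.integral_pos_of_hasCompactSupport_nonneg_nonzero
    rho_hasCompactSupport rho_nonneg (x := 0) ?_
  simp [rho, Real.exp_ne_zero]

lemma kappa_ne : kappa ≠ 0 := kappa_pos.ne'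

lemma iteratedDeriv_rho_contDiff (j : ℕ) : ContDiff ℝ ∞ (iteratedDeriv j rho) := by
  induction j with
  | zero => simpa using rho_contDiff
  | succ j ih =>
    rw [iteratedDeriv_succ]
    exact (contDiff_infty_iff_deriv.1 ih).2

lemma iteratedDeriv_rho_hasDerivAt (j : ℕ) (s : ℝ) :
    HasDerivAt (iteratedDeriv j rho) (iteratedDeriv (j + 1) rho s) s := by
  rw [iteratedDeriv_succ]
  exact ((contDiff_infty_iff_deriv.1 (iteratedDeriv_rho_contDiff j)).1 s).hasDerivAt

lemma iteratedDeriv_rho_zero_lt (j : ℕ) : ∀ s : ℝ, 1 < |s| → iteratedDeriv j rho s = 0 := by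
  induction j with
  | zero => intro s hs; simpa using rho_zero hs.le
  | succ j ih =>
    intro s hs
    have he : iteratedDeriv j rho =ᶠ[𝓝 s] fun _ => 0 := by
      filter_upwards [(isOpen_lt continuous_const continuous_abs).mem_nhds hs] with y hy
      exact ih y hy
    rw [iteratedDeriv_succ, he.deriv_eq, deriv_const]

lemma iteratedDeriv_rho_zero {j : ℕ} {s : ℝ} (h : 1 ≤ |s|) : iteratedDeriv j rho s = 0 := by
  rcases h.lt_or_eq with h | h
  · exact iteratedDeriv_rho_zero_lt j s h
  · have hc : IsClosed {y : ℝ | iteratedDeriv j rho y = 0} :=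
      isClosed_eq (iteratedDeriv_rho_contDiff j).continuous continuous_const
    have hsub : closure {y : ℝ | 1 < |y|} ⊆ {y : ℝ | iteratedDeriv j rho y = 0} :=
      hc.closure_subset_iff.2 fun y hy => iteratedDeriv_rho_zero_lt j y hy
    refine hsub ?_
    rcases (abs_eq zero_le_one).1 h.symm with rfl | rfl
    · exact closure_mono (fun y (hy : (1:ℝ) < y) => lt_of_lt_of_le hy (le_abs_self y))
        (by rw [closure_Ioi]; exact self_mem_Ici : (1:ℝ) ∈ closure (Ioi 1))
    · exact closure_mono (fun y (hy : y < (-1:ℝ)) => lt_of_lt_of_le (by linarith) (neg_le_abs y))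
        (by rw [closure_Iio]; exact self_mem_Iic : (-1:ℝ) ∈ closure (Iio (-1)))

lemma sigma_eq (s : ℝ) : sigma s = ∫ x in (-1 : ℝ)..s, rho x := by
  have h := intervalIntegral.integral_Iic_sub_Iic (a := (-1 : ℝ)) (b := s)
    rho_integrable.integrableOn rho_integrable.integrableOn
  have h0 : ∫ x in Iic (-1 : ℝ), rho x = 0 :=
    setIntegral_eq_zero_of_forall_eq_zero fun x (hx : x ≤ -1) =>
      rho_zero (le_trans (by linarith) (neg_le_abs x))
  unfold sigma
  linarith

lemma sigma_hasDerivAt (s : ℝ) : HasDerivAt sigma (rho s) s := by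
  have : sigma = fun s => ∫ x in (-1 : ℝ)..s, rho x := funext sigma_eq
  rw [this]
  exact (rho_contDiff.continuous.integral_hasStrictDerivAt (-1 : ℝ) s).hasDerivAt

lemma sigma_contDiff : ContDiff ℝ ∞ sigma := by
  rw [contDiff_infty_iff_deriv]
  refine ⟨fun s => (sigma_hasDerivAt s).differentiableAt, ?_⟩
  rw [funext fun s => (sigma_hasDerivAt s).deriv]
  exact rho_contDiff

lemma sigma_of_le {s : ℝ} (h : s ≤ -1) : sigma s = 0 :=
  setIntegral_eq_zero_of_forall_eq_zero fun x (hx : x ≤ s) =>
    rho_zero (le_trans (by linarith) (neg_le_abs x))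

lemma sigma_of_ge {s : ℝ} (h : 1 ≤ s) : sigma s = kappa := by
  refine setIntegral_eq_integral_of_forall_compl_eq_zero fun x hx => ?_
  simp only [mem_Iic, not_le] at hx
  exact rho_zero (le_trans (by linarith) (le_abs_self x))

lemma piFun_mid {l s : ℝ} (h1 : 1 ≤ s) (h2 : s ≤ l - 1) : piFun l s = kappa := by
  rw [piFun, sigma_of_ge h1, sigma_of_le (by linarith), sub_zero]

lemma piFun_out {l s : ℝ} (hl : 0 ≤ l) (h : s ≤ -1 ∨ l + 1 ≤ s) : piFun l s = 0 := by
  rcases h with h | h
  · rw [piFun, sigma_of_le h, sigma_of_le (by linarith), sub_zero]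
  · rw [piFun, sigma_of_ge (by linarith), sigma_of_ge (by linarith), sub_self]

lemma piFun_hasDerivAt (l s : ℝ) : HasDerivAt (piFun l) (rho s - rho (s - l)) s :=
  (sigma_hasDerivAt s).sub (HasDerivAt.comp_sub_const s l (sigma_hasDerivAt (s - l)))

lemma piFun_contDiff (l : ℝ) : ContDiff ℝ ∞ (piFun l) :=
  sigma_contDiff.sub (sigma_contDiff.comp (contDiff_id.sub contDiff_const))

/-! ### Rational codes -/

/-- The code of a natural number. -/
def RatCode.ofNat' (n : ℕ) : RatCode := ⟨n, 0, 1⟩

/-- Sum of codes. -/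
def RatCode.add' (r s : RatCode) : RatCode :=
  ⟨r.pos * s.den + s.pos * r.den, r.neg * s.den + s.neg * r.den, r.den * s.den⟩

/-- Product of codes. -/
def RatCode.mul' (r s : RatCode) : RatCode :=
  ⟨r.pos * s.pos + r.neg * s.neg, r.pos * s.neg + r.neg * s.pos, r.den * s.den⟩

/-- Negative of a code. -/
def RatCode.neg' (r : RatCode) : RatCode := ⟨r.neg, r.pos, r.den⟩

@[simp] lemma RatCode.val_ofNat (n : ℕ) : (RatCode.ofNat' n).val = n := by
  simp [RatCode.ofNat', RatCode.val]

@[simp] lemma RatCode.den_ofNat (n : ℕ) : (RatCode.ofNat' n).den = 1 := rfl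

@[simp] lemma RatCode.val_neg (r : RatCode) : r.neg'.val = -r.val := by
  simp [RatCode.neg', RatCode.val]; ring

@[simp] lemma RatCode.den_neg (r : RatCode) : r.neg'.den = r.den := rfl

lemma RatCode.val_mul (r s : RatCode) : (r.mul' s).val = r.val * s.val := by
  simp [RatCode.mul', RatCode.val, div_mul_div_comm]; ring

@[simp] lemma RatCode.den_mul (r s : RatCode) : (r.mul' s).den = r.den * s.den := rfl

lemma RatCode.val_add {r s : RatCode} (hr : 0 < r.den) (hs : 0 < s.den) :
    (r.add' s).val = r.val + s.val := by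
  have hr' : (r.den : ℝ) ≠ 0 := by exact_mod_cast hr.ne'
  have hs' : (s.den : ℝ) ≠ 0 := by exact_mod_cast hs.ne'
  simp [RatCode.add', RatCode.val]
  field_simp
  ring

@[simp] lemma RatCode.den_add (r s : RatCode) : (r.add' s).den = r.den * s.den := rfl

/-! ### Bumps -/

/-- The argument `a s - b`. -/
def Bump.arg (g : Bump) (s : ℝ) : ℝ := g.a.val * s - g.b.val

/-- `s` is outside the support. -/
def Bump.Outside (g : Bump) (s : ℝ) : Prop :=
  if g.isPi then g.arg s ≤ -1 ∨ g.l.val + 1 ≤ g.arg s else 1 ≤ |g.arg s|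

lemma Bump.eval_outside {g : Bump} (hg : g.Valid) {s : ℝ} (h : g.Outside s) : g.eval s = 0 := by
  unfold Bump.Outside at h
  unfold Bump.eval
  by_cases hp : g.isPi = true
  · rw [if_pos hp] at h ⊢
    rw [Bump.arg] at h
    rw [piFun_out (hg.2.2.2 hp).2.le h, mul_zero]
  · rw [if_neg hp] at h ⊢
    rw [Bump.arg] at h
    rw [iteratedDeriv_rho_zero h, mul_zero]

lemma Bump.contDiff (g : Bump) : ContDiff ℝ ∞ g.eval := by
  unfold Bump.eval
  have hlin : ContDiff ℝ ∞ fun s : ℝ => g.a.val * s - g.b.val :=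
    (contDiff_const.mul contDiff_id).sub contDiff_const
  refine (contDiff_id.pow g.k).mul ?_
  by_cases hp : g.isPi = true
  · simp only [hp, if_true]
    exact (piFun_contDiff g.l.val).comp hlin
  · simp only [hp]
    exact (iteratedDeriv_rho_contDiff g.j).comp hlin

/-- A radius outside which the bump vanishes. -/
def Bump.radius (g : Bump) : ℝ := (1 + |g.b.val| + |g.l.val|) / |g.a.val|

lemma Bump.outside_of_radius {g : Bump} (hg : g.Valid) {s : ℝ} (h : g.radius ≤ |s|) :
    g.Outside s := by
  have ha : 0 < |g.a.val| := abs_pos.2 hg.2.2.1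
  rw [Bump.radius, div_le_iff₀ ha] at h
  have h1 : |g.a.val * s| ≤ |g.arg s| + |g.b.val| := by
    have := abs_add_le (g.arg s) g.b.val
    simpa [Bump.arg] using this
  rw [abs_mul] at h1
  have h2 : 1 + |g.l.val| ≤ |g.arg s| := by nlinarith
  unfold Bump.Outside
  by_cases hp : g.isPi = true
  · rw [if_pos hp]
    rcases le_abs.1 h2 with h3 | h3
    · right; linarith [le_abs_self g.l.val]
    · left; linarith [abs_nonneg g.l.val]
  · rw [if_neg hp]; linarith [abs_nonneg g.l.val]

/-- The derivative of a bump as a linear combination of bumps. -/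
def Bump.deriv' (g : Bump) : List (RatCode × Bump) :=
  bif g.isPi then
    [(RatCode.ofNat' g.k, ⟨g.isPi, g.k - 1, g.j, g.a, g.b, g.l⟩),
      (g.a, ⟨false, g.k, 0, g.a, g.b, g.l⟩),
      (g.a.neg', ⟨false, g.k, 0, g.a, g.b.add' g.l, g.l⟩)]
  else
    [(RatCode.ofNat' g.k, ⟨g.isPi, g.k - 1, g.j, g.a, g.b, g.l⟩),
      (g.a, ⟨false, g.k, g.j + 1, g.a, g.b, g.l⟩)]

lemma Bump.deriv'_valid {g : Bump} (hg : g.Valid) :
    ∀ e ∈ g.deriv', e.2.Valid ∧ 0 < e.1.den := by
  obtain ⟨ha, hb, hane, hpi⟩ := hg
  intro e he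
  unfold Bump.deriv' at he
  cases hp : g.isPi
  · simp only [hp, cond_false, List.mem_cons, List.not_mem_nil, or_false] at he
    rcases he with rfl | rfl <;> simp [Bump.Valid, ha, hb, hane]
  · obtain ⟨hl, hlv⟩ := hpi hp
    simp only [hp, cond_true, List.mem_cons, List.not_mem_nil, or_false] at he
    rcases he with rfl | rfl | rfl <;> simp [Bump.Valid, ha, hb, hane, hl, hlv]

lemma Bump.deriv'_outside {g : Bump} (hg : g.Valid) {s : ℝ} (h : g.Outside s) :
    ∀ e ∈ g.deriv', e.2.Outside s := by
  obtain ⟨ha, hb, hane, hpi⟩ := hg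
  intro e he
  unfold Bump.deriv' at he
  cases hp : g.isPi
  · simp only [Bump.Outside, Bump.arg, hp, Bool.false_eq_true, if_false] at h
    simp only [hp, cond_false, List.mem_cons, List.not_mem_nil, or_false] at he
    rcases he with rfl | rfl <;> simpa [Bump.Outside, Bump.arg] using h
  · obtain ⟨hl, hlv⟩ := hpi hp
    simp only [Bump.Outside, Bump.arg, hp, if_true] at h
    simp only [hp, cond_true, List.mem_cons, List.not_mem_nil, or_false] at he
    rcases he with rfl | rfl | rfl
    · simpa [Bump.Outside, Bump.arg] using h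
    · simp only [Bump.Outside, Bump.arg, Bool.false_eq_true, if_false]
      rw [le_abs]
      rcases h with h | h
      · right; linarith
      · left; linarith
    · simp only [Bump.Outside, Bump.arg, Bool.false_eq_true, if_false, RatCode.val_add hb hl]
      rw [le_abs]
      rcases h with h | h
      · right; linarith
      · left; linarith

lemma Bump.hasDerivAt {g : Bump} (hg : g.Valid) (s : ℝ) :
    HasDerivAt g.eval (g.deriv'.map fun e => e.1.val * e.2.eval s).sum s := by
  obtain ⟨ha, hb, hane, hpi⟩ := hg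
  have hlin : HasDerivAt (fun s : ℝ => g.a.val * s - g.b.val) g.a.val s := by
    simpa using ((hasDerivAt_id s).const_mul g.a.val).sub_const g.b.val
  have hpow := hasDerivAt_pow g.k s
  unfold Bump.deriv' Bump.eval
  cases hp : g.isPi
  · have h2 := (iteratedDeriv_rho_hasDerivAt g.j (g.a.val * s - g.b.val)).comp s hlin
    simp only [cond_false, Bool.false_eq_true, if_false]
    refine (hpow.mul h2).congr_deriv ?_
    simp [List.sum_cons]
    ring
  · obtain ⟨hl, hlv⟩ := hpi hp
    have h2 := (piFun_hasDerivAt g.l.val (g.a.val * s - g.b.val)).comp s hlin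
    simp only [cond_true, if_true]
    refine (hpow.mul h2).congr_deriv ?_
    simp [List.sum_cons, RatCode.val_add hb hl]
    ring_nf

/-! ### Periodization -/

lemma periodize_add_int (g : ℝ → ℝ) (y : ℝ) (n : ℤ) :
    periodize g (y + n) = periodize g y := by
  have h : (fun m : ℤ => g (y + n + m)) = fun m : ℤ => g (y + ((Equiv.addLeft n m : ℤ) : ℝ)) := by
    funext m
    rw [Equiv.coe_addLeft, Int.cast_add, add_assoc]
  unfold periodize
  rw [h]
  exact (Equiv.addLeft n).tsum_eq (fun m : ℤ => g (y + m))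

lemma periodize_eq_sum {g : ℝ → ℝ} {R : ℝ} (hg : ∀ s, R ≤ |s| → g s = 0) {y : ℝ} {N : ℕ}
    (hN : R + |y| ≤ N) :
    periodize g y = ∑ m ∈ Finset.Icc (-(N : ℤ)) N, g (y + m) := by
  refine tsum_eq_sum fun m hm => hg _ ?_
  have hm' : (N : ℝ) < |(m : ℝ)| := by
    simp only [Finset.mem_Icc, not_and_or, not_le] at hm
    rw [lt_abs]
    rcases hm with hm | hm
    · right
      have h' : (N : ℤ) < -m := by omega
      exact_mod_cast h'
    · left
      exact_mod_cast hm
  have h1 : |(m : ℝ)| ≤ |y + m| + |y| := by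
    have := abs_sub (y + (m : ℝ)) y
    simpa using this
  linarith

/-- The periodization of a compactly supported function near a point is a finite sum. -/
lemma periodize_eventually {g : ℝ → ℝ} {R : ℝ} (hg : ∀ s, R ≤ |s| → g s = 0) {y : ℝ} {N : ℕ}
    (hN : R + |y| + 1 ≤ N) :
    periodize g =ᶠ[𝓝 y] fun z => ∑ m ∈ Finset.Icc (-(N : ℤ)) N, g (z + m) := by
  filter_upwards [Metric.ball_mem_nhds y one_pos] with z hz
  refine periodize_eq_sum hg ?_
  have h1 : |z| ≤ |y| + |z - y| := by
    have := abs_add_le y (z - y)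
    simpa using this
  rw [Metric.mem_ball, Real.dist_eq] at hz
  linarith

lemma Bump.vanish {g : Bump} (hg : g.Valid) : ∀ s, g.radius ≤ |s| → g.eval s = 0 :=
  fun _ h => Bump.eval_outside hg (Bump.outside_of_radius hg h)

lemma Bump.periodize_contDiff {g : Bump} (hg : g.Valid) : ContDiff ℝ ∞ (periodize g.eval) := by
  rw [contDiff_iff_contDiffAt]
  intro y
  obtain ⟨N, hN⟩ := exists_nat_ge (g.radius + |y| + 1)
  refine ContDiffAt.congr_of_eventuallyEq ?_ (periodize_eventually (Bump.vanish hg) hN)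
  exact (ContDiff.sum fun m _ => g.contDiff.comp (contDiff_id.add contDiff_const)).contDiffAt

/-- A sum over a finite set commutes with a sum over a list. -/
lemma sum_list_comm {ι α : Type} (S : Finset ι) (L : List α) (F : α → ι → ℝ) :
    ∑ m ∈ S, (L.map fun e => F e m).sum = (L.map fun e => ∑ m ∈ S, F e m).sum := by
  induction L with
  | nil => simp
  | cons a l ih => simp [Finset.sum_add_distrib, ih]

lemma Bump.periodize_hasDerivAt {g : Bump} (hg : g.Valid) (y : ℝ) :
    HasDerivAt (periodize g.eval)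
      (g.deriv'.map fun e => e.1.val * periodize e.2.eval y).sum y := by
  obtain ⟨N, hN⟩ := exists_nat_ge
    (g.radius + |y| + 1 + (g.deriv'.map fun e => |e.2.radius|).sum)
  have hsum : ∀ e ∈ g.deriv', |e.2.radius| ≤ (g.deriv'.map fun e => |e.2.radius|).sum := by
    intro e he
    exact List.single_le_sum (by
      intro x hx
      obtain ⟨e, _, rfl⟩ := List.mem_map.1 hx
      exact abs_nonneg _) _ (List.mem_map_of_mem he)
  have hnn : 0 ≤ (g.deriv'.map fun e => |e.2.radius|).sum := List.sum_nonneg (by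
    intro x hx
    obtain ⟨e, _, rfl⟩ := List.mem_map.1 hx
    exact abs_nonneg _)
  refine HasDerivAt.congr_of_eventuallyEq ?_
    (periodize_eventually (N := N) (Bump.vanish hg) (by linarith))
  have h1 : HasDerivAt (fun z => ∑ m ∈ Finset.Icc (-(N : ℤ)) N, g.eval (z + m))
      (∑ m ∈ Finset.Icc (-(N : ℤ)) N,
        (g.deriv'.map fun e => e.1.val * e.2.eval (y + m)).sum) y :=
    HasDerivAt.fun_sum fun m _ =>
      HasDerivAt.comp_add_const y (m : ℝ) (Bump.hasDerivAt hg (y + m))
  refine h1.congr_deriv ?_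
  rw [sum_list_comm]
  refine congrArg List.sum (List.map_congr_left fun e he => ?_)
  have hgr : 0 ≤ g.radius := by unfold Bump.radius; positivity
  rw [periodize_eq_sum (N := N) (Bump.vanish (Bump.deriv'_valid hg e he).1)
    (by linarith [hsum e he, le_abs_self e.2.radius]), Finset.mul_sum]

end

end Vale.Agent.P113
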