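import Vale.Agent.P113.Velocity

/-! P113: the force compiler is primitive recursive. -/

namespace Vale.Agent.P113

open Primrec

variable {α : Type} [Primcodable α]

noncomputable section

lemma primrec_pow {f g : α → ℕ} (hf : Primrec f) (hg : Primrec g) :
    Primrec fun a => f a ^ g a :=
  (Primrec₂.unpaired'.1 Nat.Primrec.pow : Primrec₂ ((· ^ ·) : ℕ → ℕ → ℕ)).comp hf hg

lemma primrec_add {f g : α → ℕ} (hf : Primrec f) (hg : Primrec g) :
    Primrec fun a => f a + g a := nat_add.comp hf hg

lemma primrec_mul {f g : α → ℕ} (hf : Primrec f) (hg : Primrec g) :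
    Primrec fun a => f a * g a := nat_mul.comp hf hg

lemma primrec_cons {β : Type} [Primcodable β] {f : α → β} {g : α → List β} (hf : Primrec f)
    (hg : Primrec g) : Primrec fun a => f a :: g a := list_cons.comp hf hg

lemma primrec_append {β : Type} [Primcodable β] {f g : α → List β} (hf : Primrec f)
    (hg : Primrec g) : Primrec fun a => f a ++ g a := list_append.comp hf hg

lemma primrec_single {β : Type} [Primcodable β] {f : α → β} (hf : Primrec f) :
    Primrec fun a => [f a] := primrec_cons hf (const [])

lemma primrec_two {β : Type} [Primcodable β] {f g : α → β} (hf : Primrec f) (hg : Primrec g) :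
    Primrec fun a => [f a, g a] := primrec_cons hf (primrec_single hg)

/-! ### Codes -/

lemma rat_prod : Primrec fun r : RatCode => (r.pos, r.neg, r.den) :=
  Primrec.of_equiv (e := RatCode.equivProd)

lemma rat_mk {f g h : α → ℕ} (hf : Primrec f) (hg : Primrec g) (hh : Primrec h) :
    Primrec fun a => RatCode.mk (f a) (g a) (h a) :=
  (Primrec.of_equiv_symm (e := RatCode.equivProd)).comp (hf.pair (hg.pair hh))

lemma rat_pos {f : α → RatCode} (hf : Primrec f) : Primrec fun a => (f a).pos :=
  fst.comp (rat_prod.comp hf)

lemma rat_neg {f : α → RatCode} (hf : Primrec f) : Primrec fun a => (f a).neg :=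
  fst.comp (snd.comp (rat_prod.comp hf))

lemma rat_den {f : α → RatCode} (hf : Primrec f) : Primrec fun a => (f a).den :=
  snd.comp (snd.comp (rat_prod.comp hf))

lemma rat_ofNat {f : α → ℕ} (hf : Primrec f) : Primrec fun a => RatCode.ofNat' (f a) :=
  rat_mk hf (const 0) (const 1)

lemma rat_add {f g : α → RatCode} (hf : Primrec f) (hg : Primrec g) :
    Primrec fun a => (f a).add' (g a) :=
  rat_mk (primrec_add (primrec_mul (rat_pos hf) (rat_den hg)) (primrec_mul (rat_pos hg) (rat_den hf)))
    (primrec_add (primrec_mul (rat_neg hf) (rat_den hg)) (primrec_mul (rat_neg hg) (rat_den hf)))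
    (primrec_mul (rat_den hf) (rat_den hg))

lemma rat_mul {f g : α → RatCode} (hf : Primrec f) (hg : Primrec g) :
    Primrec fun a => (f a).mul' (g a) :=
  rat_mk (primrec_add (primrec_mul (rat_pos hf) (rat_pos hg)) (primrec_mul (rat_neg hf) (rat_neg hg)))
    (primrec_add (primrec_mul (rat_pos hf) (rat_neg hg)) (primrec_mul (rat_neg hf) (rat_pos hg)))
    (primrec_mul (rat_den hf) (rat_den hg))

lemma rat_negate {f : α → RatCode} (hf : Primrec f) : Primrec fun a => (f a).neg' :=
  rat_mk (rat_neg hf) (rat_pos hf) (rat_den hf)

lemma rat_times {f : α → ℕ} {g : α → RatCode} (hf : Primrec f) (hg : Primrec g) :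
    Primrec fun a => RatCode.times (f a) (g a) := rat_mul (rat_ofNat hf) hg

lemma bump_prod : Primrec fun g : Bump => (g.isPi, g.k, g.j, g.a, g.b, g.l) :=
  Primrec.of_equiv (e := Bump.equivProd)

lemma bump_mk {p : α → Bool} {k j : α → ℕ} {a b l : α → RatCode} (hp : Primrec p)
    (hk : Primrec k) (hj : Primrec j) (ha : Primrec a) (hb : Primrec b) (hl : Primrec l) :
    Primrec fun x => Bump.mk (p x) (k x) (j x) (a x) (b x) (l x) :=
  (Primrec.of_equiv_symm (e := Bump.equivProd)).comp
    (hp.pair (hk.pair (hj.pair (ha.pair (hb.pair hl)))))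

lemma bump_isPi : Primrec Bump.isPi := fst.comp bump_prod
lemma bump_k : Primrec Bump.k := fst.comp (snd.comp bump_prod)
lemma bump_j : Primrec Bump.j := fst.comp (snd.comp (snd.comp bump_prod))
lemma bump_a : Primrec Bump.a := fst.comp (snd.comp (snd.comp (snd.comp bump_prod)))
lemma bump_b : Primrec Bump.b :=
  fst.comp (snd.comp (snd.comp (snd.comp (snd.comp bump_prod))))
lemma bump_l : Primrec Bump.l :=
  snd.comp (snd.comp (snd.comp (snd.comp (snd.comp bump_prod))))

lemma bump_deriv : Primrec Bump.deriv' :=
  Primrec.cond bump_isPi
    (primrec_cons ((rat_ofNat bump_k).pair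
        (bump_mk bump_isPi (nat_sub.comp bump_k (const 1)) bump_j bump_a bump_b bump_l))
      (primrec_two (bump_a.pair (bump_mk (const false) bump_k (const 0) bump_a bump_b bump_l))
        ((rat_negate bump_a).pair
          (bump_mk (const false) bump_k (const 0) bump_a (rat_add bump_b bump_l) bump_l))))
    (primrec_two ((rat_ofNat bump_k).pair
        (bump_mk bump_isPi (nat_sub.comp bump_k (const 1)) bump_j bump_a bump_b bump_l))
      (bump_a.pair (bump_mk (const false) bump_k (primrec_add bump_j (const 1)) bump_a bump_b
        bump_l)))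

lemma tf_prod : Primrec fun θ : TimeFactor => (θ.periodized, θ.bump) :=
  Primrec.of_equiv (e := TimeFactor.equivProd)

lemma tf_mk {p : α → Bool} {g : α → Bump} (hp : Primrec p) (hg : Primrec g) :
    Primrec fun x => TimeFactor.mk (p x) (g x) :=
  (Primrec.of_equiv_symm (e := TimeFactor.equivProd)).comp (hp.pair hg)

lemma log_mk {f g : α → ℕ} (hf : Primrec f) (hg : Primrec g) :
    Primrec fun x => LogArg.mk (f x) (g x) :=
  (Primrec.of_equiv_symm (e := LogArg.equivProd)).comp (hf.pair hg)

lemma term_prod : Primrec Term.toProd := Primrec.of_equiv (e := Term.equivProd)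

lemma term_mk {q : α → RatCode} {m a b : α → ℕ} {r : α → List LogArg} {θ : α → List TimeFactor}
    {g1 g2 g3 : α → List Bump} (hq : Primrec q) (hm : Primrec m) (ha : Primrec a) (hb : Primrec b)
    (hr : Primrec r) (hθ : Primrec θ) (h1 : Primrec g1) (h2 : Primrec g2) (h3 : Primrec g3) :
    Primrec fun x => Term.mk (q x) (m x) (a x) (b x) (r x) (θ x) (g1 x) (g2 x) (g3 x) :=
  (Primrec.of_equiv_symm (e := Term.equivProd)).comp
    ((hq.pair ((hm.pair (ha.pair hb)).pair hr)).pair (hθ.pair (h1.pair (h2.pair h3))))

lemma term_q : Primrec Term.q := (fst.comp (fst.comp term_prod)).of_eq fun _ => rfl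
lemma term_m : Primrec Term.m :=
  (fst.comp (fst.comp (snd.comp (fst.comp term_prod)))).of_eq fun _ => rfl
lemma term_kPos : Primrec Term.kPos :=
  (fst.comp (snd.comp (fst.comp (snd.comp (fst.comp term_prod))))).of_eq fun _ => rfl
lemma term_kNeg : Primrec Term.kNeg :=
  (snd.comp (snd.comp (fst.comp (snd.comp (fst.comp term_prod))))).of_eq fun _ => rfl
lemma term_logs : Primrec Term.logs :=
  (snd.comp (snd.comp (fst.comp term_prod))).of_eq fun _ => rfl
lemma term_time : Primrec Term.time := (fst.comp (snd.comp term_prod)).of_eq fun _ => rfl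
lemma term_h1 : Primrec Term.h1 := (fst.comp (snd.comp (snd.comp term_prod))).of_eq fun _ => rfl
lemma term_h2 : Primrec Term.h2 :=
  (fst.comp (snd.comp (snd.comp (snd.comp term_prod)))).of_eq fun _ => rfl
lemma term_h3 : Primrec Term.h3 :=
  (snd.comp (snd.comp (snd.comp (snd.comp term_prod)))).of_eq fun _ => rfl

/-! ### Derivatives and products -/

lemma dSpace_primrec : Primrec dSpace := by
  have h : Primrec fun gs : List Bump =>
      List.recOn (motive := fun _ => List (RatCode × List Bump)) gs []
        fun g gs ih => (g.deriv'.map fun e => (e.1, e.2 :: gs)) ++ ih.map fun e => (e.1, g :: e.2) :=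
    list_rec (σ := List (RatCode × List Bump))
      (h := fun _ (p : Bump × List Bump × List (RatCode × List Bump)) =>
        (p.1.deriv'.map fun e => (e.1, e.2 :: p.2.1)) ++ p.2.2.map fun e => (e.1, p.1 :: e.2))
      Primrec.id (const [])
      (Primrec₂.mk (primrec_append
        (list_map (bump_deriv.comp (fst.comp snd))
          (Primrec₂.mk ((fst.comp snd).pair
            (primrec_cons (snd.comp snd) (fst.comp (snd.comp (snd.comp fst)))))))
        (list_map (snd.comp (snd.comp snd))
          (Primrec₂.mk ((fst.comp snd).pair
            (primrec_cons (fst.comp (snd.comp fst)) (snd.comp snd)))))))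
  refine h.of_eq fun gs => ?_
  induction gs with
  | nil => rfl
  | cons g gs ih => simp only [dSpace, ← ih]

lemma dTime_primrec : Primrec dTime := by
  have h : Primrec fun gs : List TimeFactor =>
      List.recOn (motive := fun _ => List (RatCode × List TimeFactor)) gs []
        fun g gs ih => (g.bump.deriv'.map fun e => (e.1, ⟨g.periodized, e.2⟩ :: gs)) ++
          ih.map fun e => (e.1, g :: e.2) :=
    list_rec (σ := List (RatCode × List TimeFactor))
      (h := fun _ (p : TimeFactor × List TimeFactor × List (RatCode × List TimeFactor)) =>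
        (p.1.bump.deriv'.map fun e => (e.1, ⟨p.1.periodized, e.2⟩ :: p.2.1)) ++
          p.2.2.map fun e => (e.1, p.1 :: e.2))
      Primrec.id (const [])
      (Primrec₂.mk (primrec_append
        (list_map (bump_deriv.comp (snd.comp (tf_prod.comp (fst.comp snd))))
          (Primrec₂.mk ((fst.comp snd).pair
            (primrec_cons
              (tf_mk (fst.comp (tf_prod.comp (fst.comp (snd.comp fst)))) (snd.comp snd))
              (fst.comp (snd.comp (snd.comp fst)))))))
        (list_map (snd.comp (snd.comp snd))
          (Primrec₂.mk ((fst.comp snd).pair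
            (primrec_cons (fst.comp (snd.comp fst)) (snd.comp snd)))))))
  refine h.of_eq fun gs => ?_
  induction gs with
  | nil => rfl
  | cons g gs ih => simp only [dTime, ← ih]

lemma dt_primrec : Primrec Term.dt :=
  list_map (dTime_primrec.comp term_time) (Primrec₂.mk
    (term_mk (rat_mul (term_q.comp fst) (fst.comp snd)) (term_m.comp fst) (term_kPos.comp fst)
      (term_kNeg.comp fst) (term_logs.comp fst) (snd.comp snd) (term_h1.comp fst)
      (term_h2.comp fst) (term_h3.comp fst)))

lemma d1_primrec : Primrec Term.d1 :=
  list_map (dSpace_primrec.comp term_h1) (Primrec₂.mk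
    (term_mk (rat_mul (term_q.comp fst) (fst.comp snd)) (term_m.comp fst) (term_kPos.comp fst)
      (term_kNeg.comp fst) (term_logs.comp fst) (term_time.comp fst) (snd.comp snd)
      (term_h2.comp fst) (term_h3.comp fst)))

lemma d2_primrec : Primrec Term.d2 :=
  list_map (dSpace_primrec.comp term_h2) (Primrec₂.mk
    (term_mk (rat_mul (term_q.comp fst) (fst.comp snd)) (term_m.comp fst) (term_kPos.comp fst)
      (term_kNeg.comp fst) (term_logs.comp fst) (term_time.comp fst) (term_h1.comp fst)
      (snd.comp snd) (term_h3.comp fst)))

lemma d3_primrec : Primrec Term.d3 :=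
  list_map (dSpace_primrec.comp term_h3) (Primrec₂.mk
    (term_mk (rat_mul (term_q.comp fst) (fst.comp snd)) (term_m.comp fst) (term_kPos.comp fst)
      (term_kNeg.comp fst) (term_logs.comp fst) (term_time.comp fst) (term_h1.comp fst)
      (term_h2.comp fst) (snd.comp snd)))

lemma dx_primrec (j : Fin 3) : Primrec (Term.dx j) := by
  rcases fin3_cases j with rfl | rfl | rfl
  · exact d1_primrec
  · exact d2_primrec
  · exact d3_primrec

lemma dxL_primrec (j : Fin 3) {f : α → List Term} (hf : Primrec f) :
    Primrec fun a => dxL j (f a) :=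
  list_flatMap hf ((dx_primrec j).comp snd).to₂

lemma dtL_primrec {f : α → List Term} (hf : Primrec f) : Primrec fun a => dtL (f a) :=
  list_flatMap hf (dt_primrec.comp snd).to₂

lemma term_mul_primrec {f g : α → Term} (hf : Primrec f) (hg : Primrec g) :
    Primrec fun a => (f a).mul' (g a) :=
  term_mk (rat_mul (term_q.comp hf) (term_q.comp hg))
    (primrec_add (term_m.comp hf) (term_m.comp hg))
    (primrec_add (term_kPos.comp hf) (term_kPos.comp hg))
    (primrec_add (term_kNeg.comp hf) (term_kNeg.comp hg))
    (primrec_append (term_logs.comp hf) (term_logs.comp hg))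
    (primrec_append (term_time.comp hf) (term_time.comp hg))
    (primrec_append (term_h1.comp hf) (term_h1.comp hg))
    (primrec_append (term_h2.comp hf) (term_h2.comp hg))
    (primrec_append (term_h3.comp hf) (term_h3.comp hg))

lemma mulL_primrec {f g : α → List Term} (hf : Primrec f) (hg : Primrec g) :
    Primrec fun a => mulL (f a) (g a) :=
  list_flatMap hf (Primrec₂.mk
    (list_map (hg.comp fst) (Primrec₂.mk (term_mul_primrec (snd.comp fst) snd))))

lemma negNu_primrec : Primrec Term.negNu :=
  term_mk (rat_negate term_q) (primrec_add term_m (const 1)) term_kPos term_kNeg term_logs term_time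
    term_h1 term_h2 term_h3

lemma forceList_primrec {U : α → TermLists} {L : α → List Term} (hU : Primrec U)
    (hL : Primrec L) : Primrec fun a => forceList (U a) (L a) :=
  primrec_append
    (primrec_append (dtL_primrec hL)
      (primrec_append
        (primrec_append (mulL_primrec (fst.comp hU) (dxL_primrec 0 hL))
          (mulL_primrec (fst.comp (snd.comp hU)) (dxL_primrec 1 hL)))
        (mulL_primrec (snd.comp (snd.comp hU)) (dxL_primrec 2 hL))))
    (list_map
      (primrec_append (primrec_append (dxL_primrec 0 (dxL_primrec 0 hL))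
        (dxL_primrec 1 (dxL_primrec 1 hL))) (dxL_primrec 2 (dxL_primrec 2 hL)))
      (negNu_primrec.comp snd).to₂)

lemma forceLists_primrec {U : α → TermLists} (hU : Primrec U) :
    Primrec fun a => forceLists (U a) :=
  (forceList_primrec hU (fst.comp hU)).pair
    ((forceList_primrec hU (fst.comp (snd.comp hU))).pair
      (forceList_primrec hU (snd.comp (snd.comp hU))))

/-! ### Machines -/

lemma machine_prod : Primrec fun M : Machine =>
    (M.numSyms, M.numStates, M.start, M.halting, M.table) :=
  Primrec.of_equiv (e := Machine.equivProd)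

lemma m_syms : Primrec Machine.numSyms := fst.comp machine_prod
lemma m_states : Primrec Machine.numStates := fst.comp (snd.comp machine_prod)
lemma m_start : Primrec Machine.start := fst.comp (snd.comp (snd.comp machine_prod))
lemma m_halting : Primrec Machine.halting :=
  fst.comp (snd.comp (snd.comp (snd.comp machine_prod)))
lemma m_table : Primrec Machine.table :=
  snd.comp (snd.comp (snd.comp (snd.comp machine_prod)))

lemma rule_prod : Primrec fun r : Rule => ((r.q, r.a), (r.q', r.a', r.dir)) :=
  Primrec.of_equiv (e := Rule.equivProd)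

lemma find?_eq_getElem? {β : Type} (p : β → Bool) : ∀ l : List β,
    l.find? p = l[l.findIdx p]? := by
  intro l
  induction l with
  | nil => rfl
  | cons a l ih => cases h : p a <;> simp [List.find?_cons, List.findIdx_cons, h, ih]

lemma primrec_beq {f g : α → ℕ} (hf : Primrec f) (hg : Primrec g) :
    Primrec fun a => f a == g a := Primrec.beq.comp hf hg

lemma next_primrec {M : α → Machine} {q a : α → ℕ} (hM : Primrec M) (hq : Primrec q)
    (ha : Primrec a) : Primrec fun x => (M x).next (q x) (a x) := by
  have hfind : Primrec fun x => (M x).rule (q x) (a x) :=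
    (list_getElem?.comp (m_table.comp hM)
      (list_findIdx (m_table.comp hM) (Primrec₂.mk
        (Primrec.and.comp (primrec_beq (fst.comp (fst.comp (rule_prod.comp snd))) (hq.comp fst))
          (primrec_beq (snd.comp (fst.comp (rule_prod.comp snd))) (ha.comp fst)))))).of_eq
      fun x => (find?_eq_getElem? _ _).symm
  exact option_getD.comp (option_map hfind (snd.comp (rule_prod.comp snd)).to₂)
    ((m_states.comp hM).pair (ha.pair (const Dir.stay)))

lemma isHalt_primrec {M : α → Machine} {q : α → ℕ} (hM : Primrec M) (hq : Primrec q) :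
    Primrec fun x => (M x).isHalt (q x) :=
  (Primrec.ite (c := fun x => (M x).halting.findIdx (fun h => h == q x) < (M x).halting.length)
    (nat_lt.comp (list_findIdx (m_halting.comp hM)
      (Primrec₂.mk (primrec_beq snd (hq.comp fst)))) (list_length.comp (m_halting.comp hM)))
    (const true) (const false)).of_eq fun x => by
      by_cases h : q x ∈ (M x).halting
      · rw [if_pos (List.findIdx_lt_length.2 ⟨q x, h, beq_iff_eq.2 rfl⟩ :
          (M x).halting.findIdx (fun h => h == q x) < (M x).halting.length)]
        exact (decide_eq_true h).symm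
      · rw [if_neg ?_]
        · exact (decide_eq_false h).symm
        · intro hlt
          obtain ⟨y, hy, he⟩ := List.findIdx_lt_length.1 hlt
          exact h (eq_of_beq he ▸ hy)

lemma bnum_primrec {f : α → Bool} (hf : Primrec f) : Primrec fun a => bnum (f a) :=
  Primrec.cond hf (const 1) (const 0)

lemma code4 {f g h : α → ℕ} (k : ℕ) (hf : Primrec f) (hg : Primrec g) (hh : Primrec h) :
    Primrec fun a => Nat.pair k (Nat.pair (f a) (Nat.pair (g a) (h a))) :=
  Primrec₂.natPair.comp (const k) (Primrec₂.natPair.comp hf (Primrec₂.natPair.comp hg hh))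

lemma c_tape {f : α → ℕ} (hf : Primrec f) : Primrec fun a => (Sym.tape (f a)).code :=
  code4 0 hf (const 0) (const 0)
lemma c_mark {f : α → ℕ} (hf : Primrec f) : Primrec fun a => (Sym.mark (f a)).code :=
  code4 1 hf (const 0) (const 0)
lemma c_record {q a : α → ℕ} {f : α → Bool} (hq : Primrec q) (ha : Primrec a) (hf : Primrec f) :
    Primrec fun x => (Sym.record (q x) (a x) (f x)).code := code4 3 hq ha (bnum_primrec hf)
lemma c_work {f : α → ℕ} (hf : Primrec f) : Primrec fun a => (Sym.work (f a)).code :=
  code4 4 hf (const 0) (const 0)
lemma c_down {q a : α → ℕ} {f : α → Bool} (hq : Primrec q) (ha : Primrec a) (hf : Primrec f) :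
    Primrec fun x => (Sym.down (q x) (a x) (f x)).code := code4 5 hq ha (bnum_primrec hf)
lemma c_up {f : α → ℕ} (hf : Primrec f) : Primrec fun a => (Sym.up (f a)).code :=
  code4 6 hf (const 0) (const 0)
lemma c_bottom : Primrec fun _ : α => Sym.bottom.code := const _
lemma c_park : Primrec fun _ : α => Sym.park.code := const _

/-- `Cyl` as a product. -/
def Cyl.equivProd : Cyl ≃ (Bool × List ℕ × List ℕ) where
  toFun A := (A.zone, A.wx, A.wy)
  invFun p := ⟨p.1, p.2.1, p.2.2⟩
  left_inv _ := rfl
  right_inv _ := rfl

instance : Primcodable Cyl := Primcodable.ofEquiv _ Cyl.equivProd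

lemma cyl_mk {z : α → Bool} {u v : α → List ℕ} (hz : Primrec z) (hu : Primrec u) (hv : Primrec v) :
    Primrec fun a => Cyl.mk (z a) (u a) (v a) :=
  (Primrec.of_equiv_symm (e := Cyl.equivProd)).comp (hz.pair (hu.pair hv))

lemma cyl_prod : Primrec fun A : Cyl => (A.zone, A.wx, A.wy) :=
  Primrec.of_equiv (e := Cyl.equivProd)

lemma cyl_zone {f : α → Cyl} (hf : Primrec f) : Primrec fun a => (f a).zone :=
  fst.comp (cyl_prod.comp hf)
lemma cyl_wx {f : α → Cyl} (hf : Primrec f) : Primrec fun a => (f a).wx :=
  fst.comp (snd.comp (cyl_prod.comp hf))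
lemma cyl_wy {f : α → Cyl} (hf : Primrec f) : Primrec fun a => (f a).wy :=
  snd.comp (snd.comp (cyl_prod.comp hf))

/-- The source and target of an index. -/
def Idx.ends (M : Machine) (i : Idx) : Cyl × Cyl := (i.src, i.tgt M)

lemma pair_enterR {M : α → Machine} {q a c : α → ℕ} (hM : Primrec M) (hq : Primrec q)
    (ha : Primrec a) (hc : Primrec c) :
    Primrec fun x => (Idx.enterR (q x) (a x) (c x)).ends (M x) :=
  (cyl_mk (const false) (primrec_single (c_work hq)) (primrec_two (c_tape ha) (c_tape hc))).pair
    (cyl_mk (const false)
      (primrec_two (c_down hq ha (const false)) (c_tape (fst.comp (snd.comp (next_primrec hM hq ha)))))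
      (primrec_single (c_tape hc)))

lemma pair_enterS {M : α → Machine} {q a : α → ℕ} (hM : Primrec M) (hq : Primrec q)
    (ha : Primrec a) :
    Primrec fun x => (Idx.enterS (q x) (a x)).ends (M x) :=
  (cyl_mk (const false) (primrec_single (c_work hq)) (primrec_single (c_tape ha))).pair
    (cyl_mk (const false) (primrec_single (c_down hq ha (const false)))
      (primrec_single (c_tape (fst.comp (snd.comp (next_primrec hM hq ha))))))

lemma pair_enterL {M : α → Machine} {q a c : α → ℕ} (hM : Primrec M) (hq : Primrec q)
    (ha : Primrec a) (hc : Primrec c) :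
    Primrec fun x => (Idx.enterL (q x) (a x) (c x)).ends (M x) :=
  (cyl_mk (const false) (primrec_two (c_work hq) (c_tape hc)) (primrec_single (c_tape ha))).pair
    (cyl_mk (const false) (primrec_single (c_down hq ha (const false)))
      (primrec_two (c_tape hc) (c_tape (fst.comp (snd.comp (next_primrec hM hq ha))))))

lemma pair_enterB {M : α → Machine} {q a : α → ℕ} (hM : Primrec M) (hq : Primrec q)
    (ha : Primrec a) :
    Primrec fun x => (Idx.enterB (q x) (a x)).ends (M x) :=
  (cyl_mk (const false) (primrec_two (c_work hq) c_bottom) (primrec_single (c_tape ha))).pair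
    (cyl_mk (const false) (primrec_two (c_down hq ha (const true)) c_bottom)
      (primrec_two (c_tape (const 0)) (c_tape (fst.comp (snd.comp (next_primrec hM hq ha))))))

lemma entries_primrec {M : α → Machine} {q a : α → ℕ} (hM : Primrec M) (hq : Primrec q)
    (ha : Primrec a) :
    Primrec fun x => ((M x).entries (q x) (a x)).map (fun i => i.ends (M x)) := by
  have hd : Primrec fun x => ((M x).next (q x) (a x)).2.2 :=
    snd.comp (snd.comp (next_primrec hM hq ha))
  have hr := list_range.comp (m_syms.comp hM)
  have h : Primrec fun x => bif (M x).isHalt (q x) then [] else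
      if ((M x).next (q x) (a x)).2.2 = Dir.right then
        (List.range (M x).numSyms).map fun c => (Idx.enterR (q x) (a x) c).ends (M x)
      else if ((M x).next (q x) (a x)).2.2 = Dir.stay then [(Idx.enterS (q x) (a x)).ends (M x)]
      else (Idx.enterB (q x) (a x)).ends (M x) ::
        (List.range (M x).numSyms).map fun c => (Idx.enterL (q x) (a x) c).ends (M x) :=
    Primrec.cond (isHalt_primrec hM hq) (const [])
      (Primrec.ite (Primrec.eq.comp hd (const Dir.right))
        (list_map hr (Primrec₂.mk
          (pair_enterR (hM.comp fst) (hq.comp fst) (ha.comp fst) snd)))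
        (Primrec.ite (Primrec.eq.comp hd (const Dir.stay))
          (primrec_single (pair_enterS hM hq ha))
          (primrec_cons (pair_enterB hM hq ha) (list_map hr (Primrec₂.mk
            (pair_enterL (hM.comp fst) (hq.comp fst) (ha.comp fst) snd))))))
  refine h.of_eq fun x => ?_
  unfold Machine.entries
  cases (M x).isHalt (q x) <;> cases ((M x).next (q x) (a x)).2.2 <;>
    simp [List.map_map, Function.comp_def]

/-- The sources and targets of all branches. -/
def Machine.allEnds (M : Machine) : List (Cyl × Cyl) := M.branches.map (fun i => i.ends M)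

lemma allEnds_eq (M : Machine) : M.allEnds =
    (List.range (M.numStates + 1)).flatMap (fun q => (List.range M.numSyms).flatMap fun a =>
      (M.entries q a).map (fun i => i.ends M)) ++
    ((List.range (M.numStates + 1)).flatMap (fun q => (List.range M.numSyms).flatMap fun a =>
        [false, true].flatMap fun f => (Idx.downEnd q a f).ends M ::
          (List.range M.numSyms).map fun c => (Idx.downLoop q a f c).ends M) ++
    ((List.range (M.numStates + 1)).flatMap (fun q => (List.range M.numSyms).flatMap fun c =>
      [(Idx.upLoop q c).ends M, (Idx.upEnd q c).ends M]) ++ [Idx.park.ends M])) := by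
  simp [Machine.allEnds, Machine.branches, List.map_flatMap, List.map_map, Function.comp_def]

lemma allEnds_primrec {M : α → Machine} (hM : Primrec M) : Primrec fun x => (M x).allEnds := by
  refine Primrec.of_eq ?_ fun x => (allEnds_eq (M x)).symm
  have hq : Primrec fun x => List.range ((M x).numStates + 1) :=
    list_range.comp (primrec_add (m_states.comp hM) (const 1))
  have ha : Primrec fun p : α × ℕ => List.range (M p.1).numSyms :=
    list_range.comp (m_syms.comp (hM.comp fst))
  refine primrec_append (list_flatMap hq (Primrec₂.mk (list_flatMap ha (Primrec₂.mk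
    (entries_primrec (hM.comp (fst.comp fst)) (snd.comp fst) snd)))))
    (primrec_append (list_flatMap hq (Primrec₂.mk (list_flatMap ha (Primrec₂.mk
      (list_flatMap (const [false, true]) (Primrec₂.mk (primrec_cons ?_ (list_map
        (list_range.comp (m_syms.comp (hM.comp (fst.comp (fst.comp fst)))))
        (Primrec₂.mk ?_))))))))) (primrec_append (list_flatMap hq (Primrec₂.mk
      (list_flatMap ha (Primrec₂.mk (primrec_two ?_ ?_))))) (primrec_single ?_)))
  · exact (cyl_mk (const false)
      (primrec_two (c_down (snd.comp (fst.comp fst)) (snd.comp fst) snd) c_bottom) (const [])).pair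
      (cyl_mk (const false)
        (primrec_cons (c_up (fst.comp (next_primrec (hM.comp (fst.comp (fst.comp fst)))
            (snd.comp (fst.comp fst)) (snd.comp fst))))
          (primrec_two c_bottom (c_record (snd.comp (fst.comp fst)) (snd.comp fst) snd)))
        (const []))
  · exact (cyl_mk (const false)
      (primrec_two (c_down (snd.comp (fst.comp (fst.comp fst))) (snd.comp (fst.comp fst))
        (snd.comp fst)) (c_tape snd)) (const [])).pair
      (cyl_mk (const false)
        (primrec_single (c_down (snd.comp (fst.comp (fst.comp fst))) (snd.comp (fst.comp fst))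
          (snd.comp fst))) (primrec_single (c_mark snd)))
  · exact (cyl_mk (const false) (primrec_single (c_up (snd.comp fst)))
      (primrec_single (c_mark snd))).pair
      (cyl_mk (const false) (primrec_two (c_up (snd.comp fst)) (c_tape snd)) (const []))
  · exact (cyl_mk (const false) (primrec_single (c_up (snd.comp fst)))
      (primrec_single (c_tape snd))).pair
      (cyl_mk (isHalt_primrec (hM.comp (fst.comp fst)) (snd.comp fst))
        (primrec_single (c_work (snd.comp fst))) (primrec_single (c_tape snd)))
  · exact (cyl_mk (const true) (const []) (const [])).pair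
      (cyl_mk (const true) (primrec_single c_park) (const []))

lemma slots_eq (M : Machine) : M.slots = M.allEnds.length := by
  simp [Machine.slots, Machine.allEnds]

lemma slot_ends (M : Machine) (j : ℕ) :
    (M.slot j).ends M = M.allEnds.getD j (Idx.park.ends M) := by
  rw [Machine.allEnds, List.getD_map]
  rfl

lemma slots_primrec {M : α → Machine} (hM : Primrec M) : Primrec fun x => (M x).slots :=
  (list_length.comp (allEnds_primrec hM)).of_eq fun x => (slots_eq _).symm

lemma slotEnds_primrec {M : α → Machine} {j : α → ℕ} (hM : Primrec M) (hj : Primrec j) :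
    Primrec fun x => ((M x).slot (j x)).ends (M x) :=
  (option_getD.comp (list_getElem?.comp (allEnds_primrec hM) hj)
    ((cyl_mk (const true) (const []) (const [])).pair
      (cyl_mk (const true) (primrec_single c_park) (const [])))).of_eq fun x => by
    rw [slot_ends, List.getD_eq_getElem?_getD]
    rfl

lemma digitBound_primrec {M : α → Machine} (hM : Primrec M) :
    Primrec fun x => (M x).digitBound := by
  have hw : Primrec fun x => (M x).width :=
    primrec_add (primrec_mul (const 2) (primrec_add (m_states.comp hM) (m_syms.comp hM))) (const 10)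
  have h4 := primrec_mul (primrec_mul hw hw) (primrec_mul hw hw)
  exact primrec_mul h4 h4

lemma base_primrec {M : α → Machine} (hM : Primrec M) : Primrec fun x => (M x).base :=
  primrec_add (primrec_mul (const 2) (digitBound_primrec hM)) (const 1)

lemma zoneNum_primrec {z : α → Bool} (hz : Primrec z) : Primrec fun x => zoneNum (z x) :=
  Primrec.cond hz (const 6) (const 1)

lemma wordNum_primrec {B : α → ℕ} {u : α → List ℕ} (hB : Primrec B) (hu : Primrec u) :
    Primrec fun x => wordNum (B x) (u x) := by
  have h : Primrec fun x => List.recOn (motive := fun _ => ℕ) (u x) 0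
      fun d l ih => (2 * d + 1) * B x ^ l.length + ih :=
    list_rec (σ := ℕ) (h := fun x (p : ℕ × List ℕ × ℕ) => (2 * p.1 + 1) * B x ^ p.2.1.length + p.2.2)
      hu (const 0) (Primrec₂.mk (primrec_add
        (primrec_mul (primrec_add (primrec_mul (const 2) (fst.comp snd)) (const 1))
          (primrec_pow (hB.comp fst) (list_length.comp (fst.comp (snd.comp snd)))))
        (snd.comp (snd.comp snd))))
  refine h.of_eq fun x => ?_
  induction u x with
  | nil => rfl
  | cons d l ih => simp only [wordNum, ← ih]

lemma xLo_primrec {B : α → ℕ} {z : α → Bool} {u : α → List ℕ} (hB : Primrec B) (hz : Primrec z)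
    (hu : Primrec u) : Primrec fun x => xLo (B x) (z x) (u x) :=
  rat_mk (primrec_add (primrec_mul (zoneNum_primrec hz) (primrec_pow hB (list_length.comp hu)))
      (primrec_mul (const 3) (wordNum_primrec hB hu)))
    (const 0) (primrec_mul (const 10) (primrec_pow hB (list_length.comp hu)))

lemma xHi_primrec {B : α → ℕ} {z : α → Bool} {u : α → List ℕ} (hB : Primrec B) (hz : Primrec z)
    (hu : Primrec u) : Primrec fun x => xHi (B x) (z x) (u x) :=
  rat_mk (primrec_add (primrec_add
        (primrec_mul (zoneNum_primrec hz) (primrec_pow hB (list_length.comp hu)))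
        (primrec_mul (const 3) (wordNum_primrec hB hu))) (const 3))
    (const 0) (primrec_mul (const 10) (primrec_pow hB (list_length.comp hu)))

lemma xPoint_primrec {M : α → Machine} {z : α → Bool} {u : α → List ℕ} (hM : Primrec M)
    (hz : Primrec z) (hu : Primrec u) : Primrec fun x => xPoint (M x) (z x) (u x) := by
  have h2 := primrec_mul (const 2) (digitBound_primrec hM)
  have hp := primrec_pow (base_primrec hM) (list_length.comp hu)
  exact rat_mk (primrec_add (primrec_mul (primrec_mul (zoneNum_primrec hz) hp) h2)
      (primrec_mul (const 3) (primrec_add (primrec_mul (wordNum_primrec (base_primrec hM) hu) h2)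
        (const 1))))
    (const 0) (primrec_mul (primrec_mul (const 10) hp) h2)

lemma plateau_primrec {k A : α → ℕ} {lo hi : α → RatCode} (hk : Primrec k) (hA : Primrec A)
    (hlo : Primrec lo) (hhi : Primrec hi) :
    Primrec fun x => plateau (k x) (A x) (lo x) (hi x) :=
  bump_mk (const true) hk (const 0) (rat_ofNat hA) (rat_add (rat_times hA hlo) (const _))
    (rat_add (rat_times hA (rat_add hhi (rat_negate hlo))) (const _))

lemma height_primrec {M : α → Machine} {j : α → ℕ} (hM : Primrec M) (hj : Primrec j) :
    Primrec fun x => (M x).height (j x) :=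
  rat_mk (primrec_add (slots_primrec hM) (primrec_mul (const 2) hj)) (const 0)
    (primrec_mul (const 4) (slots_primrec hM))

lemma slope_primrec {M : α → Machine} (hM : Primrec M) : Primrec fun x => (M x).slope :=
  primrec_mul (const 20) (primrec_pow (base_primrec hM) (const 3))

lemma boxX_primrec {M : α → Machine} {A : α → Cyl} (hM : Primrec M) (hA : Primrec A) :
    Primrec fun x => boxX (M x) (A x) :=
  plateau_primrec (const 0) (slope_primrec hM)
    (xLo_primrec (base_primrec hM) (cyl_zone hA) (cyl_wx hA))
    (xHi_primrec (base_primrec hM) (cyl_zone hA) (cyl_wx hA))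

lemma boxY_primrec {M : α → Machine} {A : α → Cyl} (hM : Primrec M) (hA : Primrec A) :
    Primrec fun x => boxY (M x) (A x) :=
  plateau_primrec (const 0) (slope_primrec hM)
    (xLo_primrec (base_primrec hM) (const false) (cyl_wy hA))
    (xHi_primrec (base_primrec hM) (const false) (cyl_wy hA))

lemma slab_primrec {M : α → Machine} {j : α → ℕ} (k : ℕ) (hM : Primrec M) (hj : Primrec j) :
    Primrec fun x => slabBump (M x) k (j x) :=
  plateau_primrec (const k) (primrec_mul (const 16) (slots_primrec hM)) (height_primrec hM hj)
    (height_primrec hM hj)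

lemma lift_primrec {M : α → Machine} {c : α → RatCode} {A : α → Cyl} (k : ℕ) (hM : Primrec M)
    (hc : Primrec c) (hA : Primrec A) : Primrec fun x => liftTerm (M x) k (c x) (A x) :=
  term_mk (rat_times (const 20) hc) (const 0) (const 0) (const 3) (const []) (const _)
    (primrec_single (boxX_primrec hM hA)) (primrec_single (boxY_primrec hM hA)) (const [])

lemma shift_primrec {M : α → Machine} {j : α → ℕ} {c : α → RatCode} (k : ℕ) (hM : Primrec M)
    (hj : Primrec j) (hc : Primrec c) : Primrec fun x => shiftTerm (M x) k (j x) (c x) :=
  term_mk (rat_times (const 20) hc) (const 0) (const 0) (const 2) (const []) (const _)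
    (const []) (const []) (primrec_single (slab_primrec 0 hM hj))

lemma streamX_primrec {M : α → Machine} {j : α → ℕ} {r : α → LogArg} (hM : Primrec M)
    (hj : Primrec j) (hr : Primrec r) : Primrec fun x => streamX (M x) (j x) (r x) :=
  primrec_two
    (term_mk (const _) (const 0) (const 0) (const 3) (primrec_single hr) (const _) (const _)
      (const []) (primrec_single (slab_primrec 1 hM hj)))
    (term_mk (rat_times (const 20) (rat_negate (height_primrec hM hj))) (const 0) (const 0)
      (const 3) (primrec_single hr) (const _) (const _) (const [])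
      (primrec_single (slab_primrec 0 hM hj)))

lemma streamY_primrec {M : α → Machine} {j : α → ℕ} {r : α → LogArg} (hM : Primrec M)
    (hj : Primrec j) (hr : Primrec r) : Primrec fun x => streamY (M x) (j x) (r x) :=
  primrec_two
    (term_mk (const _) (const 0) (const 0) (const 3) (primrec_single hr) (const _) (const [])
      (const _) (primrec_single (slab_primrec 1 hM hj)))
    (term_mk (rat_times (const 20) (rat_negate (height_primrec hM hj))) (const 0) (const 0)
      (const 3) (primrec_single hr) (const _) (const []) (const _)
      (primrec_single (slab_primrec 0 hM hj)))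

lemma negate_primrec : Primrec Term.negate :=
  term_mk (rat_negate term_q) term_m term_kPos term_kNeg term_logs term_time term_h1 term_h2 term_h3

lemma slot_from_primrec {M : α → Machine} {j : α → ℕ} (hM : Primrec M) (hj : Primrec j) :
    Primrec fun x => ((M x).slot (j x)).src := fst.comp (slotEnds_primrec hM hj)

lemma slot_to_primrec {M : α → Machine} {j : α → ℕ} (hM : Primrec M) (hj : Primrec j) :
    Primrec fun x => ((M x).slot (j x)).tgt (M x) := snd.comp (slotEnds_primrec hM hj)

lemma ratioX_primrec {M : α → Machine} {j : α → ℕ} (hM : Primrec M) (hj : Primrec j) :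
    Primrec fun x => ratioX (M x) ((M x).slot (j x)).src (((M x).slot (j x)).tgt (M x)) :=
  log_mk (primrec_pow (base_primrec hM) (list_length.comp (cyl_wx (slot_from_primrec hM hj))))
    (primrec_pow (base_primrec hM) (list_length.comp (cyl_wx (slot_to_primrec hM hj))))

lemma ratioY_primrec {M : α → Machine} {j : α → ℕ} (hM : Primrec M) (hj : Primrec j) :
    Primrec fun x => ratioY (M x) ((M x).slot (j x)).src (((M x).slot (j x)).tgt (M x)) :=
  log_mk (primrec_pow (base_primrec hM) (list_length.comp (cyl_wy (slot_from_primrec hM hj))))
    (primrec_pow (base_primrec hM) (list_length.comp (cyl_wy (slot_to_primrec hM hj))))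

lemma slotU0_primrec {M : α → Machine} {j : α → ℕ} (hM : Primrec M) (hj : Primrec j) :
    Primrec fun x => slotU0 (M x) (j x) :=
  primrec_cons (shift_primrec 1 hM hj (rat_negate (xLo_primrec (base_primrec hM)
      (cyl_zone (slot_from_primrec hM hj)) (cyl_wx (slot_from_primrec hM hj)))))
    (primrec_cons (shift_primrec 3 hM hj (xLo_primrec (base_primrec hM)
        (cyl_zone (slot_to_primrec hM hj)) (cyl_wx (slot_to_primrec hM hj))))
      (dxL_primrec 2 (streamX_primrec hM hj (ratioX_primrec hM hj))))

lemma slotU1_primrec {M : α → Machine} {j : α → ℕ} (hM : Primrec M) (hj : Primrec j) :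
    Primrec fun x => slotU1 (M x) (j x) :=
  primrec_cons (shift_primrec 1 hM hj (rat_negate (xLo_primrec (base_primrec hM)
      (const false) (cyl_wy (slot_from_primrec hM hj)))))
    (primrec_cons (shift_primrec 3 hM hj (xLo_primrec (base_primrec hM)
        (const false) (cyl_wy (slot_to_primrec hM hj))))
      (dxL_primrec 2 (streamY_primrec hM hj (ratioY_primrec hM hj))))

lemma slotU2_primrec {M : α → Machine} {j : α → ℕ} (hM : Primrec M) (hj : Primrec j) :
    Primrec fun x => slotU2 (M x) (j x) :=
  primrec_cons (lift_primrec 0 hM (height_primrec hM hj) (slot_from_primrec hM hj))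
    (primrec_cons (lift_primrec 4 hM (rat_negate (height_primrec hM hj)) (slot_to_primrec hM hj))
      (list_map (primrec_append (dxL_primrec 0 (streamX_primrec hM hj (ratioX_primrec hM hj)))
        (dxL_primrec 1 (streamY_primrec hM hj (ratioY_primrec hM hj))))
        (negate_primrec.comp snd).to₂))

lemma perLists_primrec : Primrec perLists := by
  have hr : Primrec fun M : Machine => List.range M.slots :=
    list_range.comp (slots_primrec Primrec.id)
  exact (list_flatMap hr (Primrec₂.mk (slotU0_primrec fst snd))).pair
    ((list_flatMap hr (Primrec₂.mk (slotU1_primrec fst snd))).pair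
      (list_flatMap hr (Primrec₂.mk (slotU2_primrec fst snd))))

lemma cut_primrec : Primrec Term.cut :=
  term_mk (rat_negate term_q) term_m term_kPos (primrec_add term_kNeg (const 1)) term_logs
    (primrec_cons (const _) term_time) term_h1 term_h2 term_h3

lemma moveTerm_primrec {c : α → RatCode} (k : ℕ) (hc : Primrec c) :
    Primrec fun x => moveTerm k (c x) :=
  term_mk (rat_times (const 20) (rat_add hc (const _))) (const 0) (const 0) (const 1) (const [])
    (const _) (const []) (const []) (const [])

theorem compile_primrec : Primrec fun p : Machine × List ℕ => compile p.1 p.2 := by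
  have hM : Primrec fun p : Machine × List ℕ => p.1 := fst
  have hP : Primrec fun p : Machine × List ℕ => perLists p.1 := perLists_primrec.comp fst
  have hc : ∀ {g : Machine × List ℕ → List Term}, Primrec g →
      Primrec fun p => g p ++ (g p).map Term.cut := fun hg =>
    primrec_append hg (list_map hg (cut_primrec.comp snd).to₂)
  have hs : Primrec fun p : Machine × List ℕ => startX p.1 :=
    xPoint_primrec hM (isHalt_primrec hM (m_start.comp hM))
      (primrec_two (c_work (m_start.comp hM)) c_bottom)
  have ht : Primrec fun p : Machine × List ℕ => startY p.1 p.2 :=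
    xPoint_primrec hM (const false) (list_map snd (c_tape snd).to₂)
  exact forceLists_primrec
    ((primrec_append (hc (fst.comp hP)) (primrec_single (moveTerm_primrec 1 hs))).pair
      ((primrec_append (hc (fst.comp (snd.comp hP))) (primrec_single (moveTerm_primrec 0 ht))).pair
        (hc (snd.comp (snd.comp hP)))))

end

end Vale.Agent.P113
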