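import Mathlib

/-!
Vocabulary for problem P113: Turing machines, admissible terms, force compilers,
classical solutions of the forced Navier-Stokes equations on the flat three-torus
(functions on `Fin 3 → ℝ` which are invariant under integer translations).
-/

namespace Vale.Agent.P113

open Set MeasureTheory
open scoped ContDiff

noncomputable section

/-! ### One-tape Turing machines -/

/-- A head move: left, stay or right. -/
inductive Dir
  | left
  | stay
  | right
  deriving DecidableEq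

/-- The displacement of the head. -/
def Dir.shift : Dir → ℤ
  | .left => -1
  | .stay => 0
  | .right => 1

/-- An entry of a transition table: in state `q` reading `a`, change to state `q'`,
write `a'` and move the head by `dir`. -/
structure Rule where
  q : ℕ
  a : ℕ
  q' : ℕ
  a' : ℕ
  dir : Dir

/-- A machine: states `0, …, numStates - 1`, symbols `0, …, numSyms - 1` with blank `0`,
an initial state, a list of halting states and a transition table. The rule in force for
`(q, a)` is the first one in the table for `(q, a)`; if there is none, no step is possible. -/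
structure Machine where
  numSyms : ℕ
  numStates : ℕ
  start : ℕ
  halting : List ℕ
  table : List Rule

/-- The numbers occurring in the machine are in range. -/
structure Machine.Valid (M : Machine) : Prop where
  syms_pos : 0 < M.numSyms
  start_lt : M.start < M.numStates
  halting_lt : ∀ q ∈ M.halting, q < M.numStates
  rules_lt : ∀ r ∈ M.table,
    r.q < M.numStates ∧ r.a < M.numSyms ∧ r.q' < M.numStates ∧ r.a' < M.numSyms

/-- The input is a word over the alphabet of the machine. -/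
def Machine.IsInput (M : Machine) (w : List ℕ) : Prop := ∀ a ∈ w, a < M.numSyms

/-- A configuration: state, head position, tape. -/
structure Config where
  state : ℕ
  pos : ℤ
  tape : ℤ → ℕ

/-- The first rule of the table for `(q, a)`. -/
def Machine.rule (M : Machine) (q a : ℕ) : Option Rule :=
  M.table.find? fun r => r.q == q && r.a == a

/-- One step of a configuration in a non-halting state. -/
def Machine.step (M : Machine) (c : Config) : Option Config :=
  if c.state ∈ M.halting then none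
  else (M.rule c.state (c.tape c.pos)).map fun r =>
    ⟨r.q', c.pos + r.dir.shift, Function.update c.tape c.pos r.a'⟩

/-- The input on an otherwise blank two-sided tape, the head at its first cell. -/
def Machine.init (M : Machine) (w : List ℕ) : Config :=
  ⟨M.start, 0, fun i => if 0 ≤ i then w.getD i.toNat 0 else 0⟩

/-- `M` halts on `w`: a halting state is reached after finitely many (possibly zero) steps. -/
def Machine.HaltsOn (M : Machine) (w : List ℕ) : Prop :=
  ∃ n : ℕ, ∃ c : Config, (fun o : Option Config => o.bind M.step)^[n] (some (M.init w)) = some c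
    ∧ c.state ∈ M.halting

/-! ### Admissible functions -/

/-- `ρ(s) = exp (-1/(1-s²))` on `|s| < 1`, zero otherwise. -/
def rho (s : ℝ) : ℝ := if |s| < 1 then Real.exp (-1 / (1 - s ^ 2)) else 0

/-- `κ = ∫ ρ`. -/
def kappa : ℝ := ∫ s, rho s

/-- `σ(s) = ∫_{-∞}^s ρ`. -/
def sigma (s : ℝ) : ℝ := ∫ x in Iic s, rho x

/-- `π_ℓ(s) = σ(s) - σ(s - ℓ)`. -/
def piFun (l s : ℝ) : ℝ := sigma s - sigma (s - l)

/-- A rational number given by integers: `(pos - neg) / den`. -/
structure RatCode where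
  pos : ℕ
  neg : ℕ
  den : ℕ

/-- The value of a rational code. -/
def RatCode.val (r : RatCode) : ℝ := ((r.pos : ℝ) - (r.neg : ℝ)) / (r.den : ℝ)

/-- The code of a bump: `s ↦ s^k π_ℓ(as - b)` if `isPi`, else `s ↦ s^k ρ^(j)(as - b)`
(`j` is not used in the first case, `ℓ` not in the second). -/
structure Bump where
  isPi : Bool
  k : ℕ
  j : ℕ
  a : RatCode
  b : RatCode
  l : RatCode

/-- Validity of a bump code: denominators positive, `a ≠ 0` and `ℓ > 0`. -/
def Bump.Valid (g : Bump) : Prop :=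
  0 < g.a.den ∧ 0 < g.b.den ∧ g.a.val ≠ 0 ∧ (g.isPi = true → 0 < g.l.den ∧ 0 < g.l.val)

/-- The bump as a function. -/
def Bump.eval (g : Bump) (s : ℝ) : ℝ :=
  s ^ g.k * (if g.isPi then piFun g.l.val (g.a.val * s - g.b.val)
    else iteratedDeriv g.j rho (g.a.val * s - g.b.val))

/-- The periodization `P[g](y) = ∑_{m ∈ ℤ} g(y + m)`. -/
def periodize (g : ℝ → ℝ) (y : ℝ) : ℝ := ∑' m : ℤ, g (y + m)

/-- A factor of the time part: `P[g]` if `periodized`, else `g`. -/
structure TimeFactor where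
  periodized : Bool
  bump : Bump

/-- The value of a time factor. -/
def TimeFactor.eval (θ : TimeFactor) (t : ℝ) : ℝ :=
  if θ.periodized then periodize θ.bump.eval t else θ.bump.eval t

/-- A rational `p / d` under a logarithm. -/
structure LogArg where
  num : ℕ
  den : ℕ

/-- An admissible term `c θ(t) h₁(x₁) h₂(x₂) h₃(x₃)`, `c = q ν^m κ^n ∏ ln rᵢ`,
with `n = kPos - kNeg`; empty products are `1`. -/
structure Term where
  q : RatCode
  m : ℕ
  kPos : ℕ
  kNeg : ℕ
  logs : List LogArg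
  time : List TimeFactor
  h1 : List Bump
  h2 : List Bump
  h3 : List Bump

/-- A product of periodized bumps. -/
def evalSpace (hs : List Bump) (y : ℝ) : ℝ := (hs.map fun g => periodize g.eval y).prod

/-- The coefficient of a term. -/
def Term.coeff (ν : ℝ) (τ : Term) : ℝ :=
  τ.q.val * ν ^ τ.m * kappa ^ ((τ.kPos : ℤ) - (τ.kNeg : ℤ))
    * (τ.logs.map fun r => Real.log ((r.num : ℝ) / (r.den : ℝ))).prod

/-- The value of a term. -/
def Term.eval (ν : ℝ) (τ : Term) (t : ℝ) (x : Fin 3 → ℝ) : ℝ :=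
  τ.coeff ν * (τ.time.map fun θ => θ.eval t).prod
    * evalSpace τ.h1 (x 0) * evalSpace τ.h2 (x 1) * evalSpace τ.h3 (x 2)

/-- A term is periodic when its time part is `1` or a product of periodizations only. -/
def Term.isPeriodic (τ : Term) : Bool := τ.time.all fun θ => θ.periodized

/-- Validity of a term code. -/
def Term.Valid (τ : Term) : Prop :=
  0 < τ.q.den ∧ (∀ r ∈ τ.logs, 0 < r.num ∧ 0 < r.den) ∧ (∀ θ ∈ τ.time, θ.bump.Valid) ∧
    (∀ g ∈ τ.h1, g.Valid) ∧ (∀ g ∈ τ.h2, g.Valid) ∧ (∀ g ∈ τ.h3, g.Valid)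

/-- The sum of a list of terms. -/
def evalTerms (ν : ℝ) (L : List Term) (t : ℝ) (x : Fin 3 → ℝ) : ℝ :=
  (L.map fun τ => τ.eval ν t x).sum

/-! ### Codes, so that computability makes sense -/

/-- `Dir` as `Fin 3`. -/
def Dir.equivFin : Dir ≃ Fin 3 where
  toFun
    | .left => 0
    | .stay => 1
    | .right => 2
  invFun i := if i = 0 then .left else if i = 1 then .stay else .right
  left_inv d := by cases d <;> rfl
  right_inv i := by fin_cases i <;> rfl

instance : Primcodable Dir := Primcodable.ofEquiv _ Dir.equivFin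

/-- A rule as a tuple. -/
def Rule.toProd (r : Rule) : (ℕ × ℕ) × (ℕ × ℕ × Dir) := ((r.q, r.a), (r.q', r.a', r.dir))

/-- A tuple as a rule. -/
def Rule.ofProd (p : (ℕ × ℕ) × (ℕ × ℕ × Dir)) : Rule := ⟨p.1.1, p.1.2, p.2.1, p.2.2.1, p.2.2.2⟩

/-- `Rule` as a product. -/
def Rule.equivProd : Rule ≃ ((ℕ × ℕ) × (ℕ × ℕ × Dir)) :=
  ⟨Rule.toProd, Rule.ofProd, fun _ => rfl, fun _ => rfl⟩

instance : Primcodable Rule := Primcodable.ofEquiv _ Rule.equivProd

/-- A machine as a tuple. -/
def Machine.toProd (M : Machine) : ℕ × ℕ × ℕ × List ℕ × List Rule :=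
  (M.numSyms, M.numStates, M.start, M.halting, M.table)

/-- A tuple as a machine. -/
def Machine.ofProd (p : ℕ × ℕ × ℕ × List ℕ × List Rule) : Machine :=
  ⟨p.1, p.2.1, p.2.2.1, p.2.2.2.1, p.2.2.2.2⟩

/-- `Machine` as a product. -/
def Machine.equivProd : Machine ≃ (ℕ × ℕ × ℕ × List ℕ × List Rule) :=
  ⟨Machine.toProd, Machine.ofProd, fun _ => rfl, fun _ => rfl⟩

instance : Primcodable Machine := Primcodable.ofEquiv _ Machine.equivProd

/-- `RatCode` as a product. -/
def RatCode.equivProd : RatCode ≃ (ℕ × ℕ × ℕ) where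
  toFun r := (r.pos, r.neg, r.den)
  invFun p := ⟨p.1, p.2.1, p.2.2⟩
  left_inv _ := rfl
  right_inv _ := rfl

instance : Primcodable RatCode := Primcodable.ofEquiv _ RatCode.equivProd

/-- A bump code as a tuple. -/
def Bump.toProd (g : Bump) : Bool × ℕ × ℕ × RatCode × RatCode × RatCode :=
  (g.isPi, g.k, g.j, g.a, g.b, g.l)

/-- A tuple as a bump code. -/
def Bump.ofProd (p : Bool × ℕ × ℕ × RatCode × RatCode × RatCode) : Bump :=
  ⟨p.1, p.2.1, p.2.2.1, p.2.2.2.1, p.2.2.2.2.1, p.2.2.2.2.2⟩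

/-- `Bump` as a product. -/
def Bump.equivProd : Bump ≃ (Bool × ℕ × ℕ × RatCode × RatCode × RatCode) :=
  ⟨Bump.toProd, Bump.ofProd, fun _ => rfl, fun _ => rfl⟩

instance : Primcodable Bump := Primcodable.ofEquiv _ Bump.equivProd

/-- `TimeFactor` as a product. -/
def TimeFactor.equivProd : TimeFactor ≃ (Bool × Bump) where
  toFun θ := (θ.periodized, θ.bump)
  invFun p := ⟨p.1, p.2⟩
  left_inv _ := rfl
  right_inv _ := rfl

instance : Primcodable TimeFactor := Primcodable.ofEquiv _ TimeFactor.equivProd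

/-- `LogArg` as a product. -/
def LogArg.equivProd : LogArg ≃ (ℕ × ℕ) where
  toFun r := (r.num, r.den)
  invFun p := ⟨p.1, p.2⟩
  left_inv _ := rfl
  right_inv _ := rfl

instance : Primcodable LogArg := Primcodable.ofEquiv _ LogArg.equivProd

/-- The first part of the tuple of a term: `q`, `(m, kPos, kNeg)` and the logarithms. -/
abbrev TermHead := RatCode × (ℕ × ℕ × ℕ) × List LogArg

/-- The second part of the tuple of a term: the factors. -/
abbrev TermTail := List TimeFactor × List Bump × List Bump × List Bump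

/-- The first part of a term. -/
def Term.headPart (τ : Term) : TermHead := (τ.q, (τ.m, τ.kPos, τ.kNeg), τ.logs)

/-- The second part of a term. -/
def Term.tailPart (τ : Term) : TermTail := (τ.time, τ.h1, τ.h2, τ.h3)

/-- A term as a tuple. -/
def Term.toProd (τ : Term) : TermHead × TermTail := (τ.headPart, τ.tailPart)

/-- The term with given parts. -/
def Term.ofParts (h : TermHead) (t : TermTail) : Term :=
  ⟨h.1, h.2.1.1, h.2.1.2.1, h.2.1.2.2, h.2.2, t.1, t.2.1, t.2.2.1, t.2.2.2⟩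

/-- A tuple as a term. -/
def Term.ofProd (p : TermHead × TermTail) : Term := Term.ofParts p.1 p.2

/-- `Term` as a product. -/
def Term.equivProd : Term ≃ (TermHead × TermTail) :=
  ⟨Term.toProd, Term.ofProd, fun _ => rfl, fun _ => rfl⟩

instance : Primcodable Term := Primcodable.ofEquiv _ Term.equivProd

/-- Three lists of terms, one per component. -/
abbrev TermLists := List Term × List Term × List Term

/-- The list of a component. -/
def component (L : TermLists) (i : Fin 3) : List Term := ![L.1, L.2.1, L.2.2] i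

/-- A force compiler: a computable function producing valid term lists, whose periodic terms
do not depend on the input and whose other terms vanish after a time independent of `(M, w)`. -/
structure IsForceCompiler (F : Machine → List ℕ → TermLists) : Prop where
  computable : Computable fun p : Machine × List ℕ => F p.1 p.2
  valid : ∀ M w i, ∀ τ ∈ component (F M w) i, τ.Valid
  periodic_part : ∀ M w w' i, (component (F M w) i).filter Term.isPeriodic =
    (component (F M w') i).filter Term.isPeriodic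
  transient : ∃ T₀ : ℝ, ∀ M w i, ∀ τ ∈ component (F M w) i, τ.isPeriodic = false →
    ∀ ν t x, T₀ ≤ t → τ.eval ν t x = 0

/-- The force given by three lists of terms. -/
def forceOf (ν : ℝ) (L : TermLists) (t : ℝ) (x : Fin 3 → ℝ) : Fin 3 → ℝ :=
  fun i => evalTerms ν (component L i) t x

/-! ### The Navier-Stokes system on the torus -/

/-- Invariance under integer translations, i.e. a function on the torus. -/
def PeriodicSpace {β : Type} (g : (Fin 3 → ℝ) → β) : Prop :=
  ∀ (x : Fin 3 → ℝ) (n : Fin 3 → ℤ), g (x + fun i => (n i : ℝ)) = g x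

/-- The integral over the unit cube. -/
def cubeInt (g : (Fin 3 → ℝ) → ℝ) : ℝ :=
  ∫ a in (0 : ℝ)..1, ∫ b in (0 : ℝ)..1, ∫ c in (0 : ℝ)..1, g ![a, b, c]

/-- `g` has partial derivative `g'` in direction `j` at `x`. -/
def HasPartialAt (g : (Fin 3 → ℝ) → ℝ) (j : Fin 3) (g' : ℝ) (x : Fin 3 → ℝ) : Prop :=
  HasDerivAt (fun s => g (Function.update x j s)) g' (x j)

/-- `g` is continuous on `[0, T] × ℝ³`. -/
def ContinuousOnSlab {β : Type} [TopologicalSpace β] (T : ℝ) (g : ℝ → (Fin 3 → ℝ) → β) : Prop :=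
  ContinuousOn (fun z : ℝ × (Fin 3 → ℝ) => g z.1 z.2) (Icc 0 T ×ˢ univ)

/-- The equations at `(t, x)` together with the meaning of the derivatives `ut`, `ux` (`ux i j`
is the derivative of `u_i` in direction `j`), `uxx` and `px`. -/
def SolvesAt (ν : ℝ) (f : ℝ → (Fin 3 → ℝ) → Fin 3 → ℝ) (T : ℝ)
    (u : ℝ → (Fin 3 → ℝ) → Fin 3 → ℝ) (p : ℝ → (Fin 3 → ℝ) → ℝ)
    (ut : Fin 3 → ℝ → (Fin 3 → ℝ) → ℝ) (ux : Fin 3 → Fin 3 → ℝ → (Fin 3 → ℝ) → ℝ)
    (uxx : Fin 3 → Fin 3 → Fin 3 → ℝ → (Fin 3 → ℝ) → ℝ)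
    (px : Fin 3 → ℝ → (Fin 3 → ℝ) → ℝ) (t : ℝ) (x : Fin 3 → ℝ) : Prop :=
  (∀ i, HasDerivWithinAt (fun s => u s x i) (ut i t x) (Icc 0 T) t) ∧
  (∀ i j, HasPartialAt (fun y => u t y i) j (ux i j t x) x) ∧
  (∀ i j k, HasPartialAt (ux i j t) k (uxx i j k t x) x) ∧
  (∀ j, HasPartialAt (p t) j (px j t x) x) ∧
  (∀ i, ut i t x + ∑ j, u t x j * ux i j t x =
    - px i t x + ν * ∑ j, uxx i j j t x + f t x i) ∧
  (∑ i, ux i i t x = 0) ∧
  cubeInt (p t) = 0 ∧
  u 0 x = 0

/-- A classical solution on `[0, T]` of the forced system with zero initial velocity. -/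
def IsClassicalSolution (ν : ℝ) (f : ℝ → (Fin 3 → ℝ) → Fin 3 → ℝ) (T : ℝ)
    (u : ℝ → (Fin 3 → ℝ) → Fin 3 → ℝ) (p : ℝ → (Fin 3 → ℝ) → ℝ) : Prop :=
  (∀ t ∈ Icc 0 T, PeriodicSpace (u t) ∧ PeriodicSpace (p t)) ∧
  ContinuousOnSlab T u ∧ ContinuousOnSlab T p ∧
  ∃ (ut : Fin 3 → ℝ → (Fin 3 → ℝ) → ℝ) (ux : Fin 3 → Fin 3 → ℝ → (Fin 3 → ℝ) → ℝ)
    (uxx : Fin 3 → Fin 3 → Fin 3 → ℝ → (Fin 3 → ℝ) → ℝ)
    (px : Fin 3 → ℝ → (Fin 3 → ℝ) → ℝ),
    (∀ i, ContinuousOnSlab T (ut i)) ∧
    (∀ i j, ContinuousOnSlab T (ux i j)) ∧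
    (∀ i j k, ContinuousOnSlab T (uxx i j k)) ∧
    (∀ j, ContinuousOnSlab T (px j)) ∧
    ∀ t ∈ Icc 0 T, ∀ x : Fin 3 → ℝ, SolvesAt ν f T u p ut ux uxx px t x

/-- A global smooth solution. -/
def IsGlobalSmoothSolution (ν : ℝ) (f : ℝ → (Fin 3 → ℝ) → Fin 3 → ℝ)
    (u : ℝ → (Fin 3 → ℝ) → Fin 3 → ℝ) (p : ℝ → (Fin 3 → ℝ) → ℝ) : Prop :=
  ContDiff ℝ ∞ (fun z : ℝ × (Fin 3 → ℝ) => u z.1 z.2) ∧
  ContDiff ℝ ∞ (fun z : ℝ × (Fin 3 → ℝ) => p z.1 z.2) ∧
  ∀ T > 0, IsClassicalSolution ν f T u p

/-- `(u, p)` is the only classical solution on each `[0, T]`. -/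
def IsUniqueClassical (ν : ℝ) (f : ℝ → (Fin 3 → ℝ) → Fin 3 → ℝ)
    (u : ℝ → (Fin 3 → ℝ) → Fin 3 → ℝ) (p : ℝ → (Fin 3 → ℝ) → ℝ) : Prop :=
  ∀ T > 0, ∀ v q, IsClassicalSolution ν f T v q →
    ∀ t ∈ Icc 0 T, ∀ x, v t x = u t x ∧ q t x = p t x

/-- A trajectory from `a`, lifted to `ℝ³`. -/
def IsTrajectory (u : ℝ → (Fin 3 → ℝ) → Fin 3 → ℝ) (a : Fin 3 → ℝ)
    (X : ℝ → Fin 3 → ℝ) : Prop :=
  X 0 = a ∧ ∀ t ≥ 0, HasDerivWithinAt X (u t (X t)) (Ici 0) t

/-- The point of the torus represented by `x` is in the image of the open box `(lo, hi)`. -/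
def InBoxImage (lo hi : Fin 3 → ℚ) (x : Fin 3 → ℝ) : Prop :=
  ∃ n : Fin 3 → ℤ, ∀ i, (lo i : ℝ) < x i + n i ∧ x i + n i < (hi i : ℝ)

end

end Vale.Agent.P113
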