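import Vale.Agent.P113.Defs

/-! P113: uniqueness of classical solutions on the torus by the energy method. -/

namespace Vale.Agent.P113

open Set Filter Topology MeasureTheory

noncomputable section

lemma cont3 {α : Type} [TopologicalSpace α] {f g h : α → ℝ} (hf : Continuous f)
    (hg : Continuous g) (hh : Continuous h) :
    Continuous fun z => (![f z, g z, h z] : Fin 3 → ℝ) :=
  continuous_pi fun i => by fin_cases i <;> assumption

lemma cont_vec : Continuous fun z : ℝ × ℝ × ℝ => (![z.1, z.2.1, z.2.2] : Fin 3 → ℝ) := by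
  fun_prop

lemma cont_inner {g : (Fin 3 → ℝ) → ℝ} (hg : Continuous g) :
    Continuous fun z : ℝ × ℝ => ∫ c in (0:ℝ)..1, g ![z.1, z.2, c] := by
  refine intervalIntegral.continuous_parametric_intervalIntegral_of_continuous' ?_ 0 1
  exact hg.comp (by fun_prop)

lemma cont_mid {g : (Fin 3 → ℝ) → ℝ} (hg : Continuous g) :
    Continuous fun a : ℝ => ∫ b in (0:ℝ)..1, ∫ c in (0:ℝ)..1, g ![a, b, c] := by
  refine intervalIntegral.continuous_parametric_intervalIntegral_of_continuous' ?_ 0 1
  exact cont_inner hg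

lemma cubeInt_add {f g : (Fin 3 → ℝ) → ℝ} (hf : Continuous f) (hg : Continuous g) :
    cubeInt (fun x => f x + g x) = cubeInt f + cubeInt g := by
  have h1 : ∀ a b : ℝ, ∫ c in (0:ℝ)..1, (f ![a, b, c] + g ![a, b, c]) =
      (∫ c in (0:ℝ)..1, f ![a, b, c]) + ∫ c in (0:ℝ)..1, g ![a, b, c] := fun a b =>
    intervalIntegral.integral_add
      ((hf.comp (by fun_prop)).intervalIntegrable _ _) ((hg.comp (by fun_prop)).intervalIntegrable _ _)
  have h2 : ∀ a : ℝ, ∫ b in (0:ℝ)..1, ((∫ c in (0:ℝ)..1, f ![a, b, c]) + ∫ c in (0:ℝ)..1, g ![a, b, c]) =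
      (∫ b in (0:ℝ)..1, ∫ c in (0:ℝ)..1, f ![a, b, c]) +
        ∫ b in (0:ℝ)..1, ∫ c in (0:ℝ)..1, g ![a, b, c] := fun a =>
    intervalIntegral.integral_add
      (((cont_inner hf).comp (Continuous.prodMk_right a)).intervalIntegrable _ _)
      (((cont_inner hg).comp (Continuous.prodMk_right a)).intervalIntegrable _ _)
  simp only [cubeInt, h1, h2]
  exact intervalIntegral.integral_add ((cont_mid hf).intervalIntegrable _ _)
    ((cont_mid hg).intervalIntegrable _ _)

lemma cubeInt_const_mul (c : ℝ) (f : (Fin 3 → ℝ) → ℝ) :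
    cubeInt (fun x => c * f x) = c * cubeInt f := by
  simp only [cubeInt, intervalIntegral.integral_const_mul]

lemma cubeInt_const (c : ℝ) : cubeInt (fun _ => c) = c := by
  simp [cubeInt]

lemma cubeInt_sum {ι : Type} (s : Finset ι) {f : ι → (Fin 3 → ℝ) → ℝ}
    (hf : ∀ i ∈ s, Continuous (f i)) :
    cubeInt (fun x => ∑ i ∈ s, f i x) = ∑ i ∈ s, cubeInt (f i) := by
  classical
  induction s using Finset.induction_on with
  | empty => simp [cubeInt_const]
  | @insert a t ha ih =>
    simp only [Finset.sum_insert ha]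
    rw [cubeInt_add (hf a (by simp))
      (continuous_finsetSum _ fun i hi => hf i (by simp [hi])),
      ih fun i hi => hf i (by simp [hi])]

/-- Membership in the unit cube. -/
def InCube (x : Fin 3 → ℝ) : Prop := ∀ i, x i ∈ Icc (0:ℝ) 1

lemma inCube_vec {a b c : ℝ} (ha : a ∈ Icc (0:ℝ) 1) (hb : b ∈ Icc (0:ℝ) 1)
    (hc : c ∈ Icc (0:ℝ) 1) : InCube ![a, b, c] := by
  intro i; fin_cases i <;> assumption

lemma cubeInt_mono {f g : (Fin 3 → ℝ) → ℝ} (hf : Continuous f) (hg : Continuous g)
    (h : ∀ x, InCube x → f x ≤ g x) : cubeInt f ≤ cubeInt g := by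
  refine intervalIntegral.integral_mono_on zero_le_one ((cont_mid hf).intervalIntegrable _ _)
    ((cont_mid hg).intervalIntegrable _ _) fun a ha => ?_
  refine intervalIntegral.integral_mono_on zero_le_one
    (((cont_inner hf).comp (Continuous.prodMk_right a)).intervalIntegrable _ _)
    (((cont_inner hg).comp (Continuous.prodMk_right a)).intervalIntegrable _ _) fun b hb => ?_
  exact intervalIntegral.integral_mono_on zero_le_one
    ((hf.comp (by fun_prop)).intervalIntegrable _ _)
    ((hg.comp (by fun_prop)).intervalIntegrable _ _) fun c hc => h _ (inCube_vec ha hb hc)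

lemma swap_cont {F : ℝ → ℝ → ℝ} (hF : Continuous fun z : ℝ × ℝ => F z.1 z.2) (a b c d : ℝ) :
    ∫ x in a..b, ∫ y in c..d, F x y = ∫ y in c..d, ∫ x in a..b, F x y := by
  refine intervalIntegral_intervalIntegral_swap ?_
  exact (hF.continuousOn.integrableOn_compact (isCompact_uIcc.prod isCompact_uIcc)).mono_set
    (prod_mono uIoc_subset_uIcc uIoc_subset_uIcc)

lemma per_shift {h : (Fin 3 → ℝ) → ℝ} (hper : PeriodicSpace h) (j : Fin 3) (x : Fin 3 → ℝ) :
    h (Function.update x j 1) = h (Function.update x j 0) := by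
  rw [← hper (Function.update x j 0) (Function.update 0 j 1)]
  congr 1
  funext i
  rcases eq_or_ne i j with rfl | hij
  · simp
  · simp [hij]

lemma partial_line_int {h h' : (Fin 3 → ℝ) → ℝ} {j : Fin 3} (hper : PeriodicSpace h)
    (hd : ∀ x, HasPartialAt h j (h' x) x) (hc : Continuous h') (x : Fin 3 → ℝ) :
    ∫ s in (0:ℝ)..1, h' (Function.update x j s) = 0 := by
  have hline : ∀ s, HasDerivAt (fun r => h (Function.update x j r))
      (h' (Function.update x j s)) s := by
    intro s
    have h0 := hd (Function.update x j s)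
    simpa [HasPartialAt, Function.update_idem] using h0
  rw [intervalIntegral.integral_eq_sub_of_hasDerivAt (fun s _ => hline s)
    ((hc.comp (continuous_const.update j continuous_id)).intervalIntegrable _ _),
    per_shift hper, sub_self]

lemma cubeInt_partial {h h' : (Fin 3 → ℝ) → ℝ} {j : Fin 3} (hper : PeriodicSpace h)
    (hd : ∀ x, HasPartialAt h j (h' x) x) (hc : Continuous h') : cubeInt h' = 0 := by
  have e0 : ∀ a b c : ℝ, Function.update (![0, b, c] : Fin 3 → ℝ) 0 a = ![a, b, c] := by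
    intro a b c; funext i; fin_cases i <;> simp [Function.update]
  have e1 : ∀ a b c : ℝ, Function.update (![a, 0, c] : Fin 3 → ℝ) 1 b = ![a, b, c] := by
    intro a b c; funext i; fin_cases i <;> simp [Function.update]
  have e2 : ∀ a b c : ℝ, Function.update (![a, b, 0] : Fin 3 → ℝ) 2 c = ![a, b, c] := by
    intro a b c; funext i; fin_cases i <;> simp [Function.update]
  obtain rfl | rfl | rfl : j = 0 ∨ j = 1 ∨ j = 2 := by fin_cases j <;> simp
  · rw [cubeInt, swap_cont (cont_inner hc)]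
    have : ∀ b : ℝ, ∫ a in (0:ℝ)..1, ∫ c in (0:ℝ)..1, h' ![a, b, c] = 0 := by
      intro b
      have hb : Continuous fun z : ℝ × ℝ => h' ![z.1, b, z.2] := hc.comp (by fun_prop)
      rw [swap_cont hb]
      have : ∀ c : ℝ, ∫ a in (0:ℝ)..1, h' ![a, b, c] = 0 := by
        intro c; simpa only [e0] using partial_line_int hper hd hc ![0, b, c]
      simp [this]
    simp [this]
  · have : ∀ a : ℝ, ∫ b in (0:ℝ)..1, ∫ c in (0:ℝ)..1, h' ![a, b, c] = 0 := by
      intro a
      have hb : Continuous fun z : ℝ × ℝ => h' ![a, z.1, z.2] := hc.comp (by fun_prop)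
      rw [swap_cont hb]
      have : ∀ c : ℝ, ∫ b in (0:ℝ)..1, h' ![a, b, c] = 0 := by
        intro c; simpa only [e1] using partial_line_int hper hd hc ![a, 0, c]
      simp [this]
    simp [cubeInt, this]
  · have : ∀ a b : ℝ, ∫ c in (0:ℝ)..1, h' ![a, b, c] = 0 := by
      intro a b; simpa only [e2] using partial_line_int hper hd hc ![a, b, 0]
    simp [cubeInt, this]

lemma cubeInt_time_swap {G : ℝ → (Fin 3 → ℝ) → ℝ}
    (hG : Continuous fun z : ℝ × (Fin 3 → ℝ) => G z.1 z.2) (t : ℝ) :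
    cubeInt (fun x => ∫ s in (0:ℝ)..t, G s x) = ∫ s in (0:ℝ)..t, cubeInt (G s) := by
  have h1 : ∀ a b : ℝ, ∫ c in (0:ℝ)..1, ∫ s in (0:ℝ)..t, G s ![a, b, c] =
      ∫ s in (0:ℝ)..t, ∫ c in (0:ℝ)..1, G s ![a, b, c] := fun a b =>
    swap_cont (F := fun c s => G s ![a, b, c]) (hG.comp (Continuous.prodMk (by fun_prop) (cont3 (by fun_prop) (by fun_prop) (by fun_prop)))) _ _ _ _
  have h2 : ∀ a : ℝ, ∫ b in (0:ℝ)..1, ∫ s in (0:ℝ)..t, ∫ c in (0:ℝ)..1, G s ![a, b, c] =
      ∫ s in (0:ℝ)..t, ∫ b in (0:ℝ)..1, ∫ c in (0:ℝ)..1, G s ![a, b, c] := by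
    intro a
    refine swap_cont (F := fun b s => ∫ c in (0:ℝ)..1, G s ![a, b, c]) ?_ _ _ _ _
    refine intervalIntegral.continuous_parametric_intervalIntegral_of_continuous' ?_ 0 1
    exact hG.comp (Continuous.prodMk (by fun_prop) (cont3 (by fun_prop) (by fun_prop) (by fun_prop)))
  simp only [cubeInt, h1, h2]
  refine swap_cont (F := fun a s => ∫ b in (0:ℝ)..1, ∫ c in (0:ℝ)..1, G s ![a, b, c]) ?_ _ _ _ _
  refine intervalIntegral.continuous_parametric_intervalIntegral_of_continuous' ?_ 0 1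
  refine intervalIntegral.continuous_parametric_intervalIntegral_of_continuous' ?_ 0 1
  exact hG.comp (Continuous.prodMk (by fun_prop) (cont3 (by fun_prop) (by fun_prop) (by fun_prop)))

lemma cubeInt_param {G : ℝ → (Fin 3 → ℝ) → ℝ}
    (hG : Continuous fun z : ℝ × (Fin 3 → ℝ) => G z.1 z.2) :
    Continuous fun s => cubeInt (G s) := by
  unfold cubeInt
  refine intervalIntegral.continuous_parametric_intervalIntegral_of_continuous' ?_ 0 1
  refine intervalIntegral.continuous_parametric_intervalIntegral_of_continuous' ?_ 0 1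
  refine intervalIntegral.continuous_parametric_intervalIntegral_of_continuous' ?_ 0 1
  exact hG.comp (Continuous.prodMk (by fun_prop) (cont3 (by fun_prop) (by fun_prop) (by fun_prop)))

lemma cubeInt_nonneg_zero {g : (Fin 3 → ℝ) → ℝ} (hg : Continuous g) (h0 : ∀ x, 0 ≤ g x)
    (hper : PeriodicSpace g) (h : cubeInt g ≤ 0) (x : Fin 3 → ℝ) : g x = 0 := by
  by_contra hx
  have hpos : 0 < g x := lt_of_le_of_ne (h0 x) (Ne.symm hx)
  have hn0 : (fun i => Int.fract (x i)) + (fun i => ((⌊x i⌋ : ℤ) : ℝ)) = x := by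
    funext i; exact Int.fract_add_floor (x i)
  have hpos' : 0 < g ![Int.fract (x 0), Int.fract (x 1), Int.fract (x 2)] := by
    have e : (![Int.fract (x 0), Int.fract (x 1), Int.fract (x 2)] : Fin 3 → ℝ) =
        fun i => Int.fract (x i) := by funext i; fin_cases i <;> rfl
    rw [e, ← hper _ (fun i => ⌊x i⌋), hn0]
    exact hpos
  have hm : ∀ y : ℝ, Int.fract y ∈ Icc (0:ℝ) 1 := fun y =>
    ⟨Int.fract_nonneg y, (Int.fract_lt_one y).le⟩
  refine absurd h (not_le.2 ?_)
  refine intervalIntegral.integral_pos one_pos (cont_mid hg).continuousOn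
    (fun a _ => intervalIntegral.integral_nonneg zero_le_one fun b _ =>
      intervalIntegral.integral_nonneg zero_le_one fun c _ => h0 _) ⟨Int.fract (x 0), hm _, ?_⟩
  refine intervalIntegral.integral_pos one_pos
    ((cont_inner hg).comp (Continuous.prodMk_right (Int.fract (x 0)))).continuousOn
    (fun b _ => intervalIntegral.integral_nonneg zero_le_one fun c _ => h0 _)
    ⟨Int.fract (x 1), hm _, ?_⟩
  exact intervalIntegral.integral_pos one_pos (hg.comp (by fun_prop)).continuousOn
    (fun c _ => h0 _) ⟨Int.fract (x 2), hm _, hpos'⟩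

lemma cont_clamp {β : Type} [TopologicalSpace β] {T : ℝ} (hT : 0 ≤ T)
    {g : ℝ → (Fin 3 → ℝ) → β}
    (hg : ContinuousOn (fun z : ℝ × (Fin 3 → ℝ) => g z.1 z.2) (Icc 0 T ×ˢ univ)) :
    Continuous fun z : ℝ × (Fin 3 → ℝ) => g (max 0 (min T z.1)) z.2 := by
  refine hg.comp_continuous (f := fun z : ℝ × (Fin 3 → ℝ) => (max 0 (min T z.1), z.2))
    (by fun_prop) fun z => ?_
  exact ⟨⟨le_max_left _ _, max_le hT (min_le_left _ _)⟩, mem_univ _⟩

lemma cont_slice {β : Type} [TopologicalSpace β] {T : ℝ}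
    {g : ℝ → (Fin 3 → ℝ) → β}
    (hg : ContinuousOn (fun z : ℝ × (Fin 3 → ℝ) => g z.1 z.2) (Icc 0 T ×ˢ univ))
    {t : ℝ} (ht : t ∈ Icc 0 T) : Continuous (g t) :=
  hg.comp_continuous (f := fun x => (t, x)) (by fun_prop) fun _ => ⟨ht, mem_univ _⟩

/-- Partial derivatives vanish everywhere: the function is constant. -/
lemma const_of_partials {r : (Fin 3 → ℝ) → ℝ} (h : ∀ j x, HasPartialAt r j 0 x) (x : Fin 3 → ℝ) :
    r x = r 0 := by
  have hl : ∀ (j : Fin 3) (y : Fin 3 → ℝ) (a b : ℝ),
      r (Function.update y j a) = r (Function.update y j b) := by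
    intro j y a b
    have hd : ∀ s, HasDerivAt (fun s => r (Function.update y j s)) 0 s := by
      intro s
      simpa [HasPartialAt, Function.update_idem] using h j (Function.update y j s)
    exact is_const_of_deriv_eq_zero (fun s => (hd s).differentiableAt) (fun s => (hd s).deriv) a b
  have e0 : x = Function.update (![0, x 1, x 2] : Fin 3 → ℝ) 0 (x 0) := by
    funext i; fin_cases i <;> simp [Function.update]
  have e0' : Function.update (![0, x 1, x 2] : Fin 3 → ℝ) 0 0 =
      Function.update (![0, 0, x 2] : Fin 3 → ℝ) 1 (x 1) := by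
    funext i; fin_cases i <;> simp [Function.update]
  have e1' : Function.update (![0, 0, x 2] : Fin 3 → ℝ) 1 0 =
      Function.update (![0, 0, 0] : Fin 3 → ℝ) 2 (x 2) := by
    funext i; fin_cases i <;> simp [Function.update]
  have e2' : Function.update (![0, 0, 0] : Fin 3 → ℝ) 2 0 = 0 := by
    funext i; fin_cases i <;> simp [Function.update]
  rw [e0, hl 0 _ (x 0) 0, e0', hl 1 _ (x 1) 0, e1', hl 2 _ (x 2) 0, e2']

lemma PeriodicSpace.of_partial {h h' : (Fin 3 → ℝ) → ℝ} {j : Fin 3} (hper : PeriodicSpace h)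
    (hd : ∀ x, HasPartialAt h j (h' x) x) : PeriodicSpace h' := by
  intro x n
  refine HasDerivAt.unique (hd _) ?_
  have h0 := hd x
  unfold HasPartialAt at h0
  have e : (fun s => h (Function.update (x + fun i => (n i : ℝ)) j s)) =
      fun s => h (Function.update x j (s - n j)) := by
    funext s
    rw [← hper (Function.update x j (s - n j)) n]
    congr 1
    funext i
    rcases eq_or_ne i j with rfl | hij
    · simp
    · simp [hij]
  rw [e]
  exact HasDerivAt.comp_sub_const (f := fun s => h (Function.update x j s))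
    (x j + n j) (n j) (by simpa using h0)

lemma pointwise_energy (ν M : ℝ) (hν : 0 ≤ ν) (u v a b qp pp F : Fin 3 → ℝ)
    (r : ℝ) (ux vx uxx vxx : Fin 3 → Fin 3 → ℝ)
    (hM : ∀ i j, |ux i j| ≤ M)
    (eu : ∀ i, b i + ∑ j, u j * ux i j = - pp i + ν * ∑ j, uxx i j + F i)
    (ev : ∀ i, a i + ∑ j, v j * vx i j = - qp i + ν * ∑ j, vxx i j + F i)
    (du : ∑ i, ux i i = 0) (dv : ∑ i, vx i i = 0) :
    ∑ i, 2 * (v i - u i) * (a i - b i) ≤
      6 * M * ∑ i, (v i - u i) ^ 2 +
      2 * ∑ j, (ν * ∑ i, ((vx i j - ux i j) * (vx i j - ux i j)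
            + (v i - u i) * (vxx i j - uxx i j))
          - (1 / 2) * (vx j j * ∑ i, (v i - u i) ^ 2
            + v j * ∑ i, 2 * (v i - u i) * (vx i j - ux i j))
          - ((qp j - pp j) * (v j - u j) + r * (vx j j - ux j j))) := by
  have hA : ∀ i j, -((v i - u i) * (v j - u j) * ux i j) ≤
      M * (((v i - u i) ^ 2 + (v j - u j) ^ 2) / 2) := by
    intro i j
    have h1 : |(v i - u i) * (v j - u j)| ≤ ((v i - u i) ^ 2 + (v j - u j) ^ 2) / 2 := by
      rw [abs_le]; constructor <;>
        nlinarith [sq_nonneg (v i - u i + (v j - u j)), sq_nonneg (v i - u i - (v j - u j))]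
    calc -((v i - u i) * (v j - u j) * ux i j)
          ≤ |(v i - u i) * (v j - u j) * ux i j| := neg_le_abs _
      _ = |(v i - u i) * (v j - u j)| * |ux i j| := abs_mul _ _
      _ ≤ ((v i - u i) ^ 2 + (v j - u j) ^ 2) / 2 * M :=
          mul_le_mul h1 (hM i j) (abs_nonneg _) (by positivity)
      _ = _ := mul_comm _ _
  have hsq : ∀ i j, 0 ≤ ν * ((vx i j - ux i j) * (vx i j - ux i j)) :=
    fun i j => mul_nonneg hν (mul_self_nonneg _)
  have ha : ∀ i, a i = - qp i + ν * ∑ j, vxx i j + F i - ∑ j, v j * vx i j := fun i => by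
    linarith [ev i]
  have hb : ∀ i, b i = - pp i + ν * ∑ j, uxx i j + F i - ∑ j, u j * ux i j := fun i => by
    linarith [eu i]
  simp only [Fin.sum_univ_three] at *
  have hu2 : ux 2 2 = - ux 0 0 - ux 1 1 := by linarith
  have hv2 : vx 2 2 = - vx 0 0 - vx 1 1 := by linarith
  have a00 := hA 0 0
  have a01 := hA 0 1
  have a02 := hA 0 2
  have a10 := hA 1 0
  have a11 := hA 1 1
  have a12 := hA 1 2
  have a20 := hA 2 0
  have a21 := hA 2 1
  have a22 := hA 2 2
  have s00 := hsq 0 0
  have s01 := hsq 0 1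
  have s02 := hsq 0 2
  have s10 := hsq 1 0
  have s11 := hsq 1 1
  have s12 := hsq 1 2
  have s20 := hsq 2 0
  have s21 := hsq 2 1
  have s22 := hsq 2 2
  simp only [ha, hb, hu2, hv2] at *
  linarith

lemma energy_slice {ν M : ℝ} (hν : 0 ≤ ν) (u v : (Fin 3 → ℝ) → Fin 3 → ℝ)
    (p q : (Fin 3 → ℝ) → ℝ) (a b qp pp : Fin 3 → (Fin 3 → ℝ) → ℝ)
    (F : (Fin 3 → ℝ) → Fin 3 → ℝ)
    (ux vx : Fin 3 → Fin 3 → (Fin 3 → ℝ) → ℝ)
    (uxx vxx : Fin 3 → Fin 3 → Fin 3 → (Fin 3 → ℝ) → ℝ)
    (hper : PeriodicSpace u ∧ PeriodicSpace v ∧ PeriodicSpace p ∧ PeriodicSpace q)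
    (huc : Continuous u) (hvc : Continuous v) (hpc : Continuous p) (hqc : Continuous q)
    (hac : ∀ i, Continuous (a i)) (hbc : ∀ i, Continuous (b i))
    (hqpc : ∀ i, Continuous (qp i)) (hppc : ∀ i, Continuous (pp i))
    (huxc : ∀ i j, Continuous (ux i j)) (hvxc : ∀ i j, Continuous (vx i j))
    (huxxc : ∀ i j k, Continuous (uxx i j k)) (hvxxc : ∀ i j k, Continuous (vxx i j k))
    (dux : ∀ i j x, HasPartialAt (fun y => u y i) j (ux i j x) x)
    (dvx : ∀ i j x, HasPartialAt (fun y => v y i) j (vx i j x) x)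
    (duxx : ∀ i j k x, HasPartialAt (ux i j) k (uxx i j k x) x)
    (dvxx : ∀ i j k x, HasPartialAt (vx i j) k (vxx i j k x) x)
    (dp : ∀ j x, HasPartialAt p j (pp j x) x) (dq : ∀ j x, HasPartialAt q j (qp j x) x)
    (eu : ∀ x i, b i x + ∑ j, u x j * ux i j x = - pp i x + ν * ∑ j, uxx i j j x + F x i)
    (ev : ∀ x i, a i x + ∑ j, v x j * vx i j x = - qp i x + ν * ∑ j, vxx i j j x + F x i)
    (du : ∀ x, ∑ i, ux i i x = 0) (dv : ∀ x, ∑ i, vx i i x = 0)
    (hM : ∀ x, InCube x → ∀ i j, |ux i j x| ≤ M) :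
    cubeInt (fun x => ∑ i, 2 * (v x i - u x i) * (a i x - b i x)) ≤
      6 * M * cubeInt (fun x => ∑ i, (v x i - u x i) ^ 2) := by
  obtain ⟨pu, pv, pp', pq⟩ := hper
  let S : Fin 3 → (Fin 3 → ℝ) → ℝ := fun j x =>
    ν * ∑ i, (v x i - u x i) * (vx i j x - ux i j x)
      - (1 / 2) * (v x j * ∑ i, (v x i - u x i) ^ 2) - (q x - p x) * (v x j - u x j)
  let S' : Fin 3 → (Fin 3 → ℝ) → ℝ := fun j x =>
    ν * ∑ i, ((vx i j x - ux i j x) * (vx i j x - ux i j x)
        + (v x i - u x i) * (vxx i j j x - uxx i j j x))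
      - (1 / 2) * (vx j j x * ∑ i, (v x i - u x i) ^ 2
        + v x j * ∑ i, 2 * (v x i - u x i) * (vx i j x - ux i j x))
      - ((qp j x - pp j x) * (v x j - u x j) + (q x - p x) * (vx j j x - ux j j x))
  have hwd : ∀ i j x, HasPartialAt (fun y => v y i - u y i) j (vx i j x - ux i j x) x :=
    fun i j x => (dvx i j x).fun_sub (dux i j x)
  have hS : ∀ j x, HasPartialAt (S j) j (S' j x) x := by
    intro j x
    have h1 : HasPartialAt (fun y => ∑ i, (v y i - u y i) * (vx i j y - ux i j y)) j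
        (∑ i, ((vx i j x - ux i j x) * (vx i j x - ux i j x)
          + (v x i - u x i) * (vxx i j j x - uxx i j j x))) x := by
      have := HasDerivAt.fun_sum (u := Finset.univ) fun i _ =>
        (hwd i j x).fun_mul ((dvxx i j j x).fun_sub (duxx i j j x))
      simpa [HasPartialAt] using this
    have h2 : HasPartialAt (fun y => ∑ i, (v y i - u y i) ^ 2) j
        (∑ i, 2 * (v x i - u x i) * (vx i j x - ux i j x)) x := by
      have := HasDerivAt.fun_sum (u := Finset.univ) fun i _ => (hwd i j x).fun_pow 2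
      simpa [HasPartialAt] using this
    have := ((h1.const_mul ν).fun_sub (((dvx j j x).fun_mul h2).const_mul (1 / 2))).fun_sub
      (((dq j x).fun_sub (dp j x)).fun_mul (hwd j j x))
    simpa [HasPartialAt, S, S'] using this
  have hSper : ∀ j, PeriodicSpace (S j) := by
    intro j x n
    have hx : ∀ i, vx i j (x + fun i => (n i : ℝ)) = vx i j x := fun i =>
      (PeriodicSpace.of_partial (h := fun y => v y i) (fun y m => congrFun (pv y m) i) (dvx i j)) x n
    have hy : ∀ i, ux i j (x + fun i => (n i : ℝ)) = ux i j x := fun i =>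
      (PeriodicSpace.of_partial (h := fun y => u y i) (fun y m => congrFun (pu y m) i) (dux i j)) x n
    simp only [S, pu x n, pv x n, pp' x n, pq x n, hx, hy]
  have hwc : ∀ i, Continuous fun x => v x i - u x i := fun i =>
    ((continuous_apply i).comp hvc).sub ((continuous_apply i).comp huc)
  have hNc : Continuous fun x => ∑ i, (v x i - u x i) ^ 2 :=
    continuous_finsetSum _ fun i _ => (hwc i).pow 2
  have hxc : ∀ i j, Continuous fun x => vx i j x - ux i j x := fun i j =>
    (hvxc i j).sub (huxc i j)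
  have hS'c : ∀ j, Continuous (S' j) := fun j =>
    (((continuous_const.mul (continuous_finsetSum _ fun i _ => ((hxc i j).mul (hxc i j)).add
      ((hwc i).mul ((hvxxc i j j).sub (huxxc i j j))))).sub
    (continuous_const.mul (((hvxc j j).mul hNc).add
      (((continuous_apply j).comp hvc).mul (continuous_finsetSum _ fun i _ =>
        (continuous_const.mul (hwc i)).mul (hxc i j)))))).sub
    ((((hqpc j).sub (hppc j)).mul (hwc j)).add ((hqc.sub hpc).mul (hxc j j))))
  have hsum : Continuous fun x => ∑ j, S' j x := continuous_finsetSum _ fun j _ => hS'c j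
  have hcube : cubeInt (fun x => ∑ j, S' j x) = 0 := by
    rw [cubeInt_sum _ fun j _ => hS'c j]
    exact Finset.sum_eq_zero fun j _ => cubeInt_partial (hSper j) (hS j) (hS'c j)
  calc _ ≤ cubeInt (fun x => 6 * M * (∑ i, (v x i - u x i) ^ 2) + 2 * ∑ j, S' j x) :=
        cubeInt_mono (continuous_finsetSum _ fun i _ =>
            (continuous_const.mul (hwc i)).mul ((hac i).sub (hbc i)))
          ((continuous_const.mul hNc).add (continuous_const.mul hsum)) fun x hx =>
          pointwise_energy ν M hν (u x) (v x) (fun i => a i x) (fun i => b i x)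
            (fun i => qp i x) (fun i => pp i x) (F x) (q x - p x) (fun i j => ux i j x)
            (fun i j => vx i j x) (fun i j => uxx i j j x) (fun i j => vxx i j j x)
            (hM x hx) (eu x) (ev x) (du x) (dv x)
    _ = _ := by
        rw [cubeInt_add (f := fun x => 6 * M * ∑ i, (v x i - u x i) ^ 2)
            (g := fun x => 2 * ∑ j, S' j x) (continuous_const.mul hNc) (continuous_const.mul hsum),
          cubeInt_const_mul, cubeInt_const_mul, hcube, mul_zero, add_zero]

/-- Uniqueness of classical solutions. -/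
theorem classical_unique {ν : ℝ} (hν : 0 < ν) {f : ℝ → (Fin 3 → ℝ) → Fin 3 → ℝ} {T : ℝ}
    (hT : 0 < T) {u v : ℝ → (Fin 3 → ℝ) → Fin 3 → ℝ} {p q : ℝ → (Fin 3 → ℝ) → ℝ}
    (hu : IsClassicalSolution ν f T u p) (hv : IsClassicalSolution ν f T v q) :
    ∀ t ∈ Icc 0 T, ∀ x, v t x = u t x ∧ q t x = p t x := by
  obtain ⟨huper, huc, hpc, ut, ux, uxx, px, hutc, huxc, huxxc, hpxc, hueq⟩ := hu
  obtain ⟨hvper, hvc, hqc, vt, vx, vxx, qx, hvtc, hvxc, hvxxc, hqxc, hveq⟩ := hv
  obtain ⟨M, hM⟩ : ∃ M, ∀ i j, ∀ t ∈ Icc 0 T, ∀ x, InCube x → |ux i j t x| ≤ M := by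
    have hk : IsCompact (Icc (0:ℝ) T ×ˢ (univ.pi fun _ : Fin 3 => Icc (0:ℝ) 1)) :=
      isCompact_Icc.prod (isCompact_univ_pi fun _ => isCompact_Icc)
    choose B hB using fun i j => hk.exists_bound_of_continuousOn
      ((huxc i j).mono (prod_mono Subset.rfl (subset_univ _)))
    refine ⟨∑ i, ∑ j, |B i j|, fun i j t ht x hx => ?_⟩
    have h1 : ‖ux i j t x‖ ≤ B i j := hB i j (t, x) ⟨ht, fun k _ => hx k⟩
    rw [Real.norm_eq_abs] at h1
    refine le_trans (h1.trans (le_abs_self _)) ?_
    refine le_trans (Finset.single_le_sum (f := fun j => |B i j|) (fun j _ => abs_nonneg _)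
      (Finset.mem_univ j)) ?_
    exact Finset.single_le_sum (f := fun i => ∑ j, |B i j|)
      (fun i _ => Finset.sum_nonneg fun j _ => abs_nonneg _) (Finset.mem_univ i)
  set cl : ℝ → ℝ := fun s => max 0 (min T s)
  have hcl : ∀ s ∈ Icc 0 T, cl s = s := fun s hs => by
    simp [cl, min_eq_right hs.2, max_eq_right hs.1]
  let w : ℝ → (Fin 3 → ℝ) → Fin 3 → ℝ := fun t x i => v t x i - u t x i
  let N : ℝ → (Fin 3 → ℝ) → ℝ := fun t x => ∑ i, w t x i ^ 2
  let G : ℝ → (Fin 3 → ℝ) → ℝ := fun s x =>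
    ∑ i, 2 * (v (cl s) x i - u (cl s) x i) * (vt i (cl s) x - ut i (cl s) x)
  have hcu : ∀ i, Continuous fun z : ℝ × (Fin 3 → ℝ) => u (cl z.1) z.2 i := fun i =>
    (continuous_apply i).comp (cont_clamp hT.le huc)
  have hcv : ∀ i, Continuous fun z : ℝ × (Fin 3 → ℝ) => v (cl z.1) z.2 i := fun i =>
    (continuous_apply i).comp (cont_clamp hT.le hvc)
  have hGc : Continuous fun z : ℝ × (Fin 3 → ℝ) => G z.1 z.2 :=
    continuous_finsetSum _ fun i _ => ((continuous_const.mul ((hcv i).sub (hcu i))).mul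
      ((cont_clamp hT.le (hvtc i)).sub (cont_clamp hT.le (hutc i))))
  have hw0 : ∀ x i, w 0 x i = 0 := by
    intro x i
    have h1 := (hueq 0 ⟨le_rfl, hT.le⟩ x).2.2.2.2.2.2.2
    have h2 := (hveq 0 ⟨le_rfl, hT.le⟩ x).2.2.2.2.2.2.2
    simp [w, h1, h2]
  have hsu : ∀ {t}, t ∈ Icc 0 T → ∀ i, Continuous fun x => u t x i := fun ht i =>
    (continuous_apply i).comp (cont_slice huc ht)
  have hsv : ∀ {t}, t ∈ Icc 0 T → ∀ i, Continuous fun x => v t x i := fun ht i =>
    (continuous_apply i).comp (cont_slice hvc ht)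
  have hNc : ∀ {t}, t ∈ Icc 0 T → Continuous (N t) := fun ht =>
    continuous_finsetSum _ fun i _ => ((hsv ht i).sub (hsu ht i)).pow 2
  have hNint : ∀ t ∈ Icc 0 T, ∀ x, N t x = ∫ s in (0:ℝ)..t, G s x := by
    intro t ht x
    have hder : ∀ s ∈ Ioo 0 t, HasDerivAt (fun s => N s x) (G s x) s := by
      intro s hs
      have hsT : s ∈ Icc 0 T := ⟨hs.1.le, hs.2.le.trans ht.2⟩
      have hn : Icc 0 T ∈ 𝓝 s := Icc_mem_nhds hs.1 (hs.2.trans_le ht.2)
      have := HasDerivAt.fun_sum (u := Finset.univ) fun i _ =>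
        ((((hveq s hsT x).1 i).hasDerivAt hn).fun_sub (((hueq s hsT x).1 i).hasDerivAt hn)).fun_pow 2
      refine this.congr_deriv ?_
      simp [G, hcl s hsT]
    have hcont : ContinuousOn (fun s => N s x) (Icc 0 t) := by
      have hC : Continuous fun s => ∑ i, (v (cl s) x i - u (cl s) x i) ^ 2 :=
        continuous_finsetSum _ fun i _ =>
          (((hcv i).comp (Continuous.prodMk_left x)).sub
            ((hcu i).comp (Continuous.prodMk_left x))).pow 2
      refine hC.continuousOn.congr fun s hs => ?_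
      simp [N, w, hcl s ⟨hs.1, hs.2.trans ht.2⟩]
    rw [intervalIntegral.integral_eq_sub_of_hasDerivAt_of_le ht.1 hcont hder
      ((hGc.comp (Continuous.prodMk_left x)).intervalIntegrable _ _)]
    simp [N, hw0]
  have hkey : ∀ s ∈ Icc 0 T, cubeInt (G s) ≤ 6 * M * cubeInt (N s) := by
    intro s hs
    have du := hueq s hs
    have dv := hveq s hs
    have h := energy_slice (M := M) hν.le (u s) (v s) (p s) (q s) (fun i => vt i s)
      (fun i => ut i s) (fun i => qx i s) (fun i => px i s) (f s)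
      (fun i j => ux i j s) (fun i j => vx i j s) (fun i j k => uxx i j k s)
      (fun i j k => vxx i j k s)
      ⟨(huper s hs).1, (hvper s hs).1, (huper s hs).2, (hvper s hs).2⟩
      (cont_slice huc hs) (cont_slice hvc hs) (cont_slice hpc hs) (cont_slice hqc hs)
      (fun i => cont_slice (hvtc i) hs) (fun i => cont_slice (hutc i) hs)
      (fun i => cont_slice (hqxc i) hs) (fun i => cont_slice (hpxc i) hs)
      (fun i j => cont_slice (huxc i j) hs) (fun i j => cont_slice (hvxc i j) hs)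
      (fun i j k => cont_slice (huxxc i j k) hs) (fun i j k => cont_slice (hvxxc i j k) hs)
      (fun i j x => (du x).2.1 i j) (fun i j x => (dv x).2.1 i j)
      (fun i j k x => (du x).2.2.1 i j k) (fun i j k x => (dv x).2.2.1 i j k)
      (fun j x => (du x).2.2.2.1 j) (fun j x => (dv x).2.2.2.1 j)
      (fun x => (du x).2.2.2.2.1) (fun x => (dv x).2.2.2.2.1)
      (fun x => (du x).2.2.2.2.2.1) (fun x => (dv x).2.2.2.2.2.1)
      (fun x hx i j => hM i j s hs x hx)
    have e : G s = fun x => ∑ i, 2 * (v s x i - u s x i) * (vt i s x - ut i s x) := by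
      funext x; simp [G, hcl s hs]
    rw [e]
    exact h
  -- Gronwall
  set E : ℝ → ℝ := fun t => ∫ s in (0:ℝ)..t, cubeInt (G s) with hE
  have hEN : ∀ t ∈ Icc 0 T, cubeInt (N t) = E t := by
    intro t ht
    rw [show N t = fun x => ∫ s in (0:ℝ)..t, G s x from funext (hNint t ht)]
    exact cubeInt_time_swap hGc t
  have hEd : ∀ t, HasDerivAt E (cubeInt (G t)) t := fun t =>
    ((cubeInt_param hGc).integral_hasStrictDerivAt 0 t).hasDerivAt
  have hanti : AntitoneOn (fun t => E t * Real.exp (-(6 * M) * t)) (Icc 0 T) := by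
    refine antitoneOn_of_hasDerivWithinAt_nonpos (convex_Icc _ _)
      (f' := fun t => (cubeInt (G t) - 6 * M * E t) * Real.exp (-(6 * M) * t))
      (fun t _ => ?_) (fun t _ => ?_) (fun t ht => ?_)
    · exact ((hEd t).continuousAt.mul (by fun_prop)).continuousWithinAt
    · have := (hEd t).mul (((hasDerivAt_id t).const_mul (-(6 * M))).exp)
      refine (this.congr_deriv ?_).hasDerivWithinAt
      simp only [id]; ring
    · have ht' : t ∈ Icc 0 T := interior_subset ht
      refine mul_nonpos_of_nonpos_of_nonneg ?_ (Real.exp_pos _).le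
      rw [← hEN t ht']
      linarith [hkey t ht']
  have hEle : ∀ t ∈ Icc 0 T, E t ≤ 0 := by
    intro t ht
    have := hanti ⟨le_rfl, hT.le⟩ ht ht.1
    simp only [hE, intervalIntegral.integral_same, zero_mul] at this ⊢
    exact nonpos_of_mul_nonpos_left this (Real.exp_pos _)
  have hvu : ∀ t ∈ Icc 0 T, ∀ x, v t x = u t x := by
    intro t ht x
    have hNper : PeriodicSpace (N t) := fun y n =>
      Finset.sum_congr rfl fun i _ => by simp [w, (hvper t ht).1 y n, (huper t ht).1 y n]
    have h0 := cubeInt_nonneg_zero (hNc ht) (fun y => Finset.sum_nonneg fun i _ => sq_nonneg _)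
      hNper ((hEN t ht).le.trans (hEle t ht)) x
    funext i
    have hi := (Finset.sum_eq_zero_iff_of_nonneg fun i _ => sq_nonneg (w t x i)).1 h0 i
      (Finset.mem_univ _)
    exact sub_eq_zero.1 ((pow_eq_zero_iff two_ne_zero).1 hi)
  intro t ht x
  refine ⟨hvu t ht x, ?_⟩
  have hfun : v t = u t := funext (hvu t ht)
  have hxfun : ∀ i j, vx i j t = ux i j t := fun i j => funext fun y => by
    have h1 := (hveq t ht y).2.1 i j
    rw [hfun] at h1
    exact HasDerivAt.unique h1 ((hueq t ht y).2.1 i j)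
  have hgrad : ∀ j y, HasPartialAt (fun z => q t z - p t z) j 0 y := by
    intro j y
    have hxx : ∀ k, vxx j k k t y = uxx j k k t y := fun k => by
      have h1 := (hveq t ht y).2.2.1 j k k
      rw [hxfun j k] at h1
      exact HasDerivAt.unique h1 ((hueq t ht y).2.2.1 j k k)
    have htt : vt j t y = ut j t y := by
      have h1 := (hveq t ht y).1 j
      have h2 := (hueq t ht y).1 j
      refine (uniqueDiffOn_Icc hT t ht).eq_deriv _ (h1.congr (fun s hs => ?_) ?_) h2
      · rw [hvu s hs y]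
      · rw [hvu t ht y]
    have e1 := (hveq t ht y).2.2.2.2.1 j
    have e2 := (hueq t ht y).2.2.2.2.1 j
    simp only [hxx, htt, hfun, hxfun] at e1
    have h := ((hveq t ht y).2.2.2.1 j).fun_sub ((hueq t ht y).2.2.2.1 j)
    have hd : qx j t y - px j t y = 0 := by linarith
    rw [hd] at h
    exact h
  have hconst := fun y => const_of_partials hgrad y
  have hc1 : cubeInt (fun z => q t z + (-1) * p t z) = 0 := by
    rw [cubeInt_add (f := fun z => q t z) (g := fun z => (-1) * p t z) (cont_slice hqc ht)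
        (continuous_const.mul (cont_slice hpc ht)),
      cubeInt_const_mul, (hveq t ht x).2.2.2.2.2.2.1, (hueq t ht x).2.2.2.2.2.2.1]
    simp
  have hc2 : (fun z => q t z + (-1) * p t z) = fun _ => q t 0 - p t 0 := by
    funext y; rw [← hconst y]; ring
  rw [hc2, cubeInt_const] at hc1
  have := hconst x
  linarith

end

end Vale.Agent.P113
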