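import Vale.Agent.P113.Velocity

/-! P113: closed formulas for the velocity. -/

namespace Vale.Agent.P113

open Set Filter Topology
open scoped ContDiff

noncomputable section

lemma wordNum_val (M : Machine) : ∀ u : List ℕ,
    valT M.base u 0 = (wordNum M.base u : ℝ) / (M.base : ℝ) ^ u.length := by
  have hB : (M.base : ℝ) ≠ 0 := by exact_mod_cast (base_pos M).ne'
  intro u
  induction u with
  | nil => simp [valT, wordNum]
  | cons d u ih =>
    simp only [valT, wordNum, ih, List.length_cons]
    push_cast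
    rw [pow_succ]
    field_simp

lemma zoneNum_val (z : Bool) : ((zoneNum z : ℕ) : ℝ) = 10 * zoneOff z := by
  cases z <;> norm_num [zoneNum, zoneOff]

lemma xLo_val (M : Machine) (z : Bool) (u : List ℕ) :
    (xLo M.base z u).val = zoneOff z + 3/10 * valT M.base u 0 := by
  have hB : (M.base : ℝ) ≠ 0 := by exact_mod_cast (base_pos M).ne'
  rw [wordNum_val]
  simp only [xLo, RatCode.val]
  push_cast
  rw [zoneNum_val]
  field_simp
  ring

lemma xHi_val (M : Machine) (z : Bool) (u : List ℕ) :
    (xHi M.base z u).val = (xLo M.base z u).val + 3/10 / (M.base : ℝ) ^ u.length := by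
  have hB : (M.base : ℝ) ≠ 0 := by exact_mod_cast (base_pos M).ne'
  simp only [xLo, xHi, RatCode.val]
  push_cast
  field_simp
  ring

lemma xPoint_val (M : Machine) (z : Bool) (u : List ℕ) :
    (xPoint M z u).val = zoneOff z + 3/10 * valT M.base u M.blankTail := by
  have hB : (M.base : ℝ) ≠ 0 := by exact_mod_cast (base_pos M).ne'
  have hB1 : (M.base : ℝ) - 1 = 2 * (M.digitBound : ℝ) := by simp [Machine.base]
  have hD : (M.digitBound : ℝ) ≠ 0 := by
    have h := base_ge M
    unfold Machine.base at h
    exact_mod_cast (show M.digitBound ≠ 0 by omega)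
  rw [valT_affine, wordNum_val, Machine.blankTail, hB1]
  simp only [xPoint, RatCode.val]
  push_cast
  rw [zoneNum_val]
  field_simp
  ring

lemma height_val (M : Machine) (j : ℕ) :
    (M.height j).val = ((M.slots : ℝ) + 2 * j) / (4 * M.slots) := by
  simp [Machine.height, RatCode.val]

/-! ### Plateaus -/

lemma plateau_arg (k A : ℕ) {lo hi : RatCode} (hlo : 0 < lo.den) (s : ℝ) :
    (plateau k A lo hi).arg s = A * (s - lo.val) + 1 := by
  rw [Bump.arg, plateau_b hlo]
  simp [plateau]
  ring

lemma plateau_zero {k A : ℕ} {lo hi : RatCode} (hA : 0 < A) (hlo : 0 < lo.den)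
    (hhi : 0 < hi.den) (h : lo.val ≤ hi.val) {s : ℝ}
    (hs : s ≤ lo.val - 2 / A ∨ hi.val + 2 / A ≤ s) : (plateau k A lo hi).eval s = 0 := by
  refine Bump.eval_outside (plateau_valid hA hlo hhi h) ?_
  have hA' : (0:ℝ) < A := by exact_mod_cast hA
  simp only [Bump.Outside]
  rw [if_pos (by rfl), plateau_arg k A hlo, plateau_l hlo hhi]
  have e : (A:ℝ) * (2 / A) = 2 := by field_simp
  rcases hs with hs | hs
  · left
    have := mul_le_mul_of_nonneg_left hs hA'.le
    rw [mul_sub, e] at this
    nlinarith
  · right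
    have := mul_le_mul_of_nonneg_left hs hA'.le
    rw [mul_add, e] at this
    nlinarith

lemma plateau_one {k A : ℕ} {lo hi : RatCode} (hlo : 0 < lo.den)
    (hhi : 0 < hi.den) {s : ℝ} (h1 : lo.val ≤ s) (h2 : s ≤ hi.val) :
    (plateau k A lo hi).eval s = s ^ k * kappa := by
  have e : (plateau k A lo hi).eval s = s ^ k *
      piFun (plateau k A lo hi).l.val ((plateau k A lo hi).arg s) := rfl
  rw [e, plateau_arg k A hlo, plateau_l hlo hhi, piFun_mid]
  · have : (0:ℝ) ≤ A * (s - lo.val) := mul_nonneg (Nat.cast_nonneg _) (by linarith)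
    linarith
  · have : (A:ℝ) * (s - lo.val) ≤ A * (hi.val - lo.val) :=
      mul_le_mul_of_nonneg_left (by linarith) (Nat.cast_nonneg _)
    linarith

lemma periodize_single {g : ℝ → ℝ} {a b y : ℝ} (hg : ∀ s, s ≤ a ∨ b ≤ s → g s = 0)
    (h1 : y - 1 ≤ a) (h2 : b ≤ y + 1) : periodize g y = g y := by
  unfold periodize
  rw [tsum_eq_single 0]
  · simp
  intro m hm
  refine hg _ ?_
  rcases lt_or_gt_of_ne hm with h | h
  · left
    have : (m:ℝ) ≤ -1 := by exact_mod_cast (show m ≤ -1 by omega)
    linarith
  · right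
    have : (1:ℝ) ≤ m := by exact_mod_cast (show 1 ≤ m by omega)
    linarith

lemma periodize_single_nhds {g : ℝ → ℝ} {a b y : ℝ} (hg : ∀ s, s ≤ a ∨ b ≤ s → g s = 0)
    (h1 : y - 1 < a) (h2 : b < y + 1) : periodize g =ᶠ[𝓝 y] g := by
  filter_upwards [Ioo_mem_nhds (show b - 1 < y by linarith) (show y < a + 1 by linarith)] with z hz
  exact periodize_single hg (by linarith [hz.2]) (by linarith [hz.1])

/-! ### The slab cutoffs -/

/-- The slab cutoff. -/
def slabVal (M : Machine) (k j : ℕ) (z : ℝ) : ℝ := periodize (slabBump M k j).eval z / kappa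

/-- `(z - z_j)` times the slab cutoff. -/
def slabLin (M : Machine) (j : ℕ) (z : ℝ) : ℝ :=
  slabVal M 1 j z - (M.height j).val * slabVal M 0 j z

/-- The cutoff of `x` around the origin. -/
def linVal (x : ℝ) : ℝ := periodize linBump.eval x / kappa

/-- The box cutoff. -/
def boxVal (M : Machine) (A : Cyl) (x y : ℝ) : ℝ :=
  periodize (boxX M A).eval x / kappa * (periodize (boxY M A).eval y / kappa)

lemma height_mem {M : Machine} {j : ℕ} (hj : j < M.slots) :
    1/4 ≤ (M.height j).val ∧ (M.height j).val + 1/(8 * (M.slots:ℝ)) < 3/4 := by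
  have hN : (0:ℝ) < M.slots := by exact_mod_cast slots_pos M
  have hj' : (j:ℝ) + 1 ≤ M.slots := by exact_mod_cast hj
  have hj0 : (0:ℝ) ≤ j := Nat.cast_nonneg j
  rw [height_val]
  constructor
  · rw [le_div_iff₀ (by linarith)]; linarith
  · rw [show ((M.slots:ℝ) + 2 * j) / (4 * M.slots) + 1 / (8 * (M.slots:ℝ)) =
      (2 * M.slots + 4 * j + 1) / (8 * M.slots) by field_simp; ring,
      div_lt_iff₀ (by linarith)]
    linarith

lemma slots_inv_le (M : Machine) : 1 / (8 * (M.slots:ℝ)) ≤ 1/8 := by
  have hN : (1:ℝ) ≤ M.slots := by exact_mod_cast slots_pos M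
  exact one_div_le_one_div_of_le (by norm_num) (by linarith)

lemma slab_zero {M : Machine} {k j : ℕ} {s : ℝ}
    (hs : s ≤ (M.height j).val - 1 / (8 * (M.slots:ℝ)) ∨
      (M.height j).val + 1 / (8 * (M.slots:ℝ)) ≤ s) :
    (slabBump M k j).eval s = 0 := by
  have hN : (0:ℝ) < M.slots := by exact_mod_cast slots_pos M
  refine plateau_zero (Nat.mul_pos (by norm_num) (slots_pos M)) (height_den ..) (height_den ..)
    le_rfl ?_
  have e : (2:ℝ) / ((16 * M.slots : ℕ) : ℝ) = 1 / (8 * (M.slots:ℝ)) := by
    push_cast; field_simp; norm_num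
  rw [e]
  exact hs

lemma slab_periodize {M : Machine} {j : ℕ} (hj : j < M.slots) (k : ℕ) {y : ℝ}
    (h0 : 0 ≤ y) (h1 : y ≤ 1) :
    periodize (slabBump M k j).eval =ᶠ[𝓝 y] (slabBump M k j).eval := by
  obtain ⟨a, b⟩ := height_mem hj
  have := slots_inv_le M
  exact periodize_single_nhds (a := (M.height j).val - 1 / (8 * (M.slots:ℝ)))
    (b := (M.height j).val + 1 / (8 * (M.slots:ℝ))) (fun s hs => slab_zero hs)
    (by linarith) (by linarith)

lemma height_apart {M : Machine} {i j : ℕ} (h : i ≠ j) :
    (M.height i).val + 1 / (8 * (M.slots:ℝ)) < (M.height j).val ∨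
      (M.height j).val < (M.height i).val - 1 / (8 * (M.slots:ℝ)) := by
  have hN : (0:ℝ) < M.slots := by exact_mod_cast slots_pos M
  rw [height_val, height_val]
  rcases lt_or_gt_of_ne h with h | h
  · left
    have : (i:ℝ) + 1 ≤ j := by exact_mod_cast h
    rw [show ((M.slots:ℝ) + 2 * i) / (4 * M.slots) + 1 / (8 * (M.slots:ℝ)) =
      (2 * M.slots + 4 * i + 1) / (8 * M.slots) by field_simp; ring,
      div_lt_div_iff₀ (by linarith) (by linarith)]
    nlinarith
  · right
    have : (j:ℝ) + 1 ≤ i := by exact_mod_cast h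
    rw [show ((M.slots:ℝ) + 2 * i) / (4 * M.slots) - 1 / (8 * (M.slots:ℝ)) =
      (2 * M.slots + 4 * i - 1) / (8 * M.slots) by field_simp; ring,
      div_lt_div_iff₀ (by linarith) (by linarith)]
    nlinarith

/-- Values at a point strictly outside a slab. -/
lemma slab_off {M : Machine} {j : ℕ} (hj : j < M.slots) {y : ℝ} (h0 : 0 ≤ y) (h1 : y ≤ 1)
    (hy : y < (M.height j).val - 1 / (8 * (M.slots:ℝ)) ∨
      (M.height j).val + 1 / (8 * (M.slots:ℝ)) < y) :
    slabVal M 0 j y = 0 ∧ slabLin M j y = 0 ∧ deriv (slabLin M j) y = 0 := by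
  have hz : ∀ k, periodize (slabBump M k j).eval =ᶠ[𝓝 y] fun _ => 0 := by
    intro k
    refine (slab_periodize hj k h0 h1).trans ?_
    rcases hy with hy | hy
    · filter_upwards [Iio_mem_nhds hy] with z hz
      exact slab_zero (Or.inl hz.le)
    · filter_upwards [Ioi_mem_nhds hy] with z hz
      exact slab_zero (Or.inr hz.le)
  have he : slabLin M j =ᶠ[𝓝 y] fun _ => 0 := by
    filter_upwards [hz 0, hz 1] with z a b
    simp [slabLin, slabVal, a, b]
  exact ⟨by simp [slabVal, (hz 0).eq_of_nhds], he.eq_of_nhds, by rw [he.deriv_eq]; simp⟩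

lemma slab_deriv_at {M : Machine} (k j : ℕ) :
    HasDerivAt (slabBump M k j).eval
      ((k : ℝ) * (M.height j).val ^ (k - 1) * kappa) (M.height j).val := by
  have hd := height_den M j
  have harg : (slabBump M k j).arg (M.height j).val = 1 := by
    simp [slabBump, plateau_arg _ _ hd]
  have hl : (slabBump M k j).l.val = 2 := by
    simp [slabBump, plateau_l hd hd]
  have hin : HasDerivAt (slabBump M k j).arg (slabBump M k j).a.val (M.height j).val := by
    have := ((hasDerivAt_id' (M.height j).val).const_mul (slabBump M k j).a.val).sub_const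
        (slabBump M k j).b.val
    simp only [mul_one] at this
    exact this
  have h2 := (piFun_hasDerivAt (slabBump M k j).l.val ((slabBump M k j).arg (M.height j).val)).comp
    (M.height j).val hin
  have e : (slabBump M k j).eval = fun s => s ^ k *
      (piFun (slabBump M k j).l.val ∘ (slabBump M k j).arg) s := rfl
  rw [e]
  refine ((hasDerivAt_pow k _).mul h2).congr_deriv ?_
  simp only [Function.comp_apply, harg, hl]
  rw [rho_zero (by norm_num), rho_zero (by norm_num), piFun_mid le_rfl (by norm_num)]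
  ring

lemma slab_self {M : Machine} {j : ℕ} (hj : j < M.slots) :
    slabVal M 0 j (M.height j).val = 1 ∧ slabLin M j (M.height j).val = 0 ∧
      deriv (slabLin M j) (M.height j).val = 1 := by
  obtain ⟨a, b⟩ := height_mem hj
  have hpos : (0:ℝ) < 1 / (8 * (M.slots:ℝ)) := by
    have hN : (0:ℝ) < M.slots := by exact_mod_cast slots_pos M
    positivity
  have hp := fun k => slab_periodize hj k (y := (M.height j).val) (by linarith) (by linarith)
  have hv : ∀ k, slabVal M k j (M.height j).val = (M.height j).val ^ k := by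
    intro k
    rw [slabVal, (hp k).eq_of_nhds, slabBump,
      plateau_one (height_den ..) (height_den ..) le_rfl le_rfl]
    exact mul_div_cancel_right₀ _ kappa_ne
  refine ⟨by simpa using hv 0, by simp [slabLin, hv], ?_⟩
  have hd : ∀ k, HasDerivAt (slabVal M k j) ((k:ℝ) * (M.height j).val ^ (k - 1))
      (M.height j).val := by
    intro k
    have := ((slab_deriv_at k j).congr_of_eventuallyEq (hp k)).div_const kappa
    refine this.congr_deriv ?_
    rw [mul_div_assoc, div_self kappa_ne, mul_one]
  have hs : HasDerivAt (slabLin M j) _ (M.height j).val :=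
    (hd 1).sub ((hd 0).const_mul (M.height j).val)
  rw [hs.deriv]
  simp

lemma slab_at_height {M : Machine} {i j : ℕ} (hi : i < M.slots) (hj : j < M.slots) :
    slabVal M 0 i (M.height j).val = (if i = j then 1 else 0) ∧
      slabLin M i (M.height j).val = 0 ∧
      deriv (slabLin M i) (M.height j).val = (if i = j then 1 else 0) := by
  by_cases h : i = j
  · subst h; simpa using slab_self hi
  · obtain ⟨a, b⟩ := height_mem hj
    have hpos : (0:ℝ) < 1 / (8 * (M.slots:ℝ)) := by
      have hN : (0:ℝ) < M.slots := by exact_mod_cast slots_pos M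
      positivity
    simpa [h] using slab_off hi (y := (M.height j).val) (by linarith) (by linarith)
      ((height_apart h).symm)

lemma slabLin_differentiable (M : Machine) (j : ℕ) : Differentiable ℝ (slabLin M j) := by
  intro z
  have h := fun k => (Bump.periodize_hasDerivAt (slab_valid M k j) z).div_const kappa
  exact ((h 1).differentiableAt).sub ((h 0).differentiableAt.const_mul _)

lemma linVal_differentiable : Differentiable ℝ linVal := fun x =>
  ((Bump.periodize_hasDerivAt lin_valid x).div_const kappa).differentiableAt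

lemma linVal_eq {x : ℝ} (h1 : -1/20 ≤ x) (h2 : x ≤ 2/5) : linVal x = x := by
  have e1 : (⟨0, 1, 20⟩ : RatCode).val = -1/20 := by norm_num [RatCode.val]
  have e2 : (⟨2, 0, 5⟩ : RatCode).val = 2/5 := by norm_num [RatCode.val]
  rw [linVal, periodize_single (g := linBump.eval) (a := -3/20) (b := 1/2)
    (fun s hs => plateau_zero (by norm_num) (by norm_num) (by norm_num)
      (by rw [e1, e2]; norm_num) (by
        rw [e1, e2]; push_cast
        rcases hs with h | h
        · left; linarith
        · right; linarith)) (by linarith) (by linarith),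
    linBump, plateau_one (by norm_num) (by norm_num) (by rw [e1]; exact h1) (by rw [e2]; exact h2)]
  rw [pow_one, mul_div_cancel_right₀ _ kappa_ne]

/-! ### The velocity -/

/-- The rate of phase `k`, periodic in time. -/
def rate (k : ℕ) (t : ℝ) : ℝ := 20 / kappa * periodize (phaseBump k).eval t

/-- The rate of phase `k`, only in the first time unit. -/
def rate0 (k : ℕ) (t : ℝ) : ℝ := 20 / kappa * (phaseBump k).eval t

/-- The time cutoff. -/
def cutVal (t : ℝ) : ℝ := cutBump.eval t / kappa

/-- The logarithm of a scaling ratio. -/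
def logRatio (r : LogArg) : ℝ := Real.log ((r.num : ℝ) / (r.den : ℝ))

/-- The source of a slot. -/
def Machine.from' (M : Machine) (j : ℕ) : Cyl := (M.slot j).src

/-- The target of a slot. -/
def Machine.to' (M : Machine) (j : ℕ) : Cyl := (M.slot j).tgt M

/-- First component of the periodic velocity. -/
def perV0 (M : Machine) (t : ℝ) (x : Fin 3 → ℝ) : ℝ :=
  ∑ j ∈ Finset.range M.slots,
    (-(xLo M.base (M.from' j).zone (M.from' j).wx).val * rate 1 t * slabVal M 0 j (x 2)
      + (xLo M.base (M.to' j).zone (M.to' j).wx).val * rate 3 t * slabVal M 0 j (x 2)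
      + logRatio (ratioX M (M.from' j) (M.to' j)) * rate 2 t * linVal (x 0)
          * deriv (slabLin M j) (x 2))

/-- Second component of the periodic velocity. -/
def perV1 (M : Machine) (t : ℝ) (x : Fin 3 → ℝ) : ℝ :=
  ∑ j ∈ Finset.range M.slots,
    (-(xLo M.base false (M.from' j).wy).val * rate 1 t * slabVal M 0 j (x 2)
      + (xLo M.base false (M.to' j).wy).val * rate 3 t * slabVal M 0 j (x 2)
      + logRatio (ratioY M (M.from' j) (M.to' j)) * rate 2 t * linVal (x 1)
          * deriv (slabLin M j) (x 2))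

/-- Third component of the periodic velocity. -/
def perV2 (M : Machine) (t : ℝ) (x : Fin 3 → ℝ) : ℝ :=
  ∑ j ∈ Finset.range M.slots,
    ((M.height j).val * rate 0 t * boxVal M (M.from' j) (x 0) (x 1)
      + -(M.height j).val * rate 4 t * boxVal M (M.to' j) (x 0) (x 1)
      - logRatio (ratioX M (M.from' j) (M.to' j)) * rate 2 t * deriv linVal (x 0)
          * slabLin M j (x 2)
      - logRatio (ratioY M (M.from' j) (M.to' j)) * rate 2 t * deriv linVal (x 1)
          * slabLin M j (x 2))

lemma sum_range_list (n : ℕ) (f : ℕ → ℝ) :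
    ((List.range n).map f).sum = ∑ j ∈ Finset.range n, f j := by
  induction n with
  | zero => simp
  | succ n ih => simp [List.range_succ, Finset.sum_range_succ, ih]

lemma evalTime_tick (k : ℕ) (t : ℝ) :
    ((tick k).map fun θ => θ.eval t).prod = periodize (phaseBump k).eval t := by
  simp [tick, TimeFactor.eval]

lemma eval_shift (ν : ℝ) (M : Machine) (k j : ℕ) (c : RatCode) (t : ℝ) (x : Fin 3 → ℝ) :
    (shiftTerm M k j c).eval ν t x = c.val * rate k t * slabVal M 0 j (x 2) := by
  have := kappa_ne
  simp [Term.eval, Term.coeff, shiftTerm, evalSpace, RatCode.times, RatCode.val_mul,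
    evalTime_tick, rate, slabVal, zpow_neg]
  field_simp

lemma eval_lift (ν : ℝ) (M : Machine) (k : ℕ) (c : RatCode) (A : Cyl) (t : ℝ) (x : Fin 3 → ℝ) :
    (liftTerm M k c A).eval ν t x = c.val * rate k t * boxVal M A (x 0) (x 1) := by
  have := kappa_ne
  simp [Term.eval, Term.coeff, liftTerm, evalSpace, RatCode.times, RatCode.val_mul,
    evalTime_tick, rate, boxVal, zpow_neg]
  field_simp

lemma eval_streamX (ν : ℝ) (M : Machine) (j : ℕ) (r : LogArg) (t : ℝ) (x : Fin 3 → ℝ) :
    evalTerms ν (streamX M j r) t x =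
      logRatio r * rate 2 t * linVal (x 0) * slabLin M j (x 2) := by
  have := kappa_ne
  simp [streamX, Term.eval, Term.coeff, evalSpace, RatCode.times, RatCode.val_mul,
    evalTime_tick, rate, linVal, slabLin, slabVal, logRatio, zpow_neg]
  field_simp
  ring

lemma eval_streamY (ν : ℝ) (M : Machine) (j : ℕ) (r : LogArg) (t : ℝ) (x : Fin 3 → ℝ) :
    evalTerms ν (streamY M j r) t x =
      logRatio r * rate 2 t * linVal (x 1) * slabLin M j (x 2) := by
  have := kappa_ne
  simp [streamY, Term.eval, Term.coeff, evalSpace, RatCode.times, RatCode.val_mul,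
    evalTime_tick, rate, linVal, slabLin, slabVal, logRatio, zpow_neg]
  field_simp
  ring

lemma eval_negate (ν : ℝ) (L : List Term) (t : ℝ) (x : Fin 3 → ℝ) :
    evalTerms ν (L.map Term.negate) t x = - evalTerms ν L t x := by
  induction L with
  | nil => simp
  | cons a l ih =>
    simp [ih, Term.eval, Term.coeff, Term.negate]
    ring

lemma perL_valid {L : List Term} (h : PerL L) : ∀ τ ∈ L, τ.Valid := fun τ hτ => (h τ hτ).1

lemma eval_dx2_X (ν : ℝ) (M : Machine) (j : ℕ) (A A' : Cyl) (t : ℝ) (x : Fin 3 → ℝ) :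
    evalTerms ν (dxL 2 (streamX M j (ratioX M A A'))) t x =
      logRatio (ratioX M A A') * rate 2 t * linVal (x 0) * deriv (slabLin M j) (x 2) := by
  refine HasDerivAt.unique
    (evalTerms_hasPartialAt ν (perL_valid (perL_stream M j A A').1) t 2 x) ?_
  refine ((slabLin_differentiable M j (x 2)).hasDerivAt.const_mul
    (logRatio (ratioX M A A') * rate 2 t * linVal (x 0))).congr_of_eventuallyEq ?_
  exact Eventually.of_forall fun s => by simp [eval_streamX]

lemma eval_dx2_Y (ν : ℝ) (M : Machine) (j : ℕ) (A A' : Cyl) (t : ℝ) (x : Fin 3 → ℝ) :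
    evalTerms ν (dxL 2 (streamY M j (ratioY M A A'))) t x =
      logRatio (ratioY M A A') * rate 2 t * linVal (x 1) * deriv (slabLin M j) (x 2) := by
  refine HasDerivAt.unique
    (evalTerms_hasPartialAt ν (perL_valid (perL_stream M j A A').2) t 2 x) ?_
  refine ((slabLin_differentiable M j (x 2)).hasDerivAt.const_mul
    (logRatio (ratioY M A A') * rate 2 t * linVal (x 1))).congr_of_eventuallyEq ?_
  exact Eventually.of_forall fun s => by simp [eval_streamY]

lemma eval_dx0_X (ν : ℝ) (M : Machine) (j : ℕ) (A A' : Cyl) (t : ℝ) (x : Fin 3 → ℝ) :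
    evalTerms ν (dxL 0 (streamX M j (ratioX M A A'))) t x =
      logRatio (ratioX M A A') * rate 2 t * deriv linVal (x 0) * slabLin M j (x 2) := by
  refine HasDerivAt.unique
    (evalTerms_hasPartialAt ν (perL_valid (perL_stream M j A A').1) t 0 x) ?_
  refine (((linVal_differentiable (x 0)).hasDerivAt.const_mul
    (logRatio (ratioX M A A') * rate 2 t)).mul_const (slabLin M j (x 2))).congr_of_eventuallyEq ?_
  exact Eventually.of_forall fun s => by simp [eval_streamX]

lemma eval_dx1_Y (ν : ℝ) (M : Machine) (j : ℕ) (A A' : Cyl) (t : ℝ) (x : Fin 3 → ℝ) :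
    evalTerms ν (dxL 1 (streamY M j (ratioY M A A'))) t x =
      logRatio (ratioY M A A') * rate 2 t * deriv linVal (x 1) * slabLin M j (x 2) := by
  refine HasDerivAt.unique
    (evalTerms_hasPartialAt ν (perL_valid (perL_stream M j A A').2) t 1 x) ?_
  refine (((linVal_differentiable (x 1)).hasDerivAt.const_mul
    (logRatio (ratioY M A A') * rate 2 t)).mul_const (slabLin M j (x 2))).congr_of_eventuallyEq ?_
  exact Eventually.of_forall fun s => by simp [eval_streamY]

lemma eval_per0 (ν : ℝ) (M : Machine) (t : ℝ) (x : Fin 3 → ℝ) :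
    evalTerms ν (perLists M).1 t x = perV0 M t x := by
  simp only [perLists, evalTerms_flatMap, sum_range_list, perV0]
  refine Finset.sum_congr rfl fun j _ => ?_
  simp only [slotU0, evalTerms_cons, eval_shift, eval_dx2_X, RatCode.val_neg, Machine.from',
    Machine.to']
  ring

lemma eval_per1 (ν : ℝ) (M : Machine) (t : ℝ) (x : Fin 3 → ℝ) :
    evalTerms ν (perLists M).2.1 t x = perV1 M t x := by
  simp only [perLists, evalTerms_flatMap, sum_range_list, perV1]
  refine Finset.sum_congr rfl fun j _ => ?_
  simp only [slotU1, evalTerms_cons, eval_shift, eval_dx2_Y, RatCode.val_neg, Machine.from',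
    Machine.to']
  ring

lemma eval_per2 (ν : ℝ) (M : Machine) (t : ℝ) (x : Fin 3 → ℝ) :
    evalTerms ν (perLists M).2.2 t x = perV2 M t x := by
  simp only [perLists, evalTerms_flatMap, sum_range_list, perV2]
  refine Finset.sum_congr rfl fun j _ => ?_
  simp only [slotU2, evalTerms_cons, eval_lift, eval_negate, evalTerms_append, eval_dx0_X,
    eval_dx1_Y, RatCode.val_neg, Machine.from', Machine.to']
  ring

lemma eval_cut (ν : ℝ) (L : List Term) (t : ℝ) (x : Fin 3 → ℝ) :
    evalTerms ν (L.map Term.cut) t x = - cutVal t * evalTerms ν L t x := by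
  induction L with
  | nil => simp
  | cons a l ih =>
    simp only [List.map_cons, evalTerms_cons, ih]
    have hk : kappa ^ ((a.kPos : ℤ) - ((a.kNeg + 1 : ℕ) : ℤ)) =
        kappa ^ ((a.kPos : ℤ) - (a.kNeg : ℤ)) / kappa := by
      rw [show (a.kPos : ℤ) - ((a.kNeg + 1 : ℕ) : ℤ) = ((a.kPos : ℤ) - a.kNeg) - 1 by push_cast; ring,
        zpow_sub_one₀ kappa_ne]
      rfl
    simp only [Term.eval, Term.coeff, Term.cut, List.map_cons, List.prod_cons, RatCode.val_neg, hk,
      cutVal, TimeFactor.eval, Bool.false_eq_true, if_false]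
    ring

lemma eval_move (ν : ℝ) (k : ℕ) {c : RatCode} (hc : 0 < c.den) (t : ℝ) (x : Fin 3 → ℝ) :
    evalTerms ν [moveTerm k c] t x = (c.val - 1/4) * rate0 k t := by
  have e : (⟨0, 1, 4⟩ : RatCode).val = -1/4 := by norm_num [RatCode.val]
  have := kappa_ne
  simp [Term.eval, Term.coeff, moveTerm, evalSpace, RatCode.times, RatCode.val_mul,
    RatCode.val_add hc, e, TimeFactor.eval, rate0, zpow_neg]
  field_simp
  ring

/-- The velocity field. -/
def velocity (ν : ℝ) (M : Machine) (w : List ℕ) (t : ℝ) (x : Fin 3 → ℝ) : Fin 3 → ℝ :=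
  fun i => evalTerms ν (component (velLists M w) i) t x

lemma velocity_0 (ν : ℝ) (M : Machine) (w : List ℕ) (t : ℝ) (x : Fin 3 → ℝ) :
    velocity ν M w t x 0 =
      (1 - cutVal t) * perV0 M t x + ((startX M).val - 1/4) * rate0 1 t := by
  show evalTerms ν ((perLists M).1 ++ (perLists M).1.map Term.cut ++ [moveTerm 1 (startX M)]) t x = _
  rw [evalTerms_append, evalTerms_append, eval_cut, eval_per0,
    eval_move (c := startX M) ν 1 (xPoint_den ..)]
  ring

lemma velocity_1 (ν : ℝ) (M : Machine) (w : List ℕ) (t : ℝ) (x : Fin 3 → ℝ) :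
    velocity ν M w t x 1 =
      (1 - cutVal t) * perV1 M t x + ((startY M w).val - 1/4) * rate0 0 t := by
  show evalTerms ν ((perLists M).2.1 ++ (perLists M).2.1.map Term.cut ++
    [moveTerm 0 (startY M w)]) t x = _
  rw [evalTerms_append, evalTerms_append, eval_cut, eval_per1,
    eval_move (c := startY M w) ν 0 (xPoint_den ..)]
  ring

lemma velocity_2 (ν : ℝ) (M : Machine) (w : List ℕ) (t : ℝ) (x : Fin 3 → ℝ) :
    velocity ν M w t x 2 = (1 - cutVal t) * perV2 M t x := by
  show evalTerms ν ((perLists M).2.2 ++ (perLists M).2.2.map Term.cut) t x = _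
  rw [evalTerms_append, eval_cut, eval_per2]
  ring

end

end Vale.Agent.P113
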