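import Vale.Agent.P113.Eval

/-! P113: the path followed during one time period. -/

namespace Vale.Agent.P113

open Set Filter Topology
open scoped ContDiff

noncomputable section

/-- The progress of phase `k`. -/
def prog (k : ℕ) (t : ℝ) : ℝ := sigma (20 * t - (2 * k + 3)) / kappa

lemma phase_eval (k : ℕ) (t : ℝ) : (phaseBump k).eval t = rho (20 * t - (2 * k + 3)) := by
  simp [Bump.eval, phaseBump]

lemma prog_hasDerivAt (k : ℕ) (t : ℝ) : HasDerivAt (prog k) (rate0 k t) t := by
  have h1 : HasDerivAt (fun t : ℝ => 20 * t - (2 * k + 3)) 20 t := by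
    simpa using ((hasDerivAt_id' t).const_mul 20).sub_const (2 * (k:ℝ) + 3)
  refine (((sigma_hasDerivAt _).comp t h1).div_const kappa).congr_deriv ?_
  rw [rate0, phase_eval]
  ring

lemma rate0_zero {k : ℕ} {t : ℝ} (h : 20 * t ≤ 2 * k + 2 ∨ 2 * (k:ℝ) + 4 ≤ 20 * t) :
    rate0 k t = 0 := by
  rw [rate0, phase_eval, rho_zero, mul_zero]
  rw [le_abs]
  rcases h with h | h
  · right; linarith
  · left; linarith

lemma prog_zero {k : ℕ} {t : ℝ} (h : 20 * t ≤ 2 * k + 2) : prog k t = 0 := by
  rw [prog, sigma_of_le (by linarith), zero_div]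

lemma prog_one {k : ℕ} {t : ℝ} (h : 2 * (k:ℝ) + 4 ≤ 20 * t) : prog k t = 1 := by
  rw [prog, sigma_of_ge (by linarith), div_self kappa_ne]

lemma prog_mem (k : ℕ) (t : ℝ) : prog k t ∈ Icc (0:ℝ) 1 := by
  refine ⟨div_nonneg (MeasureTheory.setIntegral_nonneg measurableSet_Iic fun x _ => rho_nonneg x)
    kappa_pos.le, ?_⟩
  rw [prog, div_le_one kappa_pos]
  exact MeasureTheory.setIntegral_le_integral rho_integrable
    (Filter.Eventually.of_forall rho_nonneg)

lemma rate_eq {k : ℕ} (hk : k ≤ 4) {t : ℝ} {n : ℤ} (h0 : 0 ≤ t - n) (h1 : t - n ≤ 1) :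
    rate k t = rate0 k (t - n) := by
  have hk' : (k:ℝ) ≤ 4 := by exact_mod_cast hk
  have h := periodize_add_int (phaseBump k).eval (t - n) n
  rw [sub_add_cancel] at h
  rw [rate, h, periodize_single (a := (2 * (k:ℝ) + 2) / 20) (b := (2 * (k:ℝ) + 4) / 20)
    (fun s hs => by
      rw [phase_eval, rho_zero]
      rw [le_abs]
      rcases hs with hs | hs
      · right; linarith
      · left; linarith)
    (by linarith [k.cast_nonneg (α := ℝ)]) (by linarith [k.cast_nonneg (α := ℝ)])]
  rfl

/-! ### Boxes -/

/-- Digits in range and length at most three. -/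
def Cyl.Fine (A : Cyl) (M : Machine) : Prop :=
  (M.Digits A.wx ∧ M.Digits A.wy) ∧ A.wx.length ≤ 3 ∧ A.wy.length ≤ 3

/-- The width of a cylinder with a word of length `n`. -/
def Machine.wide (M : Machine) (n : ℕ) : ℝ := 3/10 / (M.base : ℝ) ^ n

lemma wide_pos (M : Machine) (n : ℕ) : 0 < M.wide n := by
  have : (0:ℝ) < M.base := by exact_mod_cast base_pos M
  unfold Machine.wide
  positivity

lemma wide_le (M : Machine) (n : ℕ) : M.wide n ≤ 3/10 := by
  have : (1:ℝ) ≤ M.base := by exact_mod_cast base_pos M
  exact div_le_self (by norm_num) (one_le_pow₀ this)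

lemma point_coords (M : Machine) (A : Cyl) (s t : ℝ) :
    A.point M.base s t = ((xLo M.base A.zone A.wx).val + M.wide A.wx.length * s,
      (xLo M.base false A.wy).val + M.wide A.wy.length * t) := by
  simp only [Cyl.point, xLo_val, Machine.wide]
  rw [valT_affine _ A.wx s, valT_affine _ A.wy t]
  ext <;> simp [zoneOff] <;> ring

lemma cyl_range {M : Machine} {z : Bool} {u : List ℕ} (hu : M.Digits u) :
    1/10 ≤ (xLo M.base z u).val ∧ (xHi M.base z u).val ≤ 9/10 := by
  have h0 := (valT_mem hu (s := 0) ⟨le_rfl, zero_le_one⟩).1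
  have h1 := (valT_mem hu (s := 1) ⟨zero_le_one, le_rfl⟩).2
  rw [valT_affine] at h1
  have e : 3/10 / (M.base:ℝ) ^ u.length = 3/10 * (1 / (M.base:ℝ) ^ u.length) := by ring
  rw [xHi_val, xLo_val, e]
  constructor <;> cases z <;> simp only [zoneOff, cond_true, cond_false] <;> linarith

lemma margin (M : Machine) : (2:ℝ) / (M.slope : ℝ) = M.gap / 3 := by
  have : (0:ℝ) < M.base := by exact_mod_cast base_pos M
  simp only [Machine.slope, Machine.gap]
  push_cast
  field_simp
  ring

lemma cut_single {M : Machine} {z : Bool} {u : List ℕ} (hu : M.Digits u) {y : ℝ} (h0 : 0 ≤ y)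
    (h1 : y ≤ 1) :
    periodize (plateau 0 M.slope (xLo M.base z u) (xHi M.base z u)).eval y =
      (plateau 0 M.slope (xLo M.base z u) (xHi M.base z u)).eval y := by
  obtain ⟨a, b⟩ := cyl_range (z := z) hu
  have hg := gap_le M
  have hp := gap_pos M
  exact periodize_single (a := (xLo M.base z u).val - 2 / (M.slope : ℝ))
    (b := (xHi M.base z u).val + 2 / (M.slope : ℝ))
    (fun s hs => plateau_zero (slope_pos M) (xLo_den ..) (xHi_den ..) (xLo_le_xHi ..) hs)
    (by rw [margin]; linarith) (by rw [margin]; linarith)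

lemma cut_one {M : Machine} {z : Bool} {u : List ℕ} (hu : M.Digits u) {s : ℝ}
    (hs : s ∈ Icc (0:ℝ) 1) :
    periodize (plateau 0 M.slope (xLo M.base z u) (xHi M.base z u)).eval
      ((xLo M.base z u).val + M.wide u.length * s) / kappa = 1 := by
  obtain ⟨a, b⟩ := cyl_range (z := z) hu
  have hw : M.wide u.length * s ≤ M.wide u.length :=
    mul_le_of_le_one_right (wide_pos M _).le hs.2
  have hw0 : 0 ≤ M.wide u.length * s := mul_nonneg (wide_pos M _).le hs.1
  have e : (xHi M.base z u).val = (xLo M.base z u).val + M.wide u.length := xHi_val M z u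
  rw [cut_single hu (by linarith) (by linarith),
    plateau_one (xLo_den ..) (xHi_den ..) (by linarith) (by linarith), pow_zero, one_mul,
    div_self kappa_ne]

lemma cut_near {M : Machine} {z : Bool} {u : List ℕ} (hu : M.Digits u) {y : ℝ} (h0 : 0 ≤ y)
    (h1 : y ≤ 1)
    (h : periodize (plateau 0 M.slope (xLo M.base z u) (xHi M.base z u)).eval y ≠ 0) :
    ∃ s ∈ Icc (0:ℝ) 1, |(xLo M.base z u).val + M.wide u.length * s - y| < M.gap := by
  rw [cut_single hu h0 h1] at h
  have hn : ¬ (y ≤ (xLo M.base z u).val - 2 / (M.slope:ℝ) ∨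
      (xHi M.base z u).val + 2 / (M.slope:ℝ) ≤ y) := fun hc =>
    h (plateau_zero (slope_pos M) (xLo_den ..) (xHi_den ..) (xLo_le_xHi ..) hc)
  push Not at hn
  rw [margin] at hn
  obtain ⟨n1, n2⟩ := hn
  rw [show (xHi M.base z u).val = (xLo M.base z u).val + M.wide u.length from xHi_val M z u] at n2
  have hp := gap_pos M
  have hw := wide_pos M u.length
  set q := max (xLo M.base z u).val (min ((xLo M.base z u).val + M.wide u.length) y) with hq
  refine ⟨(q - (xLo M.base z u).val) / M.wide u.length, ⟨?_, ?_⟩, ?_⟩
  · exact div_nonneg (sub_nonneg.2 (le_max_left _ _)) hw.le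
  · rw [div_le_one hw, sub_le_iff_le_add']
    exact max_le (by linarith) (min_le_left _ _)
  · rw [show (xLo M.base z u).val + M.wide u.length *
      ((q - (xLo M.base z u).val) / M.wide u.length) = q by field_simp; ring]
    rw [abs_sub_lt_iff, hq]
    rcases le_total y (xLo M.base z u).val with h | h
    · rw [min_eq_right (by linarith), max_eq_left h]
      constructor <;> linarith
    · rcases le_total y ((xLo M.base z u).val + M.wide u.length) with h' | h'
      · rw [min_eq_right h', max_eq_right h]
        constructor <;> linarith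
      · rw [min_eq_left h', max_eq_right (by linarith)]
        constructor <;> linarith

lemma boxVal_self {M : Machine} {A : Cyl} (hA : A.Fine M) {s t : ℝ} (hs : s ∈ Icc (0:ℝ) 1)
    (ht : t ∈ Icc (0:ℝ) 1) :
    boxVal M A (A.point M.base s t).1 (A.point M.base s t).2 = 1 := by
  rw [point_coords]
  simp only [boxVal, boxX, boxY]
  rw [cut_one hA.1.1 hs, cut_one hA.1.2 ht, mul_one]

lemma boxVal_other {M : Machine} {A B : Cyl} (hA : A.Fine M) (hB : B.Fine M) (h : A.Sep B)
    {s t : ℝ} (hs : s ∈ Icc (0:ℝ) 1) (ht : t ∈ Icc (0:ℝ) 1) :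
    boxVal M A (B.point M.base s t).1 (B.point M.base s t).2 = 0 := by
  by_contra hne
  simp only [boxVal, boxX, boxY, ne_eq, mul_eq_zero, div_eq_zero_iff, kappa_ne, or_false,
    not_or] at hne
  obtain ⟨⟨a, b⟩, c, d⟩ := point_mem hB.1.1 hB.1.2 hs ht
  have hz : 0 ≤ zoneOff B.zone ∧ zoneOff B.zone ≤ 3/5 := by
    cases B.zone <;> norm_num [zoneOff]
  obtain ⟨s', hs', h1⟩ := cut_near hA.1.1 (by linarith [hz.1]) (by linarith [hz.2]) hne.1
  obtain ⟨t', ht', h2⟩ := cut_near hA.1.2 (by linarith) (by linarith) hne.2
  have hsep := point_sep hA.1 hB.1 hA.2 hB.2 h hs' ht' hs ht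
  rw [point_coords M A s' t'] at hsep
  rcases hsep with h' | h' <;> simp only at h' <;> linarith

lemma from_fine (M : Machine) {j : ℕ} (hj : j < M.slots) : (M.from' j).Fine M := by
  have hi : (M.slot j).Ok M := by
    refine mem_branches ?_
    rw [Machine.slot, List.getD_eq_getElem _ _ hj]
    exact List.getElem_mem hj
  exact ⟨src_digits hi, src_len _⟩

lemma slot_ok {M : Machine} {j : ℕ} (hj : j < M.slots) : (M.slot j).Ok M := by
  refine mem_branches ?_
  rw [Machine.slot, List.getD_eq_getElem _ _ hj]
  exact List.getElem_mem hj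

lemma to_fine {M : Machine} (hM : M.Valid) {j : ℕ} (hj : j < M.slots) : (M.to' j).Fine M :=
  ⟨tgt_digits hM (slot_ok hj), tgt_len M _⟩

lemma slot_ne {M : Machine} {i j : ℕ} (hi : i < M.slots) (hj : j < M.slots) (h : i ≠ j) :
    M.slot i ≠ M.slot j := by
  simp only [Machine.slot]
  rw [List.getD_eq_getElem _ _ hi, List.getD_eq_getElem _ _ hj]
  exact fun e => h ((branches_nodup M).getElem_inj_iff.1 e)

lemma box_delta_from {M : Machine} {i j : ℕ} (hi : i < M.slots) (hj : j < M.slots) {s t : ℝ}
    (hs : s ∈ Icc (0:ℝ) 1) (ht : t ∈ Icc (0:ℝ) 1) :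
    boxVal M (M.from' i) ((M.from' j).point M.base s t).1 ((M.from' j).point M.base s t).2 =
      if i = j then 1 else 0 := by
  by_cases h : i = j
  · subst h; rw [if_pos rfl]; exact boxVal_self (from_fine M hi) hs ht
  · rw [if_neg h]
    exact boxVal_other (from_fine M hi) (from_fine M hj)
      (src_sep (slot_ok hi) (slot_ok hj) (slot_ne hi hj h)) hs ht

lemma box_delta_to {M : Machine} (hM : M.Valid) {i j : ℕ} (hi : i < M.slots) (hj : j < M.slots)
    {s t : ℝ} (hs : s ∈ Icc (0:ℝ) 1) (ht : t ∈ Icc (0:ℝ) 1) :
    boxVal M (M.to' i) ((M.to' j).point M.base s t).1 ((M.to' j).point M.base s t).2 =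
      if i = j then 1 else 0 := by
  by_cases h : i = j
  · subst h; rw [if_pos rfl]; exact boxVal_self (to_fine hM hi) hs ht
  · rw [if_neg h]
    exact boxVal_other (to_fine hM hi) (to_fine hM hj)
      (tgt_sep (slot_ok hi) (slot_ok hj) (slot_ne hi hj h)) hs ht

/-! ### The path -/

/-- One horizontal coordinate of the path: source at `a + d`, target at `b + exp α * d`. -/
def coordPath (a b α d t : ℝ) : ℝ :=
  b * prog 3 t + Real.exp (α * prog 2 t) * (a * (1 - prog 1 t) + d)

lemma coordPath_hasDerivAt (a b α d t : ℝ) :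
    HasDerivAt (coordPath a b α d)
      (b * rate0 3 t + Real.exp (α * prog 2 t) * (α * rate0 2 t) * (a * (1 - prog 1 t) + d)
        - Real.exp (α * prog 2 t) * (a * rate0 1 t)) t := by
  have h := ((prog_hasDerivAt 3 t).const_mul b).fun_add
    ((((prog_hasDerivAt 2 t).const_mul α).exp).fun_mul
      ((((prog_hasDerivAt 1 t).const_sub 1).const_mul a).add_const d))
  refine h.congr_deriv ?_
  ring

/-- The logarithmic scaling of the first coordinate in a slot. -/
def Machine.alphaX (M : Machine) (j : ℕ) : ℝ := logRatio (ratioX M (M.from' j) (M.to' j))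

/-- The logarithmic scaling of the second coordinate in a slot. -/
def Machine.alphaY (M : Machine) (j : ℕ) : ℝ := logRatio (ratioY M (M.from' j) (M.to' j))

lemma exp_logRatio (M : Machine) (n m : ℕ) :
    Real.exp (logRatio ⟨M.base ^ n, M.base ^ m⟩) * M.wide n = M.wide m := by
  have : (0:ℝ) < M.base := by exact_mod_cast base_pos M
  rw [logRatio, Real.exp_log (by push_cast; positivity)]
  simp only [Machine.wide]
  push_cast
  field_simp

/-- The path in slot `j` from the point with parameters `(s, r)`. -/
def slotPath (M : Machine) (j : ℕ) (s r t : ℝ) : Fin 3 → ℝ :=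
  ![coordPath (xLo M.base (M.from' j).zone (M.from' j).wx).val
      (xLo M.base (M.to' j).zone (M.to' j).wx).val (M.alphaX j)
      (M.wide (M.from' j).wx.length * s) t,
    coordPath (xLo M.base false (M.from' j).wy).val (xLo M.base false (M.to' j).wy).val
      (M.alphaY j) (M.wide (M.from' j).wy.length * r) t,
    (M.height j).val * (prog 0 t - prog 4 t)]

lemma coordPath_start {a b α d t : ℝ} (h1 : prog 1 t = 0) (h2 : prog 2 t = 0) (h3 : prog 3 t = 0) :
    coordPath a b α d t = a + d := by
  simp [coordPath, h1, h2, h3]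

lemma coordPath_end {a b α d t : ℝ} (h1 : prog 1 t = 1) (h2 : prog 2 t = 1) (h3 : prog 3 t = 1) :
    coordPath a b α d t = b + Real.exp α * d := by
  simp [coordPath, h1, h2, h3]

lemma slotPath_early (M : Machine) (j : ℕ) (s r : ℝ) {t : ℝ} (h : 20 * t ≤ 4) :
    slotPath M j s r t = ![((M.from' j).point M.base s r).1, ((M.from' j).point M.base s r).2,
      (M.height j).val * prog 0 t] := by
  simp only [slotPath]
  rw [coordPath_start, coordPath_start, prog_zero (k := 4), sub_zero, point_coords] <;>
    first
      | (refine prog_zero ?_; push_cast; linarith)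
      | (push_cast; linarith)

lemma slotPath_late (M : Machine) (j : ℕ) (s r : ℝ) {t : ℝ} (h : 10 ≤ 20 * t) :
    slotPath M j s r t = ![((M.to' j).point M.base s r).1, ((M.to' j).point M.base s r).2,
      (M.height j).val * (1 - prog 4 t)] := by
  have eX : Real.exp (M.alphaX j) * (M.wide (M.from' j).wx.length * s) =
      M.wide (M.to' j).wx.length * s := by
    rw [← mul_assoc, Machine.alphaX, ratioX, exp_logRatio]
  have eY : Real.exp (M.alphaY j) * (M.wide (M.from' j).wy.length * r) =
      M.wide (M.to' j).wy.length * r := by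
    rw [← mul_assoc, Machine.alphaY, ratioY, exp_logRatio]
  simp only [slotPath]
  rw [coordPath_end, coordPath_end, eX, eY, prog_one (k := 0), point_coords] <;>
    first
      | (refine prog_one ?_; push_cast; linarith)
      | (push_cast; linarith)

lemma slotPath_zero (M : Machine) (j : ℕ) (s r : ℝ) {t : ℝ} (h : 20 * t ≤ 2) :
    slotPath M j s r t =
      ![((M.from' j).point M.base s r).1, ((M.from' j).point M.base s r).2, 0] := by
  rw [slotPath_early M j s r (by linarith), prog_zero (k := 0) (by push_cast; linarith), mul_zero]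

lemma slotPath_done (M : Machine) (j : ℕ) (s r : ℝ) {t : ℝ} (h : 12 ≤ 20 * t) :
    slotPath M j s r t =
      ![((M.to' j).point M.base s r).1, ((M.to' j).point M.base s r).2, 0] := by
  rw [slotPath_late M j s r (by linarith), prog_one (k := 4) (by push_cast; linarith), sub_self,
    mul_zero]

lemma exp_interp {α S d : ℝ} (h0 : 0 ≤ S) (h1 : S ≤ 1) (hd : 0 ≤ d) (a : d ≤ 3/10)
    (b : Real.exp α * d ≤ 3/10) :
    0 ≤ Real.exp (α * S) * d ∧ Real.exp (α * S) * d ≤ 3/10 := by
  refine ⟨by positivity, ?_⟩
  rcases le_total α 0 with h | h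
  · refine le_trans ?_ a
    exact mul_le_of_le_one_left hd
      (Real.exp_le_one_iff.2 (mul_nonpos_of_nonpos_of_nonneg h h0))
  · refine le_trans ?_ b
    exact mul_le_mul_of_nonneg_right (Real.exp_le_exp.2 (mul_le_of_le_one_right h h1)) hd

lemma sum_slot {n j : ℕ} (hj : j < n) {f : ℕ → ℝ} {c : ℝ}
    (h : ∀ i < n, f i = if i = j then c else 0) : ∑ i ∈ Finset.range n, f i = c := by
  rw [Finset.sum_congr rfl (fun i hi => h i (Finset.mem_range.1 hi)), Finset.sum_ite_eq',
    if_pos (Finset.mem_range.2 hj)]

/-- In one period, the path follows the periodic velocity. -/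
lemma slotPath_hasDerivAt {M : Machine} (hM : M.Valid) {j : ℕ} (hj : j < M.slots) {s r : ℝ}
    (hs : s ∈ Icc (0:ℝ) 1) (hr : r ∈ Icc (0:ℝ) 1) {t : ℝ} {n : ℤ} (h0 : 0 ≤ t - n)
    (h1 : t - n ≤ 1) :
    HasDerivAt (fun u => slotPath M j s r (u - n))
      ![perV0 M t (slotPath M j s r (t - n)), perV1 M t (slotPath M j s r (t - n)),
        perV2 M t (slotPath M j s r (t - n))] t := by
  set τ : ℝ := t - n with hτ
  have hder : HasDerivAt (slotPath M j s r)
      ![perV0 M t (slotPath M j s r τ), perV1 M t (slotPath M j s r τ),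
        perV2 M t (slotPath M j s r τ)] τ := by
    have R : ∀ k ≤ 4, rate k t = rate0 k τ := fun k hk => rate_eq hk h0 h1
    have R0 := R 0 (by norm_num)
    have R1 := R 1 (by norm_num)
    have R2 := R 2 (by norm_num)
    have R3 := R 3 (by norm_num)
    have R4 := R 4 (by norm_num)
    set aX := (xLo M.base (M.from' j).zone (M.from' j).wx).val with haX
    set bX := (xLo M.base (M.to' j).zone (M.to' j).wx).val with hbX
    set aY := (xLo M.base false (M.from' j).wy).val with haY
    set bY := (xLo M.base false (M.to' j).wy).val with hbY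
    set dX := M.wide (M.from' j).wx.length * s with hdX
    set dY := M.wide (M.from' j).wy.length * r with hdY
    rw [hasDerivAt_pi]
    intro i
    have key : perV0 M t (slotPath M j s r τ) =
          bX * rate0 3 τ + Real.exp (M.alphaX j * prog 2 τ) * (M.alphaX j * rate0 2 τ) *
            (aX * (1 - prog 1 τ) + dX) - Real.exp (M.alphaX j * prog 2 τ) * (aX * rate0 1 τ) ∧
        perV1 M t (slotPath M j s r τ) =
          bY * rate0 3 τ + Real.exp (M.alphaY j * prog 2 τ) * (M.alphaY j * rate0 2 τ) *
            (aY * (1 - prog 1 τ) + dY) - Real.exp (M.alphaY j * prog 2 τ) * (aY * rate0 1 τ) ∧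
        perV2 M t (slotPath M j s r τ) = (M.height j).val * (rate0 0 τ - rate0 4 τ) := by
      have z0 : ∀ k : ℕ, (20 * τ ≤ 2 * k + 2 ∨ 2 * (k:ℝ) + 4 ≤ 20 * τ) → rate0 k τ = 0 :=
        fun k h => rate0_zero h
      rcases le_total (20 * τ) 4 with c1 | c1
      · -- lifting
        have q1 : rate0 1 τ = 0 := z0 1 (Or.inl (by push_cast; linarith))
        have q2 : rate0 2 τ = 0 := z0 2 (Or.inl (by push_cast; linarith))
        have q3 : rate0 3 τ = 0 := z0 3 (Or.inl (by push_cast; linarith))
        have q4 : rate0 4 τ = 0 := z0 4 (Or.inl (by push_cast; linarith))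
        refine ⟨?_, ?_, ?_⟩
        · simp [perV0, R1, R2, R3, q1, q2, q3]
        · simp [perV1, R1, R2, R3, q1, q2, q3]
        · simp only [perV2, R0, R2, R4, q2, q4, sub_zero, mul_zero, zero_mul, add_zero]
          refine sum_slot hj fun i hi => ?_
          rw [slotPath_early M j s r c1]
          simp only [Matrix.cons_val_zero, Matrix.cons_val_one]
          rw [box_delta_from hi hj hs hr]
          split_ifs with h
          · subst h; ring
          · ring
      rcases le_total (20 * τ) 10 with c4 | c4
      swap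
      · -- lowering
        have q0 : rate0 0 τ = 0 := z0 0 (Or.inr (by push_cast; linarith))
        have q1 : rate0 1 τ = 0 := z0 1 (Or.inr (by push_cast; linarith))
        have q2 : rate0 2 τ = 0 := z0 2 (Or.inr (by push_cast; linarith))
        have q3 : rate0 3 τ = 0 := z0 3 (Or.inr (by push_cast; linarith))
        refine ⟨?_, ?_, ?_⟩
        · simp [perV0, R1, R2, R3, q1, q2, q3]
        · simp [perV1, R1, R2, R3, q1, q2, q3]
        · simp only [perV2, R0, R2, R4, q0, q2, sub_zero, zero_sub, mul_zero, zero_mul, zero_add]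
          refine sum_slot hj fun i hi => ?_
          rw [slotPath_late M j s r c4]
          simp only [Matrix.cons_val_zero, Matrix.cons_val_one]
          rw [box_delta_to hM hi hj hs hr]
          split_ifs with h
          · subst h; ring
          · ring
      -- moving inside the slot
      have p0 : prog 0 τ = 1 := prog_one (by push_cast; linarith)
      have p4 : prog 4 τ = 0 := prog_zero (by push_cast; linarith)
      have q0 : rate0 0 τ = 0 := z0 0 (Or.inr (by push_cast; linarith))
      have q4 : rate0 4 τ = 0 := z0 4 (Or.inl (by push_cast; linarith))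
      have hz : slotPath M j s r τ 2 = (M.height j).val := by simp [slotPath, p0, p4]
      have hx : slotPath M j s r τ 0 = coordPath aX bX (M.alphaX j) dX τ := rfl
      have hy : slotPath M j s r τ 1 = coordPath aY bY (M.alphaY j) dY τ := rfl
      have zlin : ∀ i < M.slots, slabLin M i (slotPath M j s r τ 2) = 0 := fun i hi => by
        rw [hz]; exact (slab_at_height hi hj).2.1
      have c2 : perV2 M t (slotPath M j s r τ) = (M.height j).val * (rate0 0 τ - rate0 4 τ) := by
        simp only [perV2, R0, R4, q0, q4, sub_zero, mul_zero, zero_mul, add_zero]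
        refine Finset.sum_eq_zero fun i hi => ?_
        rw [zlin i (Finset.mem_range.1 hi)]
        ring
      refine ⟨?_, ?_, c2⟩
      · rcases em (20 * τ ≤ 6 ∨ 8 ≤ 20 * τ) with c | c
        · have q2 : rate0 2 τ = 0 := z0 2 (by push_cast; rcases c with c | c <;> [left; right] <;> linarith)
          have e : Real.exp (M.alphaX j * prog 2 τ) * (aX * rate0 1 τ) = aX * rate0 1 τ := by
            rcases c with c | c
            · rw [prog_zero (k := 2) (by push_cast; linarith), mul_zero, Real.exp_zero, one_mul]
            · rw [z0 1 (Or.inr (by push_cast; linarith))]; simp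
          rw [e, perV0, q2]
          refine (sum_slot hj (c := bX * rate0 3 τ - aX * rate0 1 τ) fun i hi => ?_).trans (by ring)
          rw [hz, (slab_at_height hi hj).1, R1, R2, R3, q2]
          split_ifs with h
          · subst h; simp [haX, hbX]; ring
          · simp
        · push Not at c
          have q1 : rate0 1 τ = 0 := z0 1 (Or.inr (by push_cast; linarith))
          have q3 : rate0 3 τ = 0 := z0 3 (Or.inl (by push_cast; linarith))
          have p1 : prog 1 τ = 1 := prog_one (by push_cast; linarith)
          have p3 : prog 3 τ = 0 := prog_zero (by push_cast; linarith)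
          have hd : 0 ≤ dX := mul_nonneg (wide_pos M _).le hs.1
          have hxv : slotPath M j s r τ 0 = Real.exp (M.alphaX j * prog 2 τ) * dX := by
            rw [hx]; simp [coordPath, p1, p3]
          obtain ⟨x0, x1⟩ := exp_interp (α := M.alphaX j) (prog_mem 2 τ).1 (prog_mem 2 τ).2 hd
            ((mul_le_of_le_one_right (wide_pos M _).le hs.2).trans (wide_le M _)) (by
              rw [hdX, ← mul_assoc, Machine.alphaX, ratioX, exp_logRatio]
              exact (mul_le_of_le_one_right (wide_pos M _).le hs.2).trans (wide_le M _))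
          have hlin : linVal (slotPath M j s r τ 0) = Real.exp (M.alphaX j * prog 2 τ) * dX := by
            rw [hxv]; exact linVal_eq (by linarith) (by linarith)
          rw [perV0, q1, q3, p1]
          refine (sum_slot hj (c := M.alphaX j * rate0 2 τ * (Real.exp (M.alphaX j * prog 2 τ) * dX))
            fun i hi => ?_).trans (by ring)
          rw [hz, (slab_at_height hi hj).2.2, hlin, R1, R2, R3, q1, q3]
          split_ifs with h
          · subst h; simp [Machine.alphaX]
          · simp
      · rcases em (20 * τ ≤ 6 ∨ 8 ≤ 20 * τ) with c | c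
        · have q2 : rate0 2 τ = 0 := z0 2 (by push_cast; rcases c with c | c <;> [left; right] <;> linarith)
          have e : Real.exp (M.alphaY j * prog 2 τ) * (aY * rate0 1 τ) = aY * rate0 1 τ := by
            rcases c with c | c
            · rw [prog_zero (k := 2) (by push_cast; linarith), mul_zero, Real.exp_zero, one_mul]
            · rw [z0 1 (Or.inr (by push_cast; linarith))]; simp
          rw [e, perV1, q2]
          refine (sum_slot hj (c := bY * rate0 3 τ - aY * rate0 1 τ) fun i hi => ?_).trans (by ring)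
          rw [hz, (slab_at_height hi hj).1, R1, R2, R3, q2]
          split_ifs with h
          · subst h; simp [haY, hbY]; ring
          · simp
        · push Not at c
          have q1 : rate0 1 τ = 0 := z0 1 (Or.inr (by push_cast; linarith))
          have q3 : rate0 3 τ = 0 := z0 3 (Or.inl (by push_cast; linarith))
          have p1 : prog 1 τ = 1 := prog_one (by push_cast; linarith)
          have p3 : prog 3 τ = 0 := prog_zero (by push_cast; linarith)
          have hd : 0 ≤ dY := mul_nonneg (wide_pos M _).le hr.1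
          have hxv : slotPath M j s r τ 1 = Real.exp (M.alphaY j * prog 2 τ) * dY := by
            rw [hy]; simp [coordPath, p1, p3]
          obtain ⟨x0, x1⟩ := exp_interp (α := M.alphaY j) (prog_mem 2 τ).1 (prog_mem 2 τ).2 hd
            ((mul_le_of_le_one_right (wide_pos M _).le hr.2).trans (wide_le M _)) (by
              rw [hdY, ← mul_assoc, Machine.alphaY, ratioY, exp_logRatio]
              exact (mul_le_of_le_one_right (wide_pos M _).le hr.2).trans (wide_le M _))
          have hlin : linVal (slotPath M j s r τ 1) = Real.exp (M.alphaY j * prog 2 τ) * dY := by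
            rw [hxv]; exact linVal_eq (by linarith) (by linarith)
          rw [perV1, q1, q3, p1]
          refine (sum_slot hj (c := M.alphaY j * rate0 2 τ * (Real.exp (M.alphaY j * prog 2 τ) * dY))
            fun i hi => ?_).trans (by ring)
          rw [hz, (slab_at_height hi hj).2.2, hlin, R1, R2, R3, q1, q3]
          split_ifs with h
          · subst h; simp [Machine.alphaY]
          · simp
    obtain ⟨k0, k1, k2⟩ := key
    rcases fin3_cases i with rfl | rfl | rfl
    · show HasDerivAt (coordPath aX bX (M.alphaX j) dX) _ τ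
      simp only [Matrix.cons_val_zero, k0]
      exact coordPath_hasDerivAt _ _ _ _ _
    · show HasDerivAt (coordPath aY bY (M.alphaY j) dY) _ τ
      simp only [Matrix.cons_val_one, Matrix.cons_val_zero, k1]
      exact coordPath_hasDerivAt _ _ _ _ _
    · show HasDerivAt (fun u => (M.height j).val * (prog 0 u - prog 4 u)) _ τ
      simp only [Matrix.cons_val, k2]
      exact ((prog_hasDerivAt 0 τ).fun_sub (prog_hasDerivAt 4 τ)).const_mul _
  exact HasDerivAt.comp_sub_const t (n:ℝ) hder

end

end Vale.Agent.P113
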