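import Vale.Agent.P113.Flow
import Vale.Agent.P113.Energy

/-! P113: the solution, its trajectory from the base point, and halting. -/

namespace Vale.Agent.P113

open Set Filter Topology
open scoped ContDiff

noncomputable section

/-! ### The solution -/

lemma comp_valid (M : Machine) (w : List ℕ) (i : Fin 3) :
    ∀ τ ∈ component (velLists M w) i, τ.Valid := fun τ hτ => (velLists_good M w i τ hτ).1

lemma valid_dxL {L : List Term} (h : ∀ τ ∈ L, τ.Valid) (j : Fin 3) : ∀ τ ∈ dxL j L, τ.Valid := by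
  intro σ hσ
  obtain ⟨τ, hτ, hs⟩ := List.mem_flatMap.1 hσ
  obtain ⟨-, h2, h3, h4, h5, h6⟩ := h τ hτ
  rcases fin3_cases j with rfl | rfl | rfl <;>
    simp only [Term.dx_zero, Term.dx_one, Term.dx_two, Term.d1, Term.d2, Term.d3,
      List.mem_map] at hs <;>
    obtain ⟨e, he, rfl⟩ := hs
  · exact ⟨Nat.mul_pos (h τ hτ).1 (dSpace_valid _ h4 e he).2, h2, h3,
      (dSpace_valid _ h4 e he).1, h5, h6⟩
  · exact ⟨Nat.mul_pos (h τ hτ).1 (dSpace_valid _ h5 e he).2, h2, h3, h4,
      (dSpace_valid _ h5 e he).1, h6⟩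
  · exact ⟨Nat.mul_pos (h τ hτ).1 (dSpace_valid _ h6 e he).2, h2, h3, h4, h5,
      (dSpace_valid _ h6 e he).1⟩

lemma valid_dtL {L : List Term} (h : ∀ τ ∈ L, τ.Valid) : ∀ τ ∈ dtL L, τ.Valid := by
  intro σ hσ
  obtain ⟨τ, hτ, hs⟩ := List.mem_flatMap.1 hσ
  obtain ⟨h1, h2, h3, h4, h5, h6⟩ := h τ hτ
  obtain ⟨e, he, rfl⟩ := List.mem_map.1 hs
  exact ⟨Nat.mul_pos h1 (dTime_valid _ h3 e he).2, h2, (dTime_valid _ h3 e he).1, h4, h5, h6⟩

lemma velocity_contDiff (ν : ℝ) (M : Machine) (w : List ℕ) :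
    ContDiff ℝ ∞ (fun z : ℝ × (Fin 3 → ℝ) => velocity ν M w z.1 z.2) :=
  contDiff_pi.2 fun i => evalTerms_contDiff ν (comp_valid M w i)

lemma velocity_div (ν : ℝ) (M : Machine) (w : List ℕ) (t : ℝ) (x : Fin 3 → ℝ) :
    ∑ i : Fin 3, evalTerms ν (dxL i (component (velLists M w) i)) t x = 0 := by
  have h : ∀ i, HasPartialAt (fun y => velocity ν M w t y i) i
      (evalTerms ν (dxL i (component (velLists M w) i)) t x) x := fun i =>
    evalTerms_hasPartialAt ν (comp_valid M w i) t i x
  set d0 : ℝ := ∑ j ∈ Finset.range M.slots, logRatio (ratioX M (M.from' j) (M.to' j)) * rate 2 t *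
    deriv linVal (x 0) * deriv (slabLin M j) (x 2) with hd0
  set d1 : ℝ := ∑ j ∈ Finset.range M.slots, logRatio (ratioY M (M.from' j) (M.to' j)) * rate 2 t *
    deriv linVal (x 1) * deriv (slabLin M j) (x 2) with hd1
  have e0 : evalTerms ν (dxL 0 (component (velLists M w) 0)) t x = (1 - cutVal t) * d0 := by
    refine HasDerivAt.unique (h 0) ?_
    simp only [velocity_0, perV0, Function.update_self,
      Function.update_of_ne (show (2 : Fin 3) ≠ 0 by decide)]
    refine ((HasDerivAt.fun_sum fun j _ => ?_).const_mul _).add_const _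
    exact (((linVal_differentiable (x 0)).hasDerivAt.const_mul _).mul_const _).const_add _
  have e1 : evalTerms ν (dxL 1 (component (velLists M w) 1)) t x = (1 - cutVal t) * d1 := by
    refine HasDerivAt.unique (h 1) ?_
    simp only [velocity_1, perV1, Function.update_self,
      Function.update_of_ne (show (2 : Fin 3) ≠ 1 by decide)]
    refine ((HasDerivAt.fun_sum fun j _ => ?_).const_mul _).add_const _
    exact (((linVal_differentiable (x 1)).hasDerivAt.const_mul _).mul_const _).const_add _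
  have e2 : evalTerms ν (dxL 2 (component (velLists M w) 2)) t x = (1 - cutVal t) * (-d0 - d1) := by
    refine HasDerivAt.unique (h 2) ?_
    simp only [velocity_2, perV2, Function.update_self,
      Function.update_of_ne (show (0 : Fin 3) ≠ 2 by decide),
      Function.update_of_ne (show (1 : Fin 3) ≠ 2 by decide), hd0, hd1]
    rw [← Finset.sum_neg_distrib, ← Finset.sum_sub_distrib]
    refine (HasDerivAt.fun_sum fun j _ => ?_).const_mul _
    have hs := (slabLin_differentiable M j (x 2)).hasDerivAt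
    exact ((hs.const_mul _).const_sub _).fun_sub (hs.const_mul _)
  rw [Fin.sum_univ_three, e0, e1, e2]
  ring

lemma force_eq (ν : ℝ) (M : Machine) (w : List ℕ) (t : ℝ) (x : Fin 3 → ℝ) (i : Fin 3) :
    forceOf ν (compile M w) t x i = evalTerms ν (dtL (component (velLists M w) i)) t x
      + ∑ j, velocity ν M w t x j * evalTerms ν (dxL j (component (velLists M w) i)) t x
      - ν * ∑ j, evalTerms ν (dxL j (dxL j (component (velLists M w) i))) t x := by
  simp only [forceOf, compile, component_forceLists, forceList, evalTerms_append, evalTerms_mulL,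
    evalTerms_negNu, Fin.sum_univ_three, velocity]
  simp only [component, Matrix.cons_val_zero, Matrix.cons_val_one, Matrix.cons_val]
  ring

lemma velocity_start (ν : ℝ) (M : Machine) (w : List ℕ) (x : Fin 3 → ℝ) :
    velocity ν M w 0 x = 0 := by
  have hc : cutVal 0 = 1 := by
    simp [cutVal, Bump.eval, cutBump, RatCode.val, RatCode.ofNat']
    rw [piFun_mid (by norm_num) (by norm_num), div_self kappa_ne]
  have hz : ∀ k, rate0 k 0 = 0 := fun k => rate0_zero (Or.inl (by simp; positivity))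
  funext i
  rcases fin3_cases i with rfl | rfl | rfl
  · simp [velocity_0, hc, hz]
  · simp [velocity_1, hc, hz]
  · simp [velocity_2, hc]

lemma velocity_classical (ν : ℝ) (M : Machine) (w : List ℕ) (T : ℝ) :
    IsClassicalSolution ν (forceOf ν (compile M w)) T (velocity ν M w) (fun _ _ => 0) := by
  have hv := comp_valid M w
  have hc : ∀ L : List Term, (∀ τ ∈ L, τ.Valid) →
      ContinuousOn (fun z : ℝ × (Fin 3 → ℝ) => evalTerms ν L z.1 z.2) (Icc 0 T ×ˢ univ) :=
    fun L hL => (evalTerms_contDiff ν hL).continuous.continuousOn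
  refine ⟨fun t _ => ⟨fun x n => funext fun i => evalTerms_periodic ν _ t x n, fun _ _ => rfl⟩,
    (velocity_contDiff ν M w).continuous.continuousOn, continuousOn_const,
    fun i => evalTerms ν (dtL (component (velLists M w) i)),
    fun i j => evalTerms ν (dxL j (component (velLists M w) i)),
    fun i j k => evalTerms ν (dxL k (dxL j (component (velLists M w) i))), fun _ _ _ => 0,
    fun i => hc _ (valid_dtL (hv i)), fun i j => hc _ (valid_dxL (hv i) j),
    fun i j k => hc _ (valid_dxL (valid_dxL (hv i) j) k), fun _ => continuousOn_const,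
    fun t _ x => ⟨fun i => (evalTerms_hasDerivAt_time ν (hv i) t x).hasDerivWithinAt,
      fun i j => evalTerms_hasPartialAt ν (hv i) t j x,
      fun i j k => evalTerms_hasPartialAt ν (valid_dxL (hv i) j) t k x,
      fun j => hasDerivAt_const _ _, fun i => ?_, velocity_div ν M w t x, by simp [cubeInt],
      velocity_start ν M w x⟩⟩
  rw [force_eq]
  ring

/-! ### The trajectory -/

lemma startPt_eq (M : Machine) (w : List ℕ) :
    M.startPt w = ((startX M).val, (startY M w).val) := by
  simp only [Machine.startPt, Machine.pt, startX, startY, xPoint_val, zoneOff, cond_false]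

lemma exists_slot {M : Machine} {p p' : ℝ × ℝ} (h : M.BStep p p') :
    ∃ j < M.slots, ∃ s ∈ Icc (0:ℝ) 1, ∃ r ∈ Icc (0:ℝ) 1,
      p = (M.from' j).point M.base s r ∧ p' = (M.to' j).point M.base s r := by
  obtain ⟨i, hi, s, hs, r, hr, h1, h2⟩ := h
  obtain ⟨j, hj, rfl⟩ := List.getElem_of_mem hi
  refine ⟨j, hj, s, hs, r, hr, ?_, ?_⟩
  · rw [h1, Machine.from', Machine.slot, List.getD_eq_getElem _ _ hj]
  · rw [h2, Machine.to', Machine.slot, List.getD_eq_getElem _ _ hj]

lemma bstep_region {M : Machine} {p p' : ℝ × ℝ} (h : M.BStep p p') :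
    (1/10 ≤ p.1 ∧ p.1 ≤ 2/5 ∨ 3/5 ≤ p.1 ∧ p.1 ≤ 9/10) ∧ 1/10 ≤ p.2 ∧ p.2 ≤ 2/5 := by
  obtain ⟨j, hj, s, hs, r, hr, rfl, -⟩ := exists_slot h
  obtain ⟨hx, hy⟩ := point_mem (from_fine M hj).1.1 (from_fine M hj).1.2 hs hr
  refine ⟨?_, hy⟩
  cases hz : (M.from' j).zone <;> rw [hz] at hx <;> simp only [zoneOff, cond_true, cond_false] at hx
  · left; constructor <;> linarith
  · right; constructor <;> linarith

/-- The point of the torus over a point of the square. -/
def onFloor (p : ℝ × ℝ) : Fin 3 → ℝ := ![p.1, p.2, 0]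

/-- The path during the first time unit. -/
def movePath (M : Machine) (w : List ℕ) (t : ℝ) : Fin 3 → ℝ :=
  ![1/4 + ((startX M).val - 1/4) * prog 1 t, 1/4 + ((startY M w).val - 1/4) * prog 0 t, 0]

lemma movePath_done (M : Machine) (w : List ℕ) {t : ℝ} (h : 6 ≤ 20 * t) :
    movePath M w t = onFloor (M.startPt w) := by
  simp [movePath, onFloor, startPt_eq, prog_one (k := 0) (t := t) (by push_cast; linarith),
    prog_one (k := 1) (t := t) (by push_cast; linarith)]

open Classical in
/-- The slot and parameters used in each period. -/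
def stepData (M : Machine) (w : List ℕ) (n : ℕ) : ℕ × ℝ × ℝ :=
  if h : ∃ d : ℕ × ℝ × ℝ, d.1 < M.slots ∧ d.2.1 ∈ Icc (0:ℝ) 1 ∧ d.2.2 ∈ Icc (0:ℝ) 1 ∧
      M.run w n = (M.from' d.1).point M.base d.2.1 d.2.2 ∧
      M.run w (n + 1) = (M.to' d.1).point M.base d.2.1 d.2.2
  then h.choose else (0, 0, 0)

lemma stepData_spec {M : Machine} {w : List ℕ} {n : ℕ} (h : M.BStep (M.run w n) (M.run w (n + 1))) :
    (stepData M w n).1 < M.slots ∧ (stepData M w n).2.1 ∈ Icc (0:ℝ) 1 ∧
      (stepData M w n).2.2 ∈ Icc (0:ℝ) 1 ∧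
      M.run w n = (M.from' (stepData M w n).1).point M.base (stepData M w n).2.1 (stepData M w n).2.2 ∧
      M.run w (n + 1) =
        (M.to' (stepData M w n).1).point M.base (stepData M w n).2.1 (stepData M w n).2.2 := by
  obtain ⟨j, hj, s, hs, r, hr, h1, h2⟩ := exists_slot h
  have he : ∃ d : ℕ × ℝ × ℝ, d.1 < M.slots ∧ d.2.1 ∈ Icc (0:ℝ) 1 ∧ d.2.2 ∈ Icc (0:ℝ) 1 ∧
      M.run w n = (M.from' d.1).point M.base d.2.1 d.2.2 ∧
      M.run w (n + 1) = (M.to' d.1).point M.base d.2.1 d.2.2 := ⟨(j, s, r), hj, hs, hr, h1, h2⟩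
  simp only [stepData, dif_pos he]
  exact he.choose_spec

/-- The path in the time interval `[n, n + 1]`. -/
def segment (M : Machine) (w : List ℕ) : ℕ → ℝ → Fin 3 → ℝ
  | 0, t => movePath M w t
  | n + 1, t => slotPath M (stepData M w n).1 (stepData M w n).2.1 (stepData M w n).2.2
      (t - ((n + 1 : ℕ) : ℤ))

/-- The trajectory. -/
def traj (M : Machine) (w : List ℕ) (t : ℝ) : Fin 3 → ℝ := segment M w ⌊t⌋₊ t

lemma segment_end {M : Machine} (hM : M.Valid) {w : List ℕ} (hw : M.IsInput w) (n : ℕ) {t : ℝ}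
    (h : (n:ℝ) + 9/10 ≤ t) : segment M w n t = onFloor (M.run w n) := by
  cases n with
  | zero => exact movePath_done M w (by simp at h; linarith)
  | succ n =>
    obtain ⟨-, -, -, -, h2⟩ := stepData_spec ((run_spec hM hw).1 n)
    simp only [segment]
    rw [slotPath_done _ _ _ _ (by push_cast at h ⊢; linarith), h2]
    rfl

lemma segment_begin {M : Machine} (hM : M.Valid) {w : List ℕ} (hw : M.IsInput w) (n : ℕ) {t : ℝ}
    (h : t ≤ (n:ℝ) + 1 + 1/10) : segment M w (n + 1) t = onFloor (M.run w n) := by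
  obtain ⟨-, -, -, h1, -⟩ := stepData_spec ((run_spec hM hw).1 n)
  simp only [segment]
  rw [slotPath_zero _ _ _ _ (by push_cast; linarith)]
  conv_rhs => rw [h1]
  rfl

lemma traj_eventually {M : Machine} (hM : M.Valid) {w : List ℕ} (hw : M.IsInput w) {t : ℝ}
    (ht : 0 ≤ t) : traj M w =ᶠ[𝓝 t] segment M w ⌊t⌋₊ := by
  have h0 := Nat.floor_le ht
  have h1 := Nat.lt_floor_add_one t
  generalize hn : ⌊t⌋₊ = n at h0 h1
  rcases eq_or_lt_of_le h0 with he | hlt
  · filter_upwards [Ioo_mem_nhds (show t - 1/20 < t by linarith) (show t < t + 1/20 by linarith)]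
      with s hs
    rcases le_or_gt (n:ℝ) s with h | h
    · have : ⌊s⌋₊ = n := (Nat.floor_eq_iff (by linarith [Nat.cast_nonneg (α := ℝ) n])).2
        ⟨h, by linarith [hs.2]⟩
      simp [traj, this]
    · cases n with
      | zero => simp only [Nat.cast_zero] at h; simp [traj, Nat.floor_of_nonpos h.le]
      | succ m =>
        push_cast at he h
        have : ⌊s⌋₊ = m := (Nat.floor_eq_iff (by linarith [hs.1, Nat.cast_nonneg (α := ℝ) m])).2
          ⟨by linarith [hs.1], h⟩
        simp only [traj, this]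
        rw [segment_end hM hw m (by linarith [hs.1]), segment_begin hM hw m (by linarith [hs.2])]
  · filter_upwards [Ioo_mem_nhds hlt h1] with s hs
    have : ⌊s⌋₊ = n := (Nat.floor_eq_iff (by linarith [hs.1, Nat.cast_nonneg (α := ℝ) n])).2
      ⟨hs.1.le, hs.2⟩
    simp [traj, this]

lemma cutVal_late {t : ℝ} (h : 11/10 ≤ t) : cutVal t = 0 := by
  rw [cutVal, Bump.eval_outside cut_valid, zero_div]
  simp [Bump.Outside, Bump.arg, cutBump, RatCode.val, RatCode.ofNat']
  right; linarith

lemma cutVal_early {t : ℝ} (h0 : 0 ≤ t) (h1 : t ≤ 1) : cutVal t = 1 := by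
  simp [cutVal, Bump.eval, cutBump, RatCode.val, RatCode.ofNat']
  rw [piFun_mid (by linarith) (by linarith), div_self kappa_ne]

lemma segment_hasDerivAt (ν : ℝ) {M : Machine} (hM : M.Valid) {w : List ℕ} (hw : M.IsInput w)
    {n : ℕ} {t : ℝ} (h0 : (n:ℝ) ≤ t) (h1 : t ≤ n + 1) :
    HasDerivAt (segment M w n) (velocity ν M w t (segment M w n t)) t := by
  cases n with
  | zero =>
    simp only [Nat.cast_zero, zero_add] at h0 h1
    rw [hasDerivAt_pi]
    intro i
    have hc := cutVal_early h0 h1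
    rcases fin3_cases i with rfl | rfl | rfl
    · show HasDerivAt (fun s => 1/4 + ((startX M).val - 1/4) * prog 1 s) _ t
      simp only [velocity_0, hc, sub_self, zero_mul, zero_add]
      exact ((prog_hasDerivAt 1 t).const_mul _).const_add _
    · show HasDerivAt (fun s => 1/4 + ((startY M w).val - 1/4) * prog 0 s) _ t
      simp only [velocity_1, hc, sub_self, zero_mul, zero_add]
      exact ((prog_hasDerivAt 0 t).const_mul _).const_add _
    · show HasDerivAt (fun _ => (0:ℝ)) _ t
      simp only [velocity_2, hc, sub_self, zero_mul]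
      exact hasDerivAt_const _ _
  | succ n =>
    obtain ⟨hj, hs, hr, -, -⟩ := stepData_spec ((run_spec hM hw).1 n)
    push_cast at h0 h1
    have h := slotPath_hasDerivAt hM hj hs hr (t := t) (n := ((n + 1 : ℕ) : ℤ))
      (by push_cast; linarith) (by push_cast; linarith)
    refine h.congr_deriv ?_
    have hn : (0:ℝ) ≤ n := Nat.cast_nonneg n
    have hm : rate0 0 t = 0 ∧ rate0 1 t = 0 :=
      ⟨rate0_zero (Or.inr (by push_cast; linarith)), rate0_zero (Or.inr (by push_cast; linarith))⟩
    change _ = velocity ν M w t (slotPath M (stepData M w n).1 (stepData M w n).2.1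
      (stepData M w n).2.2 (t - ((n + 1 : ℕ) : ℤ)))
    rcases le_or_gt (11/10) t with hlate | hearly
    · funext i
      rcases fin3_cases i with rfl | rfl | rfl
      · simp [velocity_0, cutVal_late hlate, hm.2]
      · simp [velocity_1, cutVal_late hlate, hm.1]
      · simp [velocity_2, cutVal_late hlate]
    · have hr : ∀ k ≤ 4, rate k t = 0 := fun k hk => by
        rw [rate_eq hk (n := 1) (by push_cast; linarith) (by push_cast; linarith)]
        exact rate0_zero (Or.inl (by push_cast; linarith [Nat.cast_nonneg (α := ℝ) k]))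
      funext i
      rcases fin3_cases i with rfl | rfl | rfl
      · simp [velocity_0, perV0, hr 1 (by norm_num), hr 2 (by norm_num), hr 3 (by norm_num), hm.2]
      · simp [velocity_1, perV1, hr 1 (by norm_num), hr 2 (by norm_num), hr 3 (by norm_num), hm.1]
      · simp [velocity_2, perV2, hr 0 (by norm_num), hr 2 (by norm_num), hr 4 (by norm_num)]

/-- The rational starting point `(1/4, 1/4, 0)`. -/
def basePoint : Fin 3 → ℚ := ![1/4, 1/4, 0]

/-- The lower corner of the detection box. -/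
def boxLo : Fin 3 → ℚ := ![11/20, 0, -1/8]

/-- The upper corner of the detection box. -/
def boxHi : Fin 3 → ℚ := ![19/20, 1, 1/8]

lemma traj_isTrajectory (ν : ℝ) {M : Machine} (hM : M.Valid) {w : List ℕ} (hw : M.IsInput w) :
    IsTrajectory (velocity ν M w) (fun i => (basePoint i : ℝ)) (traj M w) := by
  refine ⟨?_, fun t ht => ?_⟩
  · funext i
    simp only [traj, Nat.floor_zero, segment, movePath,
      prog_zero (k := 0) (t := 0) (by norm_num), prog_zero (k := 1) (t := 0) (by norm_num)]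
    rcases fin3_cases i with rfl | rfl | rfl <;> simp [basePoint]
  · have h := segment_hasDerivAt ν hM hw (Nat.floor_le ht) (Nat.lt_floor_add_one t).le
    have e := traj_eventually hM hw ht
    rw [e.eq_of_nhds]
    exact (h.congr_of_eventuallyEq e).hasDerivWithinAt

lemma not_inBox_x {p : Fin 3 → ℝ} (h0 : 1/10 ≤ p 0) (h1 : p 0 ≤ 2/5) :
    ¬ InBoxImage boxLo boxHi p := by
  rintro ⟨n, hn⟩
  obtain ⟨a, b⟩ := hn 0
  simp only [boxLo, boxHi, Matrix.cons_val_zero] at a b
  push_cast at a b
  rcases le_or_gt (n 0) 0 with h | h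
  · have : (n 0 : ℝ) ≤ 0 := by exact_mod_cast h
    linarith
  · have : (1:ℝ) ≤ n 0 := by exact_mod_cast h
    linarith

lemma not_inBox_z {p : Fin 3 → ℝ} (h0 : 1/4 ≤ p 2) (h1 : p 2 ≤ 3/4) :
    ¬ InBoxImage boxLo boxHi p := by
  rintro ⟨n, hn⟩
  obtain ⟨a, b⟩ := hn 2
  simp only [boxLo, boxHi, Matrix.cons_val] at a b
  push_cast at a b
  rcases lt_or_ge (n 2) 0 with h | h
  · have : (n 2 : ℝ) ≤ -1 := by exact_mod_cast (show n 2 ≤ -1 by omega)
    linarith
  · have : (0:ℝ) ≤ n 2 := by exact_mod_cast h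
    linarith

lemma traj_hits {M : Machine} (hM : M.Valid) {w : List ℕ} (hw : M.IsInput w) :
    (∃ t, 0 ≤ t ∧ InBoxImage boxLo boxHi (traj M w t)) ↔ M.HaltsOn w := by
  rw [(run_spec hM hw).2]
  constructor
  · rintro ⟨t, ht, hbox⟩
    by_contra hno
    push Not at hno
    have low : ∀ n, 1/10 ≤ (M.run w n).1 ∧ (M.run w n).1 ≤ 2/5 := fun n => by
      rcases (bstep_region ((run_spec hM hw).1 n)).1 with h | h
      · exact h
      · linarith [hno n]
    refine absurd hbox ?_
    rw [traj]
    cases hn : ⌊t⌋₊ with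
    | zero =>
      have h00 : (startX M).val = (M.run w 0).1 := by
        simp [Machine.run, startPt_eq]
      obtain ⟨p0, p1⟩ := prog_mem 1 t
      obtain ⟨a, b⟩ := low 0
      refine not_inBox_x ?_ ?_ <;>
        simp only [segment, movePath, Matrix.cons_val_zero, h00] <;> nlinarith
    | succ n =>
      obtain ⟨hj, hs, hr, h1, h2⟩ := stepData_spec ((run_spec hM hw).1 n)
      simp only [segment]
      set τ : ℝ := t - (((n + 1 : ℕ) : ℤ) : ℝ) with hτ
      rcases le_total (20 * τ) 4 with c1 | c1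
      · rw [slotPath_early _ _ _ _ c1, ← h1]
        exact not_inBox_x (by simpa using (low n).1) (by simpa using (low n).2)
      rcases le_total (20 * τ) 10 with c4 | c4
      · obtain ⟨za, zb⟩ := height_mem hj
        have hpos : (0:ℝ) < 1 / (8 * (M.slots:ℝ)) := by
          have hN : (0:ℝ) < M.slots := by exact_mod_cast slots_pos M
          positivity
        refine not_inBox_z ?_ ?_ <;>
          simp only [slotPath, Matrix.cons_val, prog_one (k := 0) (t := τ) (by push_cast; linarith),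
            prog_zero (k := 4) (t := τ) (by push_cast; linarith)] <;> linarith
      · rw [slotPath_late _ _ _ _ c4, ← h2]
        exact not_inBox_x (by simpa using (low (n + 1)).1) (by simpa using (low (n + 1)).2)
  · rintro ⟨n, hn⟩
    refine ⟨(n:ℝ) + 19/20, by positivity, ?_⟩
    have hfl : ⌊(n:ℝ) + 19/20⌋₊ = n :=
      (Nat.floor_eq_iff (by positivity)).2 ⟨by linarith, by linarith⟩
    rw [traj, hfl, segment_end hM hw n (by linarith)]
    obtain ⟨hx, hy1, hy2⟩ := bstep_region ((run_spec hM hw).1 n)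
    refine ⟨0, fun i => ?_⟩
    rcases fin3_cases i with rfl | rfl | rfl <;>
      simp only [onFloor, boxLo, boxHi, Matrix.cons_val_zero, Matrix.cons_val_one, Matrix.cons_val,
        Pi.zero_apply, Int.cast_zero, add_zero] <;> push_cast
    · rcases hx with hx | hx
      · linarith [hx.2]
      · constructor <;> linarith
    · constructor <;> linarith
    · constructor <;> norm_num

lemma trajectory_unique {u : ℝ → (Fin 3 → ℝ) → Fin 3 → ℝ}
    (hu : ContDiff ℝ 1 (fun z : ℝ × (Fin 3 → ℝ) => u z.1 z.2)) {a : Fin 3 → ℝ}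
    {X Y : ℝ → Fin 3 → ℝ} (hX : IsTrajectory u a X) (hY : IsTrajectory u a Y) {t : ℝ}
    (ht : 0 ≤ t) : Y t = X t := by
  have cX : ∀ Z : ℝ → Fin 3 → ℝ, IsTrajectory u a Z → ContinuousOn Z (Icc 0 t) := fun Z hZ s hs =>
    ((hZ.2 s hs.1).continuousWithinAt).mono fun r hr => hr.1
  obtain ⟨R, hR⟩ := ((isCompact_Icc (a := (0:ℝ)) (b := t)).image_of_continuousOn (cX X hX)).union
    ((isCompact_Icc (a := (0:ℝ)) (b := t)).image_of_continuousOn (cX Y hY)) |>.isBounded.subset_closedBall 0
  have hloc : LocallyLipschitzOn (univ : Set (ℝ × (Fin 3 → ℝ))) fun z => u z.1 z.2 :=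
    hu.contDiffOn.locallyLipschitzOn convex_univ
  obtain ⟨K, hK⟩ := (hloc.mono (subset_univ (Icc (0:ℝ) t ×ˢ Metric.closedBall (0 : Fin 3 → ℝ) R))
    ).exists_lipschitzOnWith_of_compact (isCompact_Icc.prod (isCompact_closedBall _ _))
  have hv : ∀ s ∈ Ico 0 t, LipschitzOnWith K (u s) (Metric.closedBall 0 R) := by
    intro s hs
    refine LipschitzOnWith.of_dist_le_mul fun x hx y hy => ?_
    have h := hK.dist_le_mul (s, x) ⟨Ico_subset_Icc_self hs, hx⟩ (s, y) ⟨Ico_subset_Icc_self hs, hy⟩
    simpa [Prod.dist_eq] using h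
  have hd : ∀ Z : ℝ → Fin 3 → ℝ, IsTrajectory u a Z → ∀ s ∈ Ico 0 t,
      HasDerivWithinAt Z (u s (Z s)) (Ici s) s := fun Z hZ s hs =>
    (hZ.2 s hs.1).mono (Ici_subset_Ici.2 hs.1)
  exact ODE_solution_unique_of_mem_Icc_right hv (cX Y hY) (hd Y hY)
    (fun s hs => hR (Or.inr (mem_image_of_mem _ (Ico_subset_Icc_self hs))))
    (cX X hX) (hd X hX)
    (fun s hs => hR (Or.inl (mem_image_of_mem _ (Ico_subset_Icc_self hs))))
    (hY.1.trans hX.1.symm) ⟨ht, le_rfl⟩

/-- Everything about one machine and input. -/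
theorem main_one {ν : ℝ} (hν : 0 < ν) {M : Machine} (hM : M.Valid) {w : List ℕ}
    (hw : M.IsInput w) :
    ∃ u p, IsGlobalSmoothSolution ν (forceOf ν (compile M w)) u p ∧
      IsUniqueClassical ν (forceOf ν (compile M w)) u p ∧
      ∃ X, IsTrajectory u (fun i => (basePoint i : ℝ)) X ∧
        (∀ Y, IsTrajectory u (fun i => (basePoint i : ℝ)) Y → ∀ t ≥ 0, Y t = X t) ∧
        ((∃ t, 0 ≤ t ∧ InBoxImage boxLo boxHi (X t)) ↔ M.HaltsOn w) := by
  refine ⟨velocity ν M w, fun _ _ => 0, ⟨velocity_contDiff ν M w, contDiff_const,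
    fun T _ => velocity_classical ν M w T⟩, ?_, traj M w, traj_isTrajectory ν hM hw, ?_,
    traj_hits hM hw⟩
  · intro T hT v q hv
    exact classical_unique hν hT (velocity_classical ν M w T) hv
  · intro Y hY t ht
    exact trajectory_unique ((velocity_contDiff ν M w).of_le (by simp)) (traj_isTrajectory ν hM hw)
      hY ht

end

end Vale.Agent.P113
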