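import Vale.Agent.P113.Symbolic

/-! P113: the orbit of the piecewise affine map and halting. -/

namespace Vale.Agent.P113

open Set

noncomputable section

/-- The gap between different cylinders. -/
def Machine.gap (M : Machine) : ℝ := 3/10 / (M.base : ℝ) ^ 3

lemma gap_pos (M : Machine) : 0 < M.gap := by
  have h : (0:ℝ) < M.base := by exact_mod_cast (show 0 < M.base by have := base_ge M; omega)
  exact div_pos (by norm_num) (pow_pos h 3)

lemma gap_le (M : Machine) : M.gap ≤ 1/90 := by
  have h : (3:ℝ) ≤ M.base := by exact_mod_cast base_ge M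
  have h27 : (27:ℝ) ≤ (M.base : ℝ) ^ 3 := by
    have := pow_le_pow_left₀ (by norm_num) h 3
    linarith
  unfold Machine.gap
  rw [div_le_iff₀ (by linarith)]
  linarith

lemma point_mem {M : Machine} {A : Cyl} (hx : M.Digits A.wx) (hy : M.Digits A.wy) {s t : ℝ}
    (hs : s ∈ Icc (0:ℝ) 1) (ht : t ∈ Icc (0:ℝ) 1) :
    (zoneOff A.zone ≤ (A.point M.base s t).1 ∧
      (A.point M.base s t).1 ≤ zoneOff A.zone + 3/10) ∧
    (1/10 ≤ (A.point M.base s t).2 ∧ (A.point M.base s t).2 ≤ 2/5) := by
  obtain ⟨a0, a1⟩ := valT_mem hx hs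
  obtain ⟨b0, b1⟩ := valT_mem hy ht
  simp only [Cyl.point]
  refine ⟨⟨?_, ?_⟩, ?_, ?_⟩ <;> linarith

lemma point_sep {M : Machine} {A B : Cyl} (hA : M.Digits A.wx ∧ M.Digits A.wy)
    (hB : M.Digits B.wx ∧ M.Digits B.wy) (lA : A.wx.length ≤ 3 ∧ A.wy.length ≤ 3)
    (lB : B.wx.length ≤ 3 ∧ B.wy.length ≤ 3) (h : A.Sep B) {s t s' t' : ℝ}
    (hs : s ∈ Icc (0:ℝ) 1) (ht : t ∈ Icc (0:ℝ) 1) (hs' : s' ∈ Icc (0:ℝ) 1)
    (ht' : t' ∈ Icc (0:ℝ) 1) :
    M.gap ≤ |(A.point M.base s t).1 - (B.point M.base s' t').1| ∨
      M.gap ≤ |(A.point M.base s t).2 - (B.point M.base s' t').2| := by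
  have hB1 : (1:ℝ) ≤ M.base := by exact_mod_cast (show 1 ≤ M.base by have := base_ge M; omega)
  have key : ∀ {u v : List ℕ}, Incomp u v → M.Digits u → M.Digits v → u.length ≤ 3 →
      v.length ≤ 3 → ∀ {a b : ℝ}, a ∈ Icc (0:ℝ) 1 → b ∈ Icc (0:ℝ) 1 →
      M.gap ≤ |3/10 * valT M.base u a - 3/10 * valT M.base v b| := by
    intro u v huv hu hv lu lv a b ha hb
    have h1 := valT_sep (B := M.base) (by exact_mod_cast hB1) huv (s := a) (t := b)
      (fun w hw k r hr => valT_mem (by
        intro d hd
        rcases hw with rfl | rfl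
        · exact hu d (List.mem_of_mem_drop hd)
        · exact hv d (List.mem_of_mem_drop hd)) hr) ha hb
    rw [← mul_sub, abs_mul, abs_of_pos (by norm_num : (0:ℝ) < 3/10)]
    unfold Machine.gap
    rw [div_eq_mul_one_div]
    refine mul_le_mul_of_nonneg_left (le_trans ?_ h1) (by norm_num)
    exact one_div_le_one_div_of_le (by positivity) (pow_le_pow_right₀ hB1 (max_le lu lv))
  rcases h with h | h | h
  · left
    obtain ⟨⟨a0, a1⟩, -⟩ := point_mem hA.1 hA.2 hs ht
    obtain ⟨⟨b0, b1⟩, -⟩ := point_mem hB.1 hB.2 hs' ht'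
    have hg := gap_le M
    rw [le_abs]
    cases hz : A.zone <;> cases hz' : B.zone <;> simp_all [zoneOff]
    · right; linarith
    · left; linarith
  · left
    by_cases hz : A.zone = B.zone
    · simp only [Cyl.point, hz, add_sub_add_left_eq_sub]
      exact key h hA.1 hB.1 lA.1 lB.1 hs hs'
    · obtain ⟨⟨a0, a1⟩, -⟩ := point_mem hA.1 hA.2 hs ht
      obtain ⟨⟨b0, b1⟩, -⟩ := point_mem hB.1 hB.2 hs' ht'
      have hg := gap_le M
      rw [le_abs]
      cases hz' : A.zone <;> cases hz'' : B.zone <;> simp_all [zoneOff]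
      · right; linarith
      · left; linarith
  · right
    simp only [Cyl.point, add_sub_add_left_eq_sub]
    exact key h hA.2 hB.2 lA.2 lB.2 ht ht'

lemma src_len (i : Idx) : i.src.wx.length ≤ 3 ∧ i.src.wy.length ≤ 3 := by
  cases i <;> simp [Idx.src]

lemma tgt_len (M : Machine) (i : Idx) : (i.tgt M).wx.length ≤ 3 ∧ (i.tgt M).wy.length ≤ 3 := by
  cases i <;> simp [Idx.tgt]

lemma valT_inj {M : Machine} {u : List ℕ} {s t : ℝ}
    (h : valT M.base u s = valT M.base u t) : s = t := by
  have hpos : (0:ℝ) < M.base := by exact_mod_cast (show 0 < M.base by have := base_ge M; omega)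
  rw [valT_affine _ _ s, valT_affine _ _ t] at h
  have := add_left_cancel h
  field_simp at this
  exact this

lemma bstep_det {M : Machine} {p p₁ p₂ : ℝ × ℝ} (h₁ : M.BStep p p₁)
    (h₂ : M.BStep p p₂) : p₁ = p₂ := by
  obtain ⟨i, hi, s, hs, t, ht, hp, rfl⟩ := h₁
  obtain ⟨j, hj, s', hs', t', ht', hp', rfl⟩ := h₂
  have hi' := mem_branches hi
  have hj' := mem_branches hj
  rcases eq_or_ne i j with rfl | hij
  · rw [hp] at hp'
    simp only [Cyl.point, Prod.mk.injEq, add_right_inj, mul_eq_mul_left_iff] at hp'
    obtain ⟨e1, e2⟩ := hp'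
    rw [valT_inj (e1.resolve_right (by norm_num)), valT_inj (e2.resolve_right (by norm_num))]
  · have h := point_sep (src_digits hi') (src_digits hj') (src_len i) (src_len j)
      (src_sep hi' hj' hij) hs ht hs' ht'
    rw [← hp, ← hp'] at h
    simp only [sub_self, abs_zero] at h
    rcases h with h | h <;> linarith [gap_pos M]

open Classical in
/-- The map. -/
def Machine.nextPt (M : Machine) (p : ℝ × ℝ) : ℝ × ℝ :=
  if h : ∃ p', M.BStep p p' then h.choose else p

lemma nextPt_eq {M : Machine} {p p' : ℝ × ℝ} (h : M.BStep p p') :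
    M.nextPt p = p' := by
  have he : ∃ p', M.BStep p p' := ⟨p', h⟩
  rw [Machine.nextPt, dif_pos he]
  exact bstep_det he.choose_spec h

lemma transGen_iterate {M : Machine} {p p' : ℝ × ℝ}
    (h : Relation.TransGen M.LStep p p') :
    ∃ n, 1 ≤ n ∧ M.nextPt^[n] p = p' ∧
      ∀ k < n, M.LStep (M.nextPt^[k] p) (M.nextPt^[k + 1] p) := by
  induction h with
  | single h =>
    refine ⟨1, le_rfl, by simpa using nextPt_eq h.1, fun k hk => ?_⟩
    obtain rfl : k = 0 := by omega
    simpa [nextPt_eq h.1] using h
  | @tail b c _ hbc ih =>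
    obtain ⟨n, hn, he, hk⟩ := ih
    have he' : M.nextPt^[n + 1] p = c := by
      rw [Function.iterate_succ_apply', he]; exact nextPt_eq hbc.1
    refine ⟨n + 1, by omega, he', fun k hk' => ?_⟩
    rcases Nat.lt_succ_iff_lt_or_eq.1 hk' with h | rfl
    · exact hk k h
    · rw [he', he]; exact hbc

/-- The starting point. -/
def Machine.startPt (M : Machine) (w : List ℕ) : ℝ × ℝ :=
  M.pt (M.isHalt M.start) [(Sym.work M.start).code, Sym.bottom.code] (tapes w)

/-- The orbit. -/
def Machine.run (M : Machine) (w : List ℕ) (n : ℕ) : ℝ × ℝ := M.nextPt^[n] (M.startPt w)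

lemma rep_start {M : Machine} (hM : M.Valid) {w : List ℕ} (hw : M.IsInput w) :
    M.Rep (M.init w) (M.startPt w) := by
  refine ⟨Nat.lt_succ_of_lt hM.start_lt, [], w, [], by simp, hw,
    (by simp [Machine.Digits] : M.Digits []), fun k => ?_, fun k => ?_, ?_⟩
  · simp only [Machine.init, List.getD_nil]
    rw [if_neg (by omega)]
  · simp [Machine.init]
  · simp [Machine.startPt, Machine.init, tapes]

lemma bstep_high {M : Machine} {U V : List ℕ} (hU : M.Digits U)
    (hV : M.Digits V) :
    M.BStep (M.pt true U V) (M.pt true (Sym.park.code :: U) V) := by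
  refine ⟨.park, Idx.Ok.mem (M := M) (i := .park) trivial, _, valT_mem hU (blankTail_mem M), _,
    valT_mem hV (blankTail_mem M), ?_, ?_⟩
  · simp [Machine.pt, Cyl.point, Idx.src, valT]
  · simp [Machine.pt, Cyl.point, Idx.tgt, valT]

lemma high_forever {M : Machine} : ∀ (j : ℕ) {U V : List ℕ}, M.Digits U →
    M.Digits V → M.BStep (M.nextPt^[j] (M.pt true U V)) (M.nextPt^[j + 1] (M.pt true U V)) := by
  intro j
  induction j with
  | zero =>
    intro U V hU hV
    simp only [Function.iterate_zero, id, zero_add, Function.iterate_one]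
    rw [nextPt_eq (bstep_high hU hV)]
    exact bstep_high hU hV
  | succ j ih =>
    intro U V hU hV
    rw [Function.iterate_succ_apply, Function.iterate_succ_apply _ (j + 1),
      nextPt_eq (bstep_high hU hV)]
    exact ih (Digits.cons (code_small (s := Sym.park) (by simp [Sym.Small])) hU) hV

lemma step_eq_tstep {M : Machine} {c c' : Config} (h : M.step c = some c') :
    c' = M.tstep c := by
  unfold Machine.step at h
  split_ifs at h
  cases hr : M.rule c.state (c.tape c.pos) with
  | none => simp [hr] at h
  | some r =>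
    simp [hr] at h
    subst h
    simp [Machine.tstep, Machine.next, hr]

lemma halts_iff {M : Machine} (hM : M.Valid) (w : List ℕ) :
    M.HaltsOn w ↔ ∃ n, M.isHalt (M.tstep^[n] (M.init w)).state = true := by
  simp only [Machine.isHalt, decide_eq_true_eq]
  constructor
  · rintro ⟨n, c, hn, hc⟩
    refine ⟨n, ?_⟩
    suffices c = M.tstep^[n] (M.init w) by rwa [← this]
    clear hc
    induction n generalizing c with
    | zero => simpa using hn.symm
    | succ n ih =>
      rw [Function.iterate_succ_apply'] at hn ⊢
      cases ho : (fun o : Option Config => o.bind M.step)^[n] (some (M.init w)) with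
      | none => simp [ho] at hn
      | some c₀ =>
        simp [ho] at hn
        rw [← ih c₀ ho]
        exact step_eq_tstep hn
  · intro h
    classical
    have dead : ∀ c : Config, c.state = M.numStates → (M.tstep c).state = M.numStates := by
      intro c hc
      have : M.rule c.state (c.tape c.pos) = none := by
        rw [Machine.rule, List.find?_eq_none]
        intro r hr
        have := (hM.rules_lt r hr).1
        simp [hc]; omega
      simp [Machine.tstep, Machine.next, this]
    let n := Nat.find h
    have hn : (M.tstep^[n] (M.init w)).state ∈ M.halting := Nat.find_spec h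
    refine ⟨n, _, ?_, hn⟩
    suffices ∀ m ≤ n, (fun o : Option Config => o.bind M.step)^[m] (some (M.init w)) =
        some (M.tstep^[m] (M.init w)) from this n le_rfl
    intro m hm
    induction m with
    | zero => rfl
    | succ m ih =>
      rw [Function.iterate_succ_apply', ih (by omega), Option.bind_some,
        Function.iterate_succ_apply']
      have hnm := Nat.find_min h (show m < Nat.find h from hm)
      set c := M.tstep^[m] (M.init w) with hc
      cases hr : M.rule c.state (c.tape c.pos) with
      | none =>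
        exfalso
        have h1 : ∀ j, (M.tstep^[j + (m + 1)] (M.init w)).state = M.numStates := by
          intro j
          induction j with
          | zero =>
            rw [zero_add, Function.iterate_succ_apply', ← hc]
            simp [Machine.tstep, Machine.next, hr]
          | succ j ihj =>
            rw [show j + 1 + (m + 1) = (j + (m + 1)) + 1 by omega, Function.iterate_succ_apply']
            exact dead _ ihj
        have h2 := h1 (n - (m + 1))
        rw [show n - (m + 1) + (m + 1) = n by omega] at h2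
        have := hM.halting_lt _ hn
        omega
      | some r => simp [Machine.step, hnm, Machine.tstep, Machine.next, hr]

lemma run_prefix {M : Machine} (hM : M.Valid) {w : List ℕ} (hw : M.IsInput w) : ∀ m,
    (∀ k < m, M.isHalt (M.tstep^[k] (M.init w)).state = false) →
    ∃ n, m ≤ n ∧ M.Rep (M.tstep^[m] (M.init w)) (M.run w n) ∧
      ∀ k < n, M.LStep (M.run w k) (M.run w (k + 1)) := by
  intro m
  induction m with
  | zero => exact fun _ => ⟨0, le_rfl, rep_start hM hw, fun k hk => absurd hk (Nat.not_lt_zero k)⟩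
  | succ m ih =>
    intro h
    obtain ⟨n, hn, hr, hl⟩ := ih fun k hk => h k (by omega)
    obtain ⟨p', hp', hr'⟩ := simulate hM hr (h m (by omega))
    obtain ⟨d, hd, he, hk⟩ := transGen_iterate hp'
    have hrun : ∀ j, M.run w (j + n) = M.nextPt^[j] (M.run w n) := fun j =>
      Function.iterate_add_apply _ _ _ _
    refine ⟨d + n, by omega, ?_, fun k hk' => ?_⟩
    · rw [hrun, he, Function.iterate_succ_apply']; exact hr'
    · rcases lt_or_ge k n with h' | h'
      · exact hl k h'
      · have := hk (k - n) (by omega)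
        rw [← hrun, ← hrun] at this
        rwa [show k - n + n = k by omega, show k - n + 1 + n = k + 1 by omega] at this

/-- The orbit is defined forever and reaches the right zone exactly when the machine halts. -/
theorem run_spec {M : Machine} (hM : M.Valid) {w : List ℕ} (hw : M.IsInput w) :
    (∀ n, M.BStep (M.run w n) (M.run w (n + 1))) ∧
      (M.HaltsOn w ↔ ∃ n, 1/2 < (M.run w n).1) := by
  classical
  rw [halts_iff hM]
  by_cases hh : ∃ n, M.isHalt (M.tstep^[n] (M.init w)).state = true
  · obtain ⟨n, -, hr, hl⟩ := run_prefix hM hw (Nat.find hh)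
      fun k hk => by simpa using Nat.find_min hh hk
    obtain ⟨hq, L, R, H, hL, hR, hH, -, -, hp⟩ := hr
    rw [Nat.find_spec hh] at hp
    have hd : M.Digits ((Sym.work (M.tstep^[Nat.find hh] (M.init w)).state).code ::
        (tapes L ++ Sym.bottom.code :: H)) :=
      Digits.cons (code_small (by simpa [Sym.Small] using hq))
        (Digits.append (digits_tapes hL)
          (Digits.cons (code_small (by simp [Sym.Small])) hH))
    refine ⟨fun k => ?_, iff_of_true hh ⟨n, ?_⟩⟩
    · rcases lt_or_ge k n with h | h
      · exact (hl k h).1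
      · have := high_forever (k - n) hd (digits_tapes hR)
        rw [← hp] at this
        simp only [Machine.run, ← Function.iterate_add_apply] at this
        rwa [show k - n + n = k by omega, show k - n + 1 + n = k + 1 by omega] at this
    · have := (valT_mem hd (blankTail_mem M)).1
      rw [hp]
      simp only [Machine.pt, zoneOff, cond_true]
      linarith
  · have hall : ∀ k, M.isHalt (M.tstep^[k] (M.init w)).state = false := by
      intro k
      simpa using fun h => hh ⟨k, h⟩
    have hlow : ∀ k, M.LStep (M.run w k) (M.run w (k + 1)) := by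
      intro k
      obtain ⟨n, hn, -, hl⟩ := run_prefix hM hw (k + 1) fun j _ => hall j
      exact hl k (by omega)
    refine ⟨fun k => (hlow k).1, iff_of_false hh ?_⟩
    rintro ⟨n, hn⟩
    linarith [(hlow n).2]

end

end Vale.Agent.P113
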