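import Vale.Agent.P113.Defs

/-! P113: an injective piecewise affine map of the square simulating a Turing machine. -/

namespace Vale.Agent.P113

open Set

noncomputable section

/-- The symbols on the two stacks. -/
inductive Sym
  | tape (c : ℕ)
  | mark (c : ℕ)
  | bottom
  | record (q a : ℕ) (f : Bool)
  | work (q : ℕ)
  | down (q a : ℕ) (f : Bool)
  | up (q : ℕ)
  | park
  deriving DecidableEq

/-- A Boolean as a number. -/
def bnum (f : Bool) : ℕ := bif f then 1 else 0

/-- Numerical codes of symbols; the blank gets `0`. -/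
def Sym.code : Sym → ℕ
  | .tape c => Nat.pair 0 (Nat.pair c (Nat.pair 0 0))
  | .mark c => Nat.pair 1 (Nat.pair c (Nat.pair 0 0))
  | .bottom => Nat.pair 2 (Nat.pair 0 (Nat.pair 0 0))
  | .record q a f => Nat.pair 3 (Nat.pair q (Nat.pair a (bnum f)))
  | .work q => Nat.pair 4 (Nat.pair q (Nat.pair 0 0))
  | .down q a f => Nat.pair 5 (Nat.pair q (Nat.pair a (bnum f)))
  | .up q => Nat.pair 6 (Nat.pair q (Nat.pair 0 0))
  | .park => Nat.pair 7 (Nat.pair 0 (Nat.pair 0 0))

lemma bnum_inj {f g : Bool} : bnum f = bnum g ↔ f = g := by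
  cases f <;> cases g <;> simp [bnum]

lemma Sym.code_inj : ∀ {s t : Sym}, s.code = t.code ↔ s = t := by
  intro s t
  cases s <;> cases t <;> simp [Sym.code, Nat.pair_eq_pair, bnum_inj]

lemma code_blank : (Sym.tape 0).code = 0 := by
  simp [Sym.code, Nat.pair]

/-- Is the state halting? -/
def Machine.isHalt (M : Machine) (q : ℕ) : Bool := decide (q ∈ M.halting)

/-- A total transition: a missing rule leads to the dead state `numStates`. -/
def Machine.next (M : Machine) (q a : ℕ) : ℕ × ℕ × Dir :=
  ((M.rule q a).map fun r => (r.q', r.a', r.dir)).getD (M.numStates, a, Dir.stay)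

/-- The indices of the affine branches. -/
inductive Idx
  | enterR (q a c : ℕ)
  | enterS (q a : ℕ)
  | enterL (q a c : ℕ)
  | enterB (q a : ℕ)
  | downLoop (q a : ℕ) (f : Bool) (c : ℕ)
  | downEnd (q a : ℕ) (f : Bool)
  | upLoop (q c : ℕ)
  | upEnd (q c : ℕ)
  | park
  deriving DecidableEq

/-- A pair of cylinders: zone (`true` = halting zone) and the two prefixes. -/
structure Cyl where
  zone : Bool
  wx : List ℕ
  wy : List ℕ

/-- The source of a branch. -/
def Idx.src : Idx → Cyl
  | .enterR q a c => ⟨false, [(Sym.work q).code], [(Sym.tape a).code, (Sym.tape c).code]⟩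
  | .enterS q a => ⟨false, [(Sym.work q).code], [(Sym.tape a).code]⟩
  | .enterL q a c => ⟨false, [(Sym.work q).code, (Sym.tape c).code], [(Sym.tape a).code]⟩
  | .enterB q a => ⟨false, [(Sym.work q).code, Sym.bottom.code], [(Sym.tape a).code]⟩
  | .downLoop q a f c => ⟨false, [(Sym.down q a f).code, (Sym.tape c).code], []⟩
  | .downEnd q a f => ⟨false, [(Sym.down q a f).code, Sym.bottom.code], []⟩
  | .upLoop q c => ⟨false, [(Sym.up q).code], [(Sym.mark c).code]⟩
  | .upEnd q c => ⟨false, [(Sym.up q).code], [(Sym.tape c).code]⟩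
  | .park => ⟨true, [], []⟩

/-- The target of a branch. -/
def Idx.tgt (M : Machine) : Idx → Cyl
  | .enterR q a c =>
    ⟨false, [(Sym.down q a false).code, (Sym.tape (M.next q a).2.1).code], [(Sym.tape c).code]⟩
  | .enterS q a => ⟨false, [(Sym.down q a false).code], [(Sym.tape (M.next q a).2.1).code]⟩
  | .enterL q a c =>
    ⟨false, [(Sym.down q a false).code], [(Sym.tape c).code, (Sym.tape (M.next q a).2.1).code]⟩
  | .enterB q a => ⟨false, [(Sym.down q a true).code, Sym.bottom.code],
      [(Sym.tape 0).code, (Sym.tape (M.next q a).2.1).code]⟩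
  | .downLoop q a f c => ⟨false, [(Sym.down q a f).code], [(Sym.mark c).code]⟩
  | .downEnd q a f => ⟨false,
      [(Sym.up (M.next q a).1).code, Sym.bottom.code, (Sym.record q a f).code], []⟩
  | .upLoop q c => ⟨false, [(Sym.up q).code, (Sym.tape c).code], []⟩
  | .upEnd q c => ⟨M.isHalt q, [(Sym.work q).code], [(Sym.tape c).code]⟩
  | .park => ⟨true, [Sym.park.code], []⟩

/-- The branches leaving working states. -/
def Machine.entries (M : Machine) (q a : ℕ) : List Idx :=
  bif M.isHalt q then [] else
    match (M.next q a).2.2 with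
    | .right => (List.range M.numSyms).map (Idx.enterR q a)
    | .stay => [Idx.enterS q a]
    | .left => Idx.enterB q a :: (List.range M.numSyms).map (Idx.enterL q a)

/-- All branches. -/
def Machine.branches (M : Machine) : List Idx :=
  (List.range (M.numStates + 1)).flatMap (fun q => (List.range M.numSyms).flatMap (M.entries q)) ++
  ((List.range (M.numStates + 1)).flatMap (fun q => (List.range M.numSyms).flatMap fun a =>
      [false, true].flatMap fun f =>
        Idx.downEnd q a f :: (List.range M.numSyms).map (Idx.downLoop q a f)) ++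
  ((List.range (M.numStates + 1)).flatMap (fun q => (List.range M.numSyms).flatMap fun c =>
      [Idx.upLoop q c, Idx.upEnd q c]) ++
  [Idx.park]))

/-- The condition for an index to be a branch. -/
def Idx.Ok (M : Machine) : Idx → Prop
  | .enterR q a c => q < M.numStates + 1 ∧ a < M.numSyms ∧ c < M.numSyms ∧
      M.isHalt q = false ∧ (M.next q a).2.2 = .right
  | .enterS q a => q < M.numStates + 1 ∧ a < M.numSyms ∧
      M.isHalt q = false ∧ (M.next q a).2.2 = .stay
  | .enterL q a c => q < M.numStates + 1 ∧ a < M.numSyms ∧ c < M.numSyms ∧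
      M.isHalt q = false ∧ (M.next q a).2.2 = .left
  | .enterB q a => q < M.numStates + 1 ∧ a < M.numSyms ∧
      M.isHalt q = false ∧ (M.next q a).2.2 = .left
  | .downLoop q a _ c => q < M.numStates + 1 ∧ a < M.numSyms ∧ c < M.numSyms
  | .downEnd q a _ => q < M.numStates + 1 ∧ a < M.numSyms
  | .upLoop q c => q < M.numStates + 1 ∧ c < M.numSyms
  | .upEnd q c => q < M.numStates + 1 ∧ c < M.numSyms
  | .park => True

lemma mem_entries {M : Machine} {q a : ℕ} (hq : q < M.numStates + 1) (ha : a < M.numSyms)
    {i : Idx} (h : i ∈ M.entries q a) : i.Ok M := by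
  unfold Machine.entries at h
  cases hh : M.isHalt q
  · simp only [hh, cond_false] at h
    cases hd : (M.next q a).2.2 <;>
      simp only [hd, List.mem_cons, List.mem_map, List.mem_range, List.not_mem_nil, or_false] at h
    · rcases h with rfl | ⟨c, hc, rfl⟩
      · exact ⟨hq, ha, hh, hd⟩
      · exact ⟨hq, ha, hc, hh, hd⟩
    · subst h; exact ⟨hq, ha, hh, hd⟩
    · obtain ⟨c, hc, rfl⟩ := h; exact ⟨hq, ha, hc, hh, hd⟩
  · simp [hh] at h

lemma mem_branches {M : Machine} {i : Idx} (h : i ∈ M.branches) : i.Ok M := by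
  simp only [Machine.branches, List.mem_append, List.mem_flatMap, List.mem_range, List.mem_cons,
    List.mem_map, List.not_mem_nil, or_false] at h
  rcases h with ⟨q, hq, a, ha, he⟩ | ⟨q, hq, a, ha, f, -, rfl | ⟨c, hc, rfl⟩⟩ |
    ⟨q, hq, c, hc, rfl | rfl⟩ | rfl
  · exact mem_entries hq ha he
  · exact ⟨hq, ha⟩
  · exact ⟨hq, ha, hc⟩
  · exact ⟨hq, hc⟩
  · exact ⟨hq, hc⟩
  · trivial

lemma Idx.Ok.mem {M : Machine} : ∀ {i : Idx}, i.Ok M → i ∈ M.branches := by
  intro i h
  simp only [Machine.branches, List.mem_append, List.mem_flatMap, List.mem_range]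
  cases i with
  | enterR q a c =>
    obtain ⟨hq, ha, hc, hh, hd⟩ := h
    exact Or.inl ⟨q, hq, a, ha, by simp [Machine.entries, hh, hd, hc]⟩
  | enterS q a =>
    obtain ⟨hq, ha, hh, hd⟩ := h
    exact Or.inl ⟨q, hq, a, ha, by simp [Machine.entries, hh, hd]⟩
  | enterL q a c =>
    obtain ⟨hq, ha, hc, hh, hd⟩ := h
    exact Or.inl ⟨q, hq, a, ha, by simp [Machine.entries, hh, hd, hc]⟩
  | enterB q a =>
    obtain ⟨hq, ha, hh, hd⟩ := h
    exact Or.inl ⟨q, hq, a, ha, by simp [Machine.entries, hh, hd]⟩
  | downLoop q a f c =>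
    exact Or.inr (Or.inl ⟨q, h.1, a, h.2.1, f, by simp, by simp [h.2.2]⟩)
  | downEnd q a f =>
    exact Or.inr (Or.inl ⟨q, h.1, a, h.2, f, by simp, by simp⟩)
  | upLoop q c => exact Or.inr (Or.inr (Or.inl ⟨q, h.1, c, h.2, by simp⟩))
  | upEnd q c => exact Or.inr (Or.inr (Or.inl ⟨q, h.1, c, h.2, by simp⟩))
  | park => exact Or.inr (Or.inr (Or.inr (by simp)))

/-- The first parameters of an index. -/
def Idx.key : Idx → ℕ × ℕ
  | .enterR q a _ => (q, a)
  | .enterS q a => (q, a)
  | .enterL q a _ => (q, a)
  | .enterB q a => (q, a)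
  | .downLoop q a _ _ => (q, a)
  | .downEnd q a _ => (q, a)
  | .upLoop q c => (q, c)
  | .upEnd q c => (q, c)
  | .park => (0, 0)

lemma nodup_nested {n m : ℕ} {F : ℕ → ℕ → List Idx} (hn : ∀ q a, (F q a).Nodup)
    (hk : ∀ q a, ∀ i ∈ F q a, i.key = (q, a)) :
    ((List.range n).flatMap fun q => (List.range m).flatMap (F q)).Nodup := by
  have hd : ∀ q, ∀ i ∈ (List.range m).flatMap (F q), i.key.1 = q := by
    intro q i hi
    obtain ⟨a, -, ha⟩ := List.mem_flatMap.1 hi
    rw [hk q a i ha]
  rw [List.nodup_flatMap]
  refine ⟨fun q _ => ?_, ?_⟩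
  · rw [List.nodup_flatMap]
    refine ⟨fun a _ => hn q a, List.Pairwise.imp (fun {a b} hab => ?_) List.nodup_range⟩
    intro i hi hi'
    exact hab (by simpa [hk q a i hi] using congrArg Prod.snd (hk q b i hi'))
  · refine List.Pairwise.imp (fun {a b} hab => ?_) List.nodup_range
    intro i hi hi'
    exact hab ((hd a i hi).symm.trans (hd b i hi'))

lemma branches_nodup (M : Machine) : M.branches.Nodup := by
  have hA := nodup_nested (n := M.numStates + 1) (m := M.numSyms) (F := M.entries)
    (by
      intro q a
      unfold Machine.entries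
      cases M.isHalt q <;> cases (M.next q a).2.2 <;>
        simp [List.nodup_map_iff_inj_on, List.nodup_range])
    (by
      intro q a i hi
      unfold Machine.entries at hi
      cases hh : M.isHalt q <;> cases hd : (M.next q a).2.2 <;> simp [hh, hd] at hi
      · rcases hi with rfl | ⟨c, -, rfl⟩ <;> rfl
      · subst hi; rfl
      · obtain ⟨c, -, rfl⟩ := hi; rfl)
  have hB := nodup_nested (n := M.numStates + 1) (m := M.numSyms) (F := fun q a =>
      [false, true].flatMap fun f =>
        Idx.downEnd q a f :: (List.range M.numSyms).map (Idx.downLoop q a f))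
    (by
      intro q a
      simp [List.nodup_map_iff_inj_on, List.nodup_range, List.nodup_append])
    (by
      intro q a i hi
      obtain ⟨f, -, h⟩ := List.mem_flatMap.1 hi
      rcases List.mem_cons.1 h with rfl | h
      · rfl
      · obtain ⟨c, -, rfl⟩ := List.mem_map.1 h
        rfl)
  have hC := nodup_nested (n := M.numStates + 1) (m := M.numSyms)
    (F := fun q c => [Idx.upLoop q c, Idx.upEnd q c]) (by intro q a; simp)
    (by intro q a i hi; simp at hi; rcases hi with rfl | rfl <;> rfl)
  have memA : ∀ i ∈ (List.range (M.numStates + 1)).flatMap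
      (fun q => (List.range M.numSyms).flatMap (M.entries q)),
      (∃ q a c, i = .enterR q a c) ∨ (∃ q a, i = .enterS q a) ∨ (∃ q a c, i = .enterL q a c) ∨
        (∃ q a, i = .enterB q a) := by
    intro i hi
    simp only [List.mem_flatMap] at hi
    obtain ⟨q, -, a, -, h⟩ := hi
    unfold Machine.entries at h
    cases hh : M.isHalt q <;> cases hd : (M.next q a).2.2 <;> simp [hh, hd] at h
    · rcases h with rfl | ⟨c, -, rfl⟩ <;> simp
    · subst h; simp
    · obtain ⟨c, -, rfl⟩ := h; simp
  unfold Machine.branches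
  refine hA.append (hB.append (hC.append (List.nodup_singleton _) ?_) ?_) ?_
  · intro i h1 h2
    simp at h1 h2
    obtain ⟨q, -, c, -, rfl | rfl⟩ := h1 <;> simp at h2
  · intro i h1 h2
    simp only [List.mem_flatMap] at h1
    obtain ⟨q, -, a, -, f, -, h⟩ := h1
    rcases List.mem_cons.1 h with rfl | h
    · simp at h2
    · obtain ⟨c, -, rfl⟩ := List.mem_map.1 h
      simp at h2
  · intro i h1 h2
    have h1' := memA i h1
    simp at h2
    rcases h1' with ⟨q, a, c, rfl⟩ | ⟨q, a, rfl⟩ | ⟨q, a, c, rfl⟩ | ⟨q, a, rfl⟩ <;> simp at h2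

/-! ### Coding -/

/-- Two words differ at a common position. -/
def Incomp : List ℕ → List ℕ → Prop
  | [], _ => False
  | _ :: _, [] => False
  | a :: u, b :: v => a ≠ b ∨ Incomp u v

/-- The cylinders differ in the zone or in one of the prefixes. -/
def Cyl.Sep (A B : Cyl) : Prop := A.zone ≠ B.zone ∨ Incomp A.wx B.wx ∨ Incomp A.wy B.wy

lemma src_sep {M : Machine} {i j : Idx} (hi : i.Ok M) (hj : j.Ok M) (h : i ≠ j) :
    i.src.Sep j.src := by
  cases i <;> cases j <;>
    simp only [Idx.src, Cyl.Sep, Incomp, ne_eq, Sym.code_inj, Sym.tape.injEq, Sym.mark.injEq,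
      Sym.work.injEq, Sym.down.injEq, Sym.up.injEq, reduceCtorEq, not_false_eq_true, or_true,
      true_or, not_true_eq_false, false_or, or_false, Bool.false_eq_true, Bool.true_eq_false] <;>
    simp_all [Idx.Ok] <;> grind

lemma tgt_sep {M : Machine} {i j : Idx} (hi : i.Ok M) (hj : j.Ok M) (h : i ≠ j) :
    (i.tgt M).Sep (j.tgt M) := by
  cases i <;> cases j <;>
    simp only [Idx.tgt, Cyl.Sep, Incomp, ne_eq, Sym.code_inj, Sym.tape.injEq, Sym.mark.injEq,
      Sym.work.injEq, Sym.down.injEq, Sym.up.injEq, Sym.record.injEq, reduceCtorEq,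
      not_false_eq_true, or_true,
      true_or, not_true_eq_false, false_or, or_false, Bool.false_eq_true, Bool.true_eq_false] <;>
    simp_all [Idx.Ok] <;> grind

/-- A bound on the fields. -/
def Machine.width (M : Machine) : ℕ := 2 * (M.numStates + M.numSyms) + 10

/-- A bound on the codes. -/
def Machine.digitBound (M : Machine) : ℕ :=
  (M.width * M.width * (M.width * M.width)) * (M.width * M.width * (M.width * M.width))

/-- The base. -/
def Machine.base (M : Machine) : ℕ := 2 * M.digitBound + 1

lemma pair_lt {a b N : ℕ} (ha : a < N) (hb : b < N) : Nat.pair a b < N * N := by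
  refine (Nat.pair_lt_max_add_one_sq a b).trans_le ?_
  rw [sq]
  exact Nat.mul_le_mul (max_lt ha hb) (max_lt ha hb)

lemma code_lt (M : Machine) {s : Sym} {t a b c : ℕ}
    (e : s.code = Nat.pair t (Nat.pair a (Nat.pair b c))) (ht : t < 8)
    (ha : a < M.width) (hb : b < M.width) (hc : c < M.width) : s.code < M.digitBound := by
  have hw : 10 ≤ M.width := Nat.le_add_left _ _
  have h1 : M.width ≤ M.width * M.width := Nat.le_mul_self _
  have h2 : M.width * M.width ≤ M.width * M.width * (M.width * M.width) := Nat.le_mul_self _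
  rw [e]
  exact pair_lt (by omega) (pair_lt (by omega) (pair_lt hb hc))

lemma base_ge (M : Machine) : 3 ≤ M.base := by
  have : 10 ≤ M.width := Nat.le_add_left _ _
  have h : 0 < M.digitBound := by unfold Machine.digitBound; positivity
  unfold Machine.base
  omega

/-- The number with prefix `u` and tail `s`. -/
def valT (B : ℕ) : List ℕ → ℝ → ℝ
  | [], s => s
  | d :: u, s => (2 * d + 1 + valT B u s) / B

lemma valT_append (B : ℕ) (u v : List ℕ) (s : ℝ) :
    valT B (u ++ v) s = valT B u (valT B v s) := by
  induction u with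
  | nil => rfl
  | cons a u ih => simp [valT, ih]

/-- All digits of the word are below the bound. -/
def Machine.Digits (M : Machine) (u : List ℕ) : Prop := ∀ d ∈ u, d < M.digitBound

lemma valT_mem {M : Machine} : ∀ {u : List ℕ}, M.Digits u → ∀ {s : ℝ}, s ∈ Icc (0:ℝ) 1 →
    valT M.base u s ∈ Icc (0:ℝ) 1 := by
  intro u
  induction u with
  | nil => intro _ s hs; exact hs
  | cons a u ih =>
    intro hd s hs
    obtain ⟨h0, h1⟩ := ih (fun d h => hd d (by simp [h])) hs
    have ha : (a : ℝ) + 1 ≤ M.digitBound := by exact_mod_cast hd a (by simp)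
    have hB : (M.base : ℝ) = 2 * M.digitBound + 1 := by simp [Machine.base]
    have hpos : (0:ℝ) < M.base := by
      have := base_ge M
      exact_mod_cast (show 0 < M.base by omega)
    simp only [valT, mem_Icc]
    refine ⟨div_nonneg (by linarith [Nat.cast_nonneg (α := ℝ) a]) hpos.le, ?_⟩
    rw [div_le_one hpos]
    linarith

lemma valT_affine (B : ℕ) (u : List ℕ) (s : ℝ) :
    valT B u s = valT B u 0 + s / (B : ℝ) ^ u.length := by
  induction u with
  | nil => simp [valT]
  | cons a u ih => simp only [valT, List.length_cons]; rw [ih, pow_succ]; ring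

lemma valT_sep {B : ℕ} (hB : 1 ≤ B) : ∀ {u v : List ℕ}, Incomp u v → ∀ {s t : ℝ},
    (∀ w, (w = u ∨ w = v) → ∀ k, ∀ r ∈ Icc (0:ℝ) 1, valT B (w.drop k) r ∈ Icc (0:ℝ) 1) →
    s ∈ Icc (0:ℝ) 1 → t ∈ Icc (0:ℝ) 1 →
    1 / (B : ℝ) ^ (max u.length v.length) ≤ |valT B u s - valT B v t| := by
  intro u
  induction u with
  | nil => intro v h; simp [Incomp] at h
  | cons a u ih =>
    intro v h s t hr hs ht
    cases v with
    | nil => simp [Incomp] at h
    | cons b v =>
      have hB1 : (1:ℝ) ≤ B := by exact_mod_cast hB
      have hpos : (0:ℝ) < B := by linarith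
      simp only [valT, List.length_cons, Nat.add_max_add_right]
      rw [← sub_div, abs_div, abs_of_pos hpos, le_div_iff₀ hpos, pow_succ,
        div_mul_eq_mul_div, one_mul, mul_comm _ (B:ℝ), div_mul_eq_div_div, div_self hpos.ne']
      rcases eq_or_ne a b with rfl | hab
      · rcases h with h | h
        · exact absurd rfl h
        · have := ih h (s := s) (t := t) (fun w hw k r hr' => by
            rcases hw with rfl | rfl
            · exact hr _ (Or.inl rfl) (k + 1) r hr'
            · exact hr _ (Or.inr rfl) (k + 1) r hr') hs ht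
          refine this.trans (le_of_eq ?_)
          congr 1; ring
      · obtain ⟨p0, p1⟩ : valT B u s ∈ Icc (0:ℝ) 1 := hr _ (Or.inl rfl) 1 s hs
        obtain ⟨q0, q1⟩ : valT B v t ∈ Icc (0:ℝ) 1 := hr _ (Or.inr rfl) 1 t ht
        refine le_trans ((div_le_one (by positivity)).2 (one_le_pow₀ hB1)) ?_
        rw [le_abs]
        rcases lt_or_gt_of_ne hab with h | h
        · right
          have : (a:ℝ) + 1 ≤ b := by exact_mod_cast h
          linarith
        · left
          have : (b:ℝ) + 1 ≤ a := by exact_mod_cast h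
          linarith

/-- The tail of blanks. -/
def Machine.blankTail (M : Machine) : ℝ := 1 / ((M.base : ℝ) - 1)

lemma blankTail_mem (M : Machine) : M.blankTail ∈ Icc (0:ℝ) 1 := by
  have h : (3:ℝ) ≤ M.base := by exact_mod_cast base_ge M
  refine ⟨by unfold Machine.blankTail; exact div_nonneg zero_le_one (by linarith), ?_⟩
  unfold Machine.blankTail
  rw [div_le_one (by linarith)]
  linarith

lemma valT_blank (M : Machine) : valT M.base [0] M.blankTail = M.blankTail := by
  have h : (3:ℝ) ≤ M.base := by exact_mod_cast base_ge M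
  have h1 : (M.base:ℝ) - 1 ≠ 0 := by linarith
  have h2 : (M.base:ℝ) ≠ 0 := by linarith
  simp only [valT, Machine.blankTail]
  field_simp
  simp

/-- The left end of a zone. -/
def zoneOff (z : Bool) : ℝ := bif z then 3/5 else 1/10

/-- The point of a cylinder with parameters `(s, t)`. -/
def Cyl.point (B : ℕ) (A : Cyl) (s t : ℝ) : ℝ × ℝ :=
  (zoneOff A.zone + 3/10 * valT B A.wx s, 1/10 + 3/10 * valT B A.wy t)

/-- One step of the piecewise affine map. -/
def Machine.BStep (M : Machine) (p p' : ℝ × ℝ) : Prop :=
  ∃ i ∈ M.branches, ∃ s ∈ Icc (0:ℝ) 1, ∃ t ∈ Icc (0:ℝ) 1,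
    p = i.src.point M.base s t ∧ p' = (i.tgt M).point M.base s t

lemma next_lt {M : Machine} (hM : M.Valid) {q a : ℕ} (ha : a < M.numSyms) :
    (M.next q a).1 < M.numStates + 1 ∧ (M.next q a).2.1 < M.numSyms := by
  unfold Machine.next
  cases h : M.rule q a with
  | none => exact ⟨Nat.lt_succ_self _, ha⟩
  | some r =>
    obtain ⟨-, -, h1, h2⟩ := hM.rules_lt r (List.mem_of_find?_eq_some h)
    exact ⟨by simp; omega, h2⟩

/-- A symbol with fields in range. -/
def Sym.Small (M : Machine) : Sym → Prop
  | .tape c => c < M.numSyms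
  | .mark c => c < M.numSyms
  | .record q a _ => q < M.numStates + 1 ∧ a < M.numSyms
  | .work q => q < M.numStates + 1
  | .down q a _ => q < M.numStates + 1 ∧ a < M.numSyms
  | .up q => q < M.numStates + 1
  | .bottom => True
  | .park => True

lemma code_small {M : Machine} {s : Sym} (h : s.Small M) : s.code < M.digitBound := by
  have hb : ∀ f, bnum f < M.width := fun f => by
    cases f <;> simp [bnum, Machine.width]
  cases s <;> simp only [Sym.Small] at h <;>
    refine code_lt M rfl (by norm_num) ?_ ?_ ?_ <;>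
    first
      | exact hb _
      | (unfold Machine.width; omega)

lemma src_digits {M : Machine} {i : Idx} (h : i.Ok M) :
    M.Digits i.src.wx ∧ M.Digits i.src.wy := by
  constructor <;> intro d hd <;> cases i <;> simp [Idx.src] at hd <;>
    simp [Idx.Ok] at h <;>
    (try rcases hd with rfl | rfl) <;> (try subst hd) <;>
    apply code_small <;> simp [Sym.Small, h]

lemma tgt_digits {M : Machine} (hM : M.Valid) {i : Idx} (h : i.Ok M) :
    M.Digits (i.tgt M).wx ∧ M.Digits (i.tgt M).wy := by
  have h0 : 0 < M.numSyms := hM.syms_pos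
  have hn := fun q a (ha : a < M.numSyms) => next_lt hM (q := q) ha
  cases i <;> simp [Idx.Ok] at h <;>
    simp [Idx.tgt, Machine.Digits] <;>
    (try refine ⟨?_, ?_⟩) <;> (try refine ⟨?_, ?_⟩) <;> (try refine ⟨?_, ?_⟩) <;>
    apply code_small <;> simp [Sym.Small, h, h0] <;>
    first
      | exact (hn _ _ h.2.1).2
      | exact Nat.lt_succ_iff.1 (hn _ _ h.2).1
      | exact (hn _ _ h.2).1

/-! ### The simulation -/

/-- A step from the non-halting zone. -/
def Machine.LStep (M : Machine) (p p' : ℝ × ℝ) : Prop := M.BStep p p' ∧ p.1 ≤ 2/5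

/-- The point coded by two words, followed by blanks. -/
def Machine.pt (M : Machine) (z : Bool) (u v : List ℕ) : ℝ × ℝ :=
  (zoneOff z + 3/10 * valT M.base u M.blankTail, 1/10 + 3/10 * valT M.base v M.blankTail)

lemma pt_pad (M : Machine) (z : Bool) (u v : List ℕ) : M.pt z u (v ++ [0]) = M.pt z u v := by
  simp only [Machine.pt, valT_append, valT_blank]

lemma Digits.cons {M : Machine} {a : ℕ} {u : List ℕ} (ha : a < M.digitBound) (hu : M.Digits u) :
    M.Digits (a :: u) := List.forall_mem_cons.2 ⟨ha, hu⟩

lemma Digits.append {M : Machine} {u v : List ℕ} (hu : M.Digits u) (hv : M.Digits v) :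
    M.Digits (u ++ v) := List.forall_mem_append.2 ⟨hu, hv⟩

lemma lstep_of_branch {M : Machine} {i : Idx} (hi : i.Ok M) (hz : i.src.zone = false)
    {U V : List ℕ} (hU : M.Digits U) (hV : M.Digits V) :
    M.LStep (M.pt false (i.src.wx ++ U) (i.src.wy ++ V))
      (M.pt (i.tgt M).zone ((i.tgt M).wx ++ U) ((i.tgt M).wy ++ V)) := by
  refine ⟨⟨i, hi.mem, _, valT_mem hU (blankTail_mem M), _, valT_mem hV (blankTail_mem M),
    ?_, ?_⟩, ?_⟩
  · simp [Machine.pt, Cyl.point, valT_append, hz]
  · simp [Machine.pt, Cyl.point, valT_append]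
  · have := (valT_mem (Digits.append (src_digits hi).1 hU) (blankTail_mem M)).2
    simp only [Machine.pt, zoneOff, cond_false]
    linarith

/-- Tape symbols. -/
def tapes (L : List ℕ) : List ℕ := L.map fun c => (Sym.tape c).code

/-- Marked tape symbols. -/
def marks (L : List ℕ) : List ℕ := L.map fun c => (Sym.mark c).code

lemma digits_tapes {M : Machine} {L : List ℕ} (h : ∀ c ∈ L, c < M.numSyms) :
    M.Digits (tapes L) := by
  intro d hd
  obtain ⟨c, hc, rfl⟩ := List.mem_map.1 hd
  exact code_small (by simpa [Sym.Small] using h c hc)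

lemma digits_marks {M : Machine} {L : List ℕ} (h : ∀ c ∈ L, c < M.numSyms) :
    M.Digits (marks L) := by
  intro d hd
  obtain ⟨c, hc, rfl⟩ := List.mem_map.1 hd
  exact code_small (by simpa [Sym.Small] using h c hc)

lemma down_loop {M : Machine} {q a : ℕ} {f : Bool} (hq : q < M.numStates + 1) (ha : a < M.numSyms)
    {H : List ℕ} (hH : M.Digits H) : ∀ {L : List ℕ}, (∀ c ∈ L, c < M.numSyms) →
    ∀ {V : List ℕ}, M.Digits V →
    Relation.ReflTransGen M.LStep
      (M.pt false ((Sym.down q a f).code :: (tapes L ++ Sym.bottom.code :: H)) V)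
      (M.pt false ((Sym.down q a f).code :: Sym.bottom.code :: H) (marks L.reverse ++ V)) := by
  intro L
  induction L with
  | nil => intro _ V _; exact .refl
  | cons c L ih =>
    intro hL V hV
    have hc : c < M.numSyms := hL c (by simp)
    have hb : Sym.bottom.code < M.digitBound := code_small (by simp [Sym.Small])
    have h1 := lstep_of_branch (i := .downLoop q a f c) (M := M) ⟨hq, ha, hc⟩ rfl
      (Digits.append (digits_tapes (L := L) fun x hx => hL x (by simp [hx])) (Digits.cons hb hH)) hV
    have h2 := ih (fun x hx => hL x (by simp [hx])) (V := (Sym.mark c).code :: V)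
      (Digits.cons (code_small (by simpa [Sym.Small] using hc)) hV)
    refine Relation.ReflTransGen.head (b := M.pt false
      ((Sym.down q a f).code :: (tapes L ++ Sym.bottom.code :: H)) ((Sym.mark c).code :: V)) ?_ ?_
    · simpa [Idx.src, Idx.tgt, tapes] using h1
    · simpa [marks, List.reverse_cons, List.append_assoc] using h2

lemma up_loop {M : Machine} {q : ℕ} (hq : q < M.numStates + 1) : ∀ {K : List ℕ},
    (∀ c ∈ K, c < M.numSyms) → ∀ {U V : List ℕ}, M.Digits U → M.Digits V →
    Relation.ReflTransGen M.LStep (M.pt false ((Sym.up q).code :: U) (marks K ++ V))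
      (M.pt false ((Sym.up q).code :: (tapes K.reverse ++ U)) V) := by
  intro K
  induction K with
  | nil => intro _ U V _ _; exact .refl
  | cons c K ih =>
    intro hK U V hU hV
    have hc : c < M.numSyms := hK c (by simp)
    have h1 := lstep_of_branch (i := .upLoop q c) (M := M) ⟨hq, hc⟩ rfl hU
      (Digits.append (digits_marks (L := K) fun x hx => hK x (by simp [hx])) hV)
    have h2 := ih (fun x hx => hK x (by simp [hx])) (U := (Sym.tape c).code :: U)
      (Digits.cons (code_small (by simpa [Sym.Small] using hc)) hU) hV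
    refine Relation.ReflTransGen.head (b := M.pt false
      ((Sym.up q).code :: (Sym.tape c).code :: U) (marks K ++ V)) ?_ ?_
    · simpa [Idx.src, Idx.tgt, marks] using h1
    · simpa [tapes, List.reverse_cons, List.append_assoc] using h2

/-- From a down state to the next working state. -/
lemma shuttle {M : Machine} (hM : M.Valid) {q a : ℕ} {f : Bool} (hq : q < M.numStates + 1)
    (ha : a < M.numSyms) {L R : List ℕ} {c : ℕ} (hL : ∀ x ∈ L, x < M.numSyms)
    (hc : c < M.numSyms) (hR : ∀ x ∈ R, x < M.numSyms) {H : List ℕ} (hH : M.Digits H) :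
    Relation.TransGen M.LStep
      (M.pt false ((Sym.down q a f).code :: (tapes L ++ Sym.bottom.code :: H)) (tapes (c :: R)))
      (M.pt (M.isHalt (M.next q a).1)
        ((Sym.work (M.next q a).1).code ::
          (tapes L ++ Sym.bottom.code :: (Sym.record q a f).code :: H))
        (tapes (c :: R))) := by
  have hb : Sym.bottom.code < M.digitBound := code_small (by simp [Sym.Small])
  have hcR : ∀ x ∈ c :: R, x < M.numSyms := List.forall_mem_cons.2 ⟨hc, hR⟩
  have hrec : (Sym.record q a f).code < M.digitBound := code_small ⟨hq, ha⟩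
  have h1 := down_loop (f := f) hq ha hH hL (digits_tapes hcR)
  have hLr : ∀ x ∈ L.reverse, x < M.numSyms := fun x hx => hL x (by simpa using hx)
  have h2 := lstep_of_branch (i := .downEnd q a f) (M := M) ⟨hq, ha⟩ rfl hH
    (Digits.append (digits_marks hLr) (digits_tapes hcR))
  have h3 := up_loop (next_lt hM (q := q) ha).1 hLr (Digits.cons hb (Digits.cons hrec hH))
    (digits_tapes hcR)
  rw [List.reverse_reverse] at h3
  have h4 := lstep_of_branch (i := .upEnd (M.next q a).1 c) (M := M)
    ⟨(next_lt hM (q := q) ha).1, hc⟩ rfl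
    (Digits.append (digits_tapes hL) (Digits.cons hb (Digits.cons hrec hH))) (digits_tapes hR)
  refine Relation.TransGen.tail' ((h1.tail ?_).trans h3) ?_
  · simpa [Idx.src, Idx.tgt] using h2
  · simpa [Idx.src, Idx.tgt, tapes] using h4

/-- The total step of configurations. -/
def Machine.tstep (M : Machine) (c : Config) : Config :=
  ⟨(M.next c.state (c.tape c.pos)).1, c.pos + (M.next c.state (c.tape c.pos)).2.2.shift,
    Function.update c.tape c.pos (M.next c.state (c.tape c.pos)).2.1⟩

/-- A point representing a configuration. -/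
def Machine.Rep (M : Machine) (c : Config) (p : ℝ × ℝ) : Prop :=
  c.state < M.numStates + 1 ∧ ∃ L R H : List ℕ,
    (∀ x ∈ L, x < M.numSyms) ∧ (∀ x ∈ R, x < M.numSyms) ∧ M.Digits H ∧
    (∀ k : ℕ, c.tape (c.pos - 1 - k) = L.getD k 0) ∧ (∀ k : ℕ, c.tape (c.pos + k) = R.getD k 0) ∧
    p = M.pt (M.isHalt c.state)
      ((Sym.work c.state).code :: (tapes L ++ Sym.bottom.code :: H)) (tapes R)

lemma getD_pad (R : List ℕ) (k : ℕ) : (R ++ [0]).getD k 0 = R.getD k 0 := by
  rcases lt_trichotomy k R.length with h | rfl | h
  · rw [List.getD_append _ _ _ _ h]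
  · simp
  · rw [List.getD_eq_default _ _ (by simp only [List.length_append, List.length_cons, List.length_nil]; omega),
      List.getD_eq_default _ _ h.le]

lemma pad_nonempty {M : Machine} (hM : M.Valid) (z : Bool) (u : List ℕ) {R : List ℕ}
    (hR : ∀ x ∈ R, x < M.numSyms) : ∃ a R', a < M.numSyms ∧ (∀ x ∈ R', x < M.numSyms) ∧
      (∀ k, R.getD k 0 = (a :: R').getD k 0) ∧
      M.pt z u (tapes R) = M.pt z u (tapes (a :: R')) := by
  cases R with
  | nil =>
    refine ⟨0, [], hM.syms_pos, by simp, fun k => (getD_pad [] k).symm, ?_⟩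
    rw [← pt_pad M z u (tapes [])]
    simp [tapes, code_blank]
  | cons a R' =>
    exact ⟨a, R', hR a (by simp), fun x hx => hR x (by simp [hx]), fun _ => rfl, rfl⟩

lemma simulate {M : Machine} (hM : M.Valid) {c : Config} {p : ℝ × ℝ} (hp : M.Rep c p)
    (hh : M.isHalt c.state = false) :
    ∃ p', Relation.TransGen M.LStep p p' ∧ M.Rep (M.tstep c) p' := by
  obtain ⟨hq, L, R, H, hL, hR, hH, htL, htR, rfl⟩ := hp
  obtain ⟨a, R₁, ha, hR₁, hRk, hpt⟩ := pad_nonempty hM (M.isHalt c.state)
    ((Sym.work c.state).code :: (tapes L ++ Sym.bottom.code :: H)) hR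
  rw [hpt, hh]
  set q := c.state with hq_def
  set q' := (M.next q a).1 with hq'
  set a' := (M.next q a).2.1 with ha'
  have hq'lt : q' < M.numStates + 1 := (next_lt hM ha).1
  have ha'lt : a' < M.numSyms := (next_lt hM ha).2
  have hhead : c.tape c.pos = a := by
    have := htR 0
    rw [hRk, List.getD_cons_zero] at this
    simpa using this
  have hstep : M.tstep c =
      ⟨q', c.pos + (M.next q a).2.2.shift, Function.update c.tape c.pos a'⟩ := by
    simp [Machine.tstep, hhead, q', a', q]
  have hb : Sym.bottom.code < M.digitBound := code_small (by simp [Sym.Small])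
  have hup : ∀ i : ℤ, i ≠ c.pos → Function.update c.tape c.pos a' i = c.tape i := fun i hi =>
    Function.update_of_ne hi _ _
  have htRk : ∀ k : ℕ, c.tape (c.pos + k) = (a :: R₁).getD k 0 := fun k => by rw [htR, hRk]
  cases hd : (M.next q a).2.2 with
  | right =>
    obtain ⟨b, R₂, hb₂, hR₂, hRk2, hpt2⟩ := pad_nonempty hM false
      ((Sym.down q a false).code :: (Sym.tape a').code :: (tapes L ++ Sym.bottom.code :: H)) hR₁
    obtain ⟨-, hRpad⟩ : True ∧ M.pt false ((Sym.work q).code :: (tapes L ++ Sym.bottom.code :: H))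
        (tapes (a :: R₁)) = M.pt false ((Sym.work q).code :: (tapes L ++ Sym.bottom.code :: H))
        (tapes (a :: b :: R₂)) := by
      refine ⟨trivial, ?_⟩
      have h := congrArg Prod.snd hpt2
      simp only [Machine.pt, tapes, List.map_cons, valT] at h ⊢
      simp only [Prod.mk.injEq, true_and]
      have h' : valT M.base (List.map (fun c => (Sym.tape c).code) R₁) M.blankTail =
          (2 * ((Sym.tape b).code : ℝ) + 1 +
            valT M.base (List.map (fun c => (Sym.tape c).code) R₂) M.blankTail) / M.base := by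
        linarith
      rw [h']
    refine ⟨_, Relation.TransGen.head (b := M.pt false
        ((Sym.down q a false).code :: (tapes (a' :: L) ++ Sym.bottom.code :: H))
        (tapes (b :: R₂))) ?_
      (shuttle hM hq ha (L := a' :: L) (R := R₂) (List.forall_mem_cons.2 ⟨ha'lt, hL⟩) hb₂ hR₂ hH),
      hstep ▸ ⟨hq'lt, a' :: L, b :: R₂, (Sym.record q a false).code :: H,
        List.forall_mem_cons.2 ⟨ha'lt, hL⟩, List.forall_mem_cons.2 ⟨hb₂, hR₂⟩,
        Digits.cons (code_small ⟨hq, ha⟩) hH, ?_, ?_, rfl⟩⟩
    · rw [hRpad]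
      have := lstep_of_branch (i := .enterR q a b) (M := M) ⟨hq, ha, hb₂, hh, hd⟩ rfl
        (Digits.append (digits_tapes hL) (Digits.cons hb hH)) (digits_tapes hR₂)
      simpa [Idx.src, Idx.tgt, tapes] using this
    · intro k
      cases k with
      | zero => simp [hd, Dir.shift]
      | succ k =>
        simp only [hd, Dir.shift]
        rw [hup _ (by omega), List.getD_cons_succ, ← htL k]
        congr 1; push_cast; omega
    · intro k
      simp only [hd, Dir.shift]
      rw [hup _ (by omega), ← hRk2 k]
      have := htRk (k + 1)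
      rw [List.getD_cons_succ] at this
      refine (congrArg c.tape ?_).trans this
      push_cast; omega
  | stay =>
    refine ⟨_, Relation.TransGen.head (b := M.pt false
        ((Sym.down q a false).code :: (tapes L ++ Sym.bottom.code :: H))
        (tapes (a' :: R₁))) ?_
      (shuttle hM hq ha (L := L) (R := R₁) hL ha'lt hR₁ hH),
      hstep ▸ ⟨hq'lt, L, a' :: R₁, (Sym.record q a false).code :: H, hL,
        List.forall_mem_cons.2 ⟨ha'lt, hR₁⟩, Digits.cons (code_small ⟨hq, ha⟩) hH, ?_, ?_, rfl⟩⟩
    · have := lstep_of_branch (i := .enterS q a) (M := M) ⟨hq, ha, hh, hd⟩ rfl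
        (Digits.append (digits_tapes hL) (Digits.cons hb hH)) (digits_tapes hR₁)
      simpa [Idx.src, Idx.tgt, tapes] using this
    · intro k
      simp only [hd, Dir.shift, add_zero]
      rw [hup _ (by omega), htL k]
    · intro k
      cases k with
      | zero => simp [hd, Dir.shift]
      | succ k =>
        simp only [hd, Dir.shift, add_zero]
        rw [hup _ (by omega), List.getD_cons_succ]
        simpa using htRk (k + 1)
  | left =>
    cases L with
    | nil =>
      refine ⟨_, Relation.TransGen.head (b := M.pt false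
          ((Sym.down q a true).code :: (tapes [] ++ Sym.bottom.code :: H))
          (tapes (0 :: a' :: R₁))) ?_
        (shuttle hM hq ha (L := []) (R := a' :: R₁) (by simp) hM.syms_pos
          (List.forall_mem_cons.2 ⟨ha'lt, hR₁⟩) hH),
        hstep ▸ ⟨hq'lt, [], 0 :: a' :: R₁, (Sym.record q a true).code :: H, by simp,
          List.forall_mem_cons.2 ⟨hM.syms_pos, List.forall_mem_cons.2 ⟨ha'lt, hR₁⟩⟩,
          Digits.cons (code_small ⟨hq, ha⟩) hH, ?_, ?_, rfl⟩⟩
      · have := lstep_of_branch (i := .enterB q a) (M := M) ⟨hq, ha, hh, hd⟩ rfl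
          hH (digits_tapes hR₁)
        simpa [Idx.src, Idx.tgt, tapes] using this
      · intro k
        simp only [hd, Dir.shift]
        rw [hup _ (by omega)]
        have := htL (k + 1)
        simp only [List.getD_nil] at this ⊢
        refine (congrArg c.tape ?_).trans this
        push_cast; omega
      · intro k
        cases k with
        | zero =>
          simp only [hd, Dir.shift]
          rw [hup _ (by omega)]
          have := htL 0
          simp only [List.getD_nil] at this
          rw [List.getD_cons_zero]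
          refine (congrArg c.tape ?_).trans this
          push_cast; omega
        | succ k =>
          cases k with
          | zero => simp [hd, Dir.shift]
          | succ k =>
            simp only [hd, Dir.shift]
            rw [hup _ (by omega), List.getD_cons_succ, List.getD_cons_succ]
            have := htRk (k + 1)
            rw [List.getD_cons_succ] at this
            refine (congrArg c.tape ?_).trans this
            push_cast; omega
    | cons l L =>
      have hl : l < M.numSyms := hL l (by simp)
      have hL' : ∀ x ∈ L, x < M.numSyms := fun x hx => hL x (by simp [hx])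
      refine ⟨_, Relation.TransGen.head (b := M.pt false
          ((Sym.down q a false).code :: (tapes L ++ Sym.bottom.code :: H))
          (tapes (l :: a' :: R₁))) ?_
        (shuttle hM hq ha (L := L) (R := a' :: R₁) hL' hl
          (List.forall_mem_cons.2 ⟨ha'lt, hR₁⟩) hH),
        hstep ▸ ⟨hq'lt, L, l :: a' :: R₁, (Sym.record q a false).code :: H, hL',
          List.forall_mem_cons.2 ⟨hl, List.forall_mem_cons.2 ⟨ha'lt, hR₁⟩⟩,
          Digits.cons (code_small ⟨hq, ha⟩) hH, ?_, ?_, rfl⟩⟩
      · have := lstep_of_branch (i := .enterL q a l) (M := M) ⟨hq, ha, hl, hh, hd⟩ rfl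
          (Digits.append (digits_tapes hL') (Digits.cons hb hH)) (digits_tapes hR₁)
        simpa [Idx.src, Idx.tgt, tapes] using this
      · intro k
        simp only [hd, Dir.shift]
        rw [hup _ (by omega)]
        have := htL (k + 1)
        rw [List.getD_cons_succ] at this
        refine (congrArg c.tape ?_).trans this
        push_cast; omega
      · intro k
        cases k with
        | zero =>
          simp only [hd, Dir.shift]
          rw [hup _ (by omega)]
          have := htL 0
          rw [List.getD_cons_zero] at this ⊢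
          refine (congrArg c.tape ?_).trans this
          push_cast; omega
        | succ k =>
          cases k with
          | zero => simp [hd, Dir.shift]
          | succ k =>
            simp only [hd, Dir.shift]
            rw [hup _ (by omega), List.getD_cons_succ, List.getD_cons_succ]
            have := htRk (k + 1)
            rw [List.getD_cons_succ] at this
            refine (congrArg c.tape ?_).trans this
            push_cast; omega

end

end Vale.Agent.P113
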