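import Vale.Agent.P113.Bumps

/-! P113: products and derivatives of term lists, and the force belonging to a velocity. -/

namespace Vale.Agent.P113

open Set Filter Topology
open scoped ContDiff

noncomputable section

/-- The derivative of a product of periodized bumps. -/
def dSpace : List Bump → List (RatCode × List Bump)
  | [] => []
  | g :: gs => (g.deriv'.map fun e => (e.1, e.2 :: gs)) ++
      (dSpace gs).map fun e => (e.1, g :: e.2)

/-- The derivative of a product of time factors. -/
def dTime : List TimeFactor → List (RatCode × List TimeFactor)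
  | [] => []
  | θ :: θs => (θ.bump.deriv'.map fun e => (e.1, ⟨θ.periodized, e.2⟩ :: θs)) ++
      (dTime θs).map fun e => (e.1, θ :: e.2)

/-- The time derivative of a term. -/
def Term.dt (τ : Term) : List Term :=
  (dTime τ.time).map fun e =>
    ⟨τ.q.mul' e.1, τ.m, τ.kPos, τ.kNeg, τ.logs, e.2, τ.h1, τ.h2, τ.h3⟩

/-- The first spatial derivative of a term. -/
def Term.d1 (τ : Term) : List Term :=
  (dSpace τ.h1).map fun e =>
    ⟨τ.q.mul' e.1, τ.m, τ.kPos, τ.kNeg, τ.logs, τ.time, e.2, τ.h2, τ.h3⟩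

/-- The second spatial derivative of a term. -/
def Term.d2 (τ : Term) : List Term :=
  (dSpace τ.h2).map fun e =>
    ⟨τ.q.mul' e.1, τ.m, τ.kPos, τ.kNeg, τ.logs, τ.time, τ.h1, e.2, τ.h3⟩

/-- The third spatial derivative of a term. -/
def Term.d3 (τ : Term) : List Term :=
  (dSpace τ.h3).map fun e =>
    ⟨τ.q.mul' e.1, τ.m, τ.kPos, τ.kNeg, τ.logs, τ.time, τ.h1, τ.h2, e.2⟩

/-- Spatial derivative in direction `j`. -/
def Term.dx (j : Fin 3) (τ : Term) : List Term := ![τ.d1, τ.d2, τ.d3] j

/-- Product of terms. -/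
def Term.mul' (τ τ' : Term) : Term :=
  ⟨τ.q.mul' τ'.q, τ.m + τ'.m, τ.kPos + τ'.kPos, τ.kNeg + τ'.kNeg, τ.logs ++ τ'.logs,
    τ.time ++ τ'.time, τ.h1 ++ τ'.h1, τ.h2 ++ τ'.h2, τ.h3 ++ τ'.h3⟩

/-- `-ν` times a term. -/
def Term.negNu (τ : Term) : Term :=
  ⟨τ.q.neg', τ.m + 1, τ.kPos, τ.kNeg, τ.logs, τ.time, τ.h1, τ.h2, τ.h3⟩

/-- Time derivative of a list. -/
def dtL (L : List Term) : List Term := L.flatMap Term.dt

/-- Space derivative of a list. -/
def dxL (j : Fin 3) (L : List Term) : List Term := L.flatMap (Term.dx j)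

/-- Product of lists. -/
def mulL (A B : List Term) : List Term := A.flatMap fun a => B.map a.mul'

/-- One component of the force of the velocity `U` with zero pressure. -/
def forceList (U : TermLists) (L : List Term) : List Term :=
  dtL L ++ (mulL U.1 (dxL 0 L) ++ mulL U.2.1 (dxL 1 L) ++ mulL U.2.2 (dxL 2 L)) ++
    ((dxL 0 (dxL 0 L)) ++ (dxL 1 (dxL 1 L)) ++ (dxL 2 (dxL 2 L))).map Term.negNu

/-- The force of the velocity `U` with zero pressure. -/
def forceLists (U : TermLists) : TermLists :=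
  (forceList U U.1, forceList U U.2.1, forceList U U.2.2)

@[simp] lemma Term.dx_zero (τ : Term) : τ.dx 0 = τ.d1 := rfl

@[simp] lemma Term.dx_one (τ : Term) : τ.dx 1 = τ.d2 := rfl

@[simp] lemma Term.dx_two (τ : Term) : τ.dx 2 = τ.d3 := rfl

lemma fin3_cases (j : Fin 3) : j = 0 ∨ j = 1 ∨ j = 2 := by
  fin_cases j <;> simp

lemma component_forceLists (U : TermLists) (i : Fin 3) :
    component (forceLists U) i = forceList U (component U i) := by
  fin_cases i <;> rfl

/-! ### Validity -/

lemma dSpace_valid : ∀ gs : List Bump, (∀ g ∈ gs, g.Valid) →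
    ∀ e ∈ dSpace gs, (∀ g ∈ e.2, g.Valid) ∧ 0 < e.1.den := by
  intro gs
  induction gs with
  | nil => simp [dSpace]
  | cons g gs ih =>
    intro hv e he
    simp only [dSpace, List.mem_append, List.mem_map] at he
    rcases he with ⟨a, ha, rfl⟩ | ⟨a, ha, rfl⟩
    · obtain ⟨h1, h2⟩ := Bump.deriv'_valid (hv g (by simp)) a ha
      exact ⟨List.forall_mem_cons.2 ⟨h1, fun x hx => hv x (by simp [hx])⟩, h2⟩
    · obtain ⟨h1, h2⟩ := ih (fun x hx => hv x (by simp [hx])) a ha
      exact ⟨List.forall_mem_cons.2 ⟨hv g (by simp), h1⟩, h2⟩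

lemma dTime_valid : ∀ θs : List TimeFactor, (∀ θ ∈ θs, θ.bump.Valid) →
    ∀ e ∈ dTime θs, (∀ θ ∈ e.2, θ.bump.Valid) ∧ 0 < e.1.den := by
  intro θs
  induction θs with
  | nil => simp [dTime]
  | cons g gs ih =>
    intro hv e he
    simp only [dTime, List.mem_append, List.mem_map] at he
    rcases he with ⟨a, ha, rfl⟩ | ⟨a, ha, rfl⟩
    · obtain ⟨h1, h2⟩ := Bump.deriv'_valid (hv g (by simp)) a ha
      exact ⟨List.forall_mem_cons.2 ⟨h1, fun x hx => hv x (by simp [hx])⟩, h2⟩
    · obtain ⟨h1, h2⟩ := ih (fun x hx => hv x (by simp [hx])) a ha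
      exact ⟨List.forall_mem_cons.2 ⟨hv g (by simp), h1⟩, h2⟩

lemma dTime_flags : ∀ θs : List TimeFactor, ∀ e ∈ dTime θs,
    e.2.map TimeFactor.periodized = θs.map TimeFactor.periodized := by
  intro θs
  induction θs with
  | nil => simp [dTime]
  | cons g gs ih =>
    intro e he
    simp only [dTime, List.mem_append, List.mem_map] at he
    rcases he with ⟨a, ha, rfl⟩ | ⟨a, ha, rfl⟩
    · simp
    · simp [ih a ha]

/-- Some non-periodized factor is outside its support at time `t`. -/
def Dead (θs : List TimeFactor) (t : ℝ) : Prop :=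
  ∃ θ ∈ θs, θ.periodized = false ∧ θ.bump.Outside t

lemma dTime_dead : ∀ θs : List TimeFactor, (∀ θ ∈ θs, θ.bump.Valid) → ∀ t, Dead θs t →
    ∀ e ∈ dTime θs, Dead e.2 t := by
  intro θs
  induction θs with
  | nil => simp [dTime]
  | cons g gs ih =>
    intro hv t hd e he
    obtain ⟨θ, hθ, hθp, hθo⟩ := hd
    simp only [dTime, List.mem_append, List.mem_map] at he
    rcases he with ⟨a, ha, rfl⟩ | ⟨a, ha, rfl⟩
    · rcases List.mem_cons.1 hθ with rfl | hθ
      · exact ⟨⟨θ.periodized, a.2⟩, by simp, hθp,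
          Bump.deriv'_outside (hv θ (by simp)) hθo a ha⟩
      · exact ⟨θ, by simp [hθ], hθp, hθo⟩
    · rcases List.mem_cons.1 hθ with rfl | hθ
      · exact ⟨θ, by simp, hθp, hθo⟩
      · obtain ⟨η, h1, h2⟩ := ih (fun x hx => hv x (by simp [hx])) t ⟨θ, hθ, hθp, hθo⟩ a ha
        exact ⟨η, by simp [h1], h2⟩

/-- A valid term which is periodic or vanishes after time `T`. -/
def Term.Good (T : ℝ) (τ : Term) : Prop :=
  τ.Valid ∧ (τ.isPeriodic = false → ∀ t, T ≤ t → Dead τ.time t)

/-- All terms of a list are good. -/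
def GoodL (T : ℝ) (L : List Term) : Prop := ∀ τ ∈ L, τ.Good T

lemma isPeriodic_eq_of_flags {τ τ' : Term}
    (h : τ'.time.map TimeFactor.periodized = τ.time.map TimeFactor.periodized) :
    τ'.isPeriodic = τ.isPeriodic := by
  unfold Term.isPeriodic
  have e : ∀ l : List TimeFactor,
      l.all (fun θ => θ.periodized) = (l.map TimeFactor.periodized).all id := by
    intro l; simp [List.all_map, Function.comp_def]
  rw [e, e, h]

lemma dt_periodic (τ : Term) : ∀ σ ∈ τ.dt, σ.isPeriodic = τ.isPeriodic := by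
  intro σ hσ
  simp only [Term.dt, List.mem_map] at hσ
  obtain ⟨e, he, rfl⟩ := hσ
  exact isPeriodic_eq_of_flags (dTime_flags _ e he)

lemma dx_periodic (j : Fin 3) (τ : Term) : ∀ σ ∈ τ.dx j, σ.isPeriodic = τ.isPeriodic := by
  intro σ hσ
  rcases fin3_cases j with rfl | rfl | rfl <;>
  · simp only [Term.dx_zero, Term.dx_one, Term.dx_two, Term.d1, Term.d2, Term.d3,
      List.mem_map] at hσ
    obtain ⟨e, he, rfl⟩ := hσ
    rfl

lemma dt_good {T : ℝ} {τ : Term} (h : τ.Good T) : GoodL T τ.dt := by
  intro σ hσ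
  obtain ⟨⟨h1, h2, h3, h4, h5, h6⟩, hd⟩ := h
  have hp := dt_periodic τ σ hσ
  simp only [Term.dt, List.mem_map] at hσ
  obtain ⟨e, he, rfl⟩ := hσ
  obtain ⟨hv, hden⟩ := dTime_valid _ h3 e he
  refine ⟨⟨Nat.mul_pos h1 hden, h2, hv, h4, h5, h6⟩, fun hf t ht => ?_⟩
  exact dTime_dead _ h3 t (hd (hp ▸ hf) t ht) e he

lemma dx_good {T : ℝ} (j : Fin 3) {τ : Term} (h : τ.Good T) : GoodL T (τ.dx j) := by
  intro σ hσ
  obtain ⟨⟨h1, h2, h3, h4, h5, h6⟩, hd⟩ := h
  rcases fin3_cases j with rfl | rfl | rfl <;>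
    simp only [Term.dx_zero, Term.dx_one, Term.dx_two, Term.d1, Term.d2, Term.d3,
      List.mem_map] at hσ <;>
    obtain ⟨e, he, rfl⟩ := hσ
  · exact ⟨⟨Nat.mul_pos h1 (dSpace_valid _ h4 e he).2, h2, h3,
      (dSpace_valid _ h4 e he).1, h5, h6⟩, hd⟩
  · exact ⟨⟨Nat.mul_pos h1 (dSpace_valid _ h5 e he).2, h2, h3, h4,
      (dSpace_valid _ h5 e he).1, h6⟩, hd⟩
  · exact ⟨⟨Nat.mul_pos h1 (dSpace_valid _ h6 e he).2, h2, h3, h4, h5,
      (dSpace_valid _ h6 e he).1⟩, hd⟩

lemma mul_periodic (τ τ' : Term) :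
    (τ.mul' τ').isPeriodic = (τ.isPeriodic && τ'.isPeriodic) := by
  simp [Term.isPeriodic, Term.mul']

lemma mul_good {T : ℝ} {τ τ' : Term} (h : τ.Good T) (h' : τ'.Good T) : (τ.mul' τ').Good T := by
  obtain ⟨⟨h1, h2, h3, h4, h5, h6⟩, hd⟩ := h
  obtain ⟨⟨h1', h2', h3', h4', h5', h6'⟩, hd'⟩ := h'
  refine ⟨⟨Nat.mul_pos h1 h1', ?_, ?_, ?_, ?_, ?_⟩, fun hf t ht => ?_⟩
  · exact List.forall_mem_append.2 ⟨h2, h2'⟩
  · exact List.forall_mem_append.2 ⟨h3, h3'⟩
  · exact List.forall_mem_append.2 ⟨h4, h4'⟩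
  · exact List.forall_mem_append.2 ⟨h5, h5'⟩
  · exact List.forall_mem_append.2 ⟨h6, h6'⟩
  · rw [mul_periodic, Bool.and_eq_false_iff] at hf
    rcases hf with hf | hf
    · obtain ⟨θ, hθ, hr⟩ := hd hf t ht
      exact ⟨θ, List.mem_append_left _ hθ, hr⟩
    · obtain ⟨θ, hθ, hr⟩ := hd' hf t ht
      exact ⟨θ, List.mem_append_right _ hθ, hr⟩

lemma negNu_good {T : ℝ} {τ : Term} (h : τ.Good T) : τ.negNu.Good T := h

lemma GoodL.append {T : ℝ} {A B : List Term} (hA : GoodL T A) (hB : GoodL T B) :
    GoodL T (A ++ B) := List.forall_mem_append.2 ⟨hA, hB⟩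

lemma GoodL.dtL {T : ℝ} {A : List Term} (hA : GoodL T A) : GoodL T (dtL A) := by
  intro σ hσ
  obtain ⟨τ, hτ, h⟩ := List.mem_flatMap.1 hσ
  exact dt_good (hA τ hτ) σ h

lemma GoodL.dxL {T : ℝ} (j : Fin 3) {A : List Term} (hA : GoodL T A) : GoodL T (dxL j A) := by
  intro σ hσ
  obtain ⟨τ, hτ, h⟩ := List.mem_flatMap.1 hσ
  exact dx_good j (hA τ hτ) σ h

lemma GoodL.mulL {T : ℝ} {A B : List Term} (hA : GoodL T A) (hB : GoodL T B) :
    GoodL T (mulL A B) := by
  intro σ hσ
  obtain ⟨a, ha, h⟩ := List.mem_flatMap.1 hσ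
  obtain ⟨b, hb, rfl⟩ := List.mem_map.1 h
  exact mul_good (hA a ha) (hB b hb)

lemma GoodL.negNu {T : ℝ} {A : List Term} (hA : GoodL T A) : GoodL T (A.map Term.negNu) := by
  intro σ hσ
  obtain ⟨a, ha, rfl⟩ := List.mem_map.1 hσ
  exact negNu_good (hA a ha)

/-- All three lists are good. -/
def Good3 (T : ℝ) (U : TermLists) : Prop := ∀ i, GoodL T (component U i)

lemma forceLists_good {T : ℝ} {U : TermLists} (hU : Good3 T U) : Good3 T (forceLists U) := by
  intro i
  rw [component_forceLists]
  have h := hU i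
  have h0 : GoodL T U.1 := hU 0
  have h1 : GoodL T U.2.1 := hU 1
  have h2 : GoodL T U.2.2 := hU 2
  exact (h.dtL.append (((h0.mulL (h.dxL 0)).append (h1.mulL (h.dxL 1))).append
    (h2.mulL (h.dxL 2)))).append
      ((((h.dxL 0).dxL 0).append ((h.dxL 1).dxL 1)).append ((h.dxL 2).dxL 2)).negNu

/-! ### The periodic part -/

/-- The periodic terms. -/
def perPart (L : List Term) : List Term := L.filter Term.isPeriodic

lemma perPart_append (A B : List Term) : perPart (A ++ B) = perPart A ++ perPart B :=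
  List.filter_append ..

lemma perPart_flatMap (F : Term → List Term) (hF : ∀ τ, ∀ σ ∈ F τ, σ.isPeriodic = τ.isPeriodic)
    (L : List Term) : perPart (L.flatMap F) = (perPart L).flatMap F := by
  induction L with
  | nil => rfl
  | cons a l ih =>
    rw [List.flatMap_cons, perPart_append, ih]
    cases ha : a.isPeriodic
    · have : perPart (F a) = [] := by
        rw [perPart, List.filter_eq_nil_iff]
        intro σ hσ; simp [hF a σ hσ, ha]
      simp [perPart, List.filter_cons, ha] at this ⊢
      exact this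
    · have : perPart (F a) = F a := by
        rw [perPart, List.filter_eq_self]
        intro σ hσ; simp [hF a σ hσ, ha]
      simp [perPart, List.filter_cons, ha] at this ⊢
      exact this

lemma perPart_mulL (A B : List Term) : perPart (mulL A B) = mulL (perPart A) (perPart B) := by
  induction A with
  | nil => rfl
  | cons a l ih =>
    simp only [mulL, List.flatMap_cons] at ih ⊢
    rw [perPart_append, ih]
    cases ha : a.isPeriodic
    · simp [perPart, List.filter_map, Function.comp_def, mul_periodic, ha, List.filter_cons]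
    · simp [perPart, List.filter_map, Function.comp_def, mul_periodic, ha, List.filter_cons]

lemma perPart_negNu (A : List Term) : perPart (A.map Term.negNu) = (perPart A).map Term.negNu := by
  rw [perPart, List.filter_map]
  rfl

lemma forceLists_perPart {U V : TermLists}
    (h : ∀ i, perPart (component U i) = perPart (component V i)) (i : Fin 3) :
    perPart (component (forceLists U) i) = perPart (component (forceLists V) i) := by
  rw [component_forceLists, component_forceLists]
  have h0 : perPart U.1 = perPart V.1 := h 0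
  have h1 : perPart U.2.1 = perPart V.2.1 := h 1
  have h2 : perPart U.2.2 = perPart V.2.2 := h 2
  simp only [forceList, perPart_append, perPart_mulL, perPart_negNu, dtL, dxL,
    perPart_flatMap _ dt_periodic, perPart_flatMap _ (dx_periodic _), h0, h1, h2, h i]

/-! ### Values -/

@[simp] lemma evalTerms_nil (ν t : ℝ) (x : Fin 3 → ℝ) : evalTerms ν [] t x = 0 := rfl

@[simp] lemma evalTerms_cons (ν : ℝ) (a : Term) (L : List Term) (t : ℝ) (x : Fin 3 → ℝ) :
    evalTerms ν (a :: L) t x = a.eval ν t x + evalTerms ν L t x := by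
  simp [evalTerms]

lemma evalTerms_append (ν : ℝ) (A B : List Term) (t : ℝ) (x : Fin 3 → ℝ) :
    evalTerms ν (A ++ B) t x = evalTerms ν A t x + evalTerms ν B t x := by
  simp [evalTerms, List.map_append, List.sum_append]

lemma evalTerms_flatMap {α : Type} (ν : ℝ) (F : α → List Term) (L : List α) (t : ℝ)
    (x : Fin 3 → ℝ) :
    evalTerms ν (L.flatMap F) t x = (L.map fun a => evalTerms ν (F a) t x).sum := by
  induction L with
  | nil => rfl
  | cons a l ih => simp [List.flatMap_cons, evalTerms_append, ih]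

lemma eval_mul (ν : ℝ) (τ τ' : Term) (t : ℝ) (x : Fin 3 → ℝ) :
    (τ.mul' τ').eval ν t x = τ.eval ν t x * τ'.eval ν t x := by
  have hk : kappa ^ (((τ.kPos + τ'.kPos : ℕ) : ℤ) - ((τ.kNeg + τ'.kNeg : ℕ) : ℤ)) =
      kappa ^ ((τ.kPos : ℤ) - τ.kNeg) * kappa ^ ((τ'.kPos : ℤ) - τ'.kNeg) := by
    rw [← zpow_add₀ kappa_ne]
    congr 1
    push_cast
    ring
  simp only [Term.eval, Term.coeff, Term.mul', evalSpace, List.map_append, List.prod_append,
    RatCode.val_mul, pow_add, hk]
  ring

lemma eval_negNu (ν : ℝ) (τ : Term) (t : ℝ) (x : Fin 3 → ℝ) :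
    τ.negNu.eval ν t x = -ν * τ.eval ν t x := by
  simp [Term.eval, Term.coeff, Term.negNu, pow_succ]
  ring

lemma evalTerms_mulL (ν : ℝ) (A B : List Term) (t : ℝ) (x : Fin 3 → ℝ) :
    evalTerms ν (mulL A B) t x = evalTerms ν A t x * evalTerms ν B t x := by
  have h1 : ∀ a : Term, evalTerms ν (B.map a.mul') t x = a.eval ν t x * evalTerms ν B t x := by
    intro a
    induction B with
    | nil => simp
    | cons b m ih => simp [ih, eval_mul, mul_add]
  rw [mulL, evalTerms_flatMap]
  simp only [h1, List.sum_map_mul_right]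
  rfl

lemma evalTerms_negNu (ν : ℝ) (A : List Term) (t : ℝ) (x : Fin 3 → ℝ) :
    evalTerms ν (A.map Term.negNu) t x = -ν * evalTerms ν A t x := by
  induction A with
  | nil => simp
  | cons a l ih => simp [ih, eval_negNu]; ring

lemma evalSpace_hasDerivAt : ∀ gs : List Bump, (∀ g ∈ gs, g.Valid) → ∀ y,
    HasDerivAt (evalSpace gs) ((dSpace gs).map fun e => e.1.val * evalSpace e.2 y).sum y := by
  intro gs
  induction gs with
  | nil =>
    intro _ y
    have e : evalSpace [] = fun _ => 1 := by funext s; simp [evalSpace]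
    rw [e]
    simpa [dSpace] using hasDerivAt_const y (1 : ℝ)
  | cons g gs ih =>
    intro hv y
    have h1 := Bump.periodize_hasDerivAt (hv g (by simp)) y
    have h2 := ih (fun x hx => hv x (by simp [hx])) y
    have e : evalSpace (g :: gs) = fun y => periodize g.eval y * evalSpace gs y := by
      funext y; simp [evalSpace]
    rw [e]
    refine (h1.mul h2).congr_deriv ?_
    simp only [dSpace, List.map_append, List.map_map, List.sum_append]
    rw [← List.sum_map_mul_right, ← List.sum_map_mul_left]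
    congr 1 <;>
      exact congrArg List.sum (List.map_congr_left fun a _ => by simp [evalSpace]; ring)

/-- The value of a list of time factors. -/
def evalTime (θs : List TimeFactor) (t : ℝ) : ℝ := (θs.map fun θ => θ.eval t).prod

lemma evalTime_hasDerivAt : ∀ θs : List TimeFactor, (∀ θ ∈ θs, θ.bump.Valid) → ∀ t,
    HasDerivAt (evalTime θs) ((dTime θs).map fun e => e.1.val * evalTime e.2 t).sum t := by
  intro gs
  induction gs with
  | nil =>
    intro _ y
    have e : evalTime [] = fun _ => 1 := by funext s; simp [evalTime]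
    rw [e]
    simpa [dTime] using hasDerivAt_const y (1 : ℝ)
  | cons g gs ih =>
    intro hv y
    have h1 : HasDerivAt g.eval
        (g.bump.deriv'.map fun e => e.1.val * (TimeFactor.mk g.periodized e.2).eval y).sum y := by
      cases hp : g.periodized
      · have e : g.eval = g.bump.eval := by funext s; simp [TimeFactor.eval, hp]
        rw [e]
        simpa [TimeFactor.eval] using Bump.hasDerivAt (hv g (by simp)) y
      · have e : g.eval = periodize g.bump.eval := by funext s; simp [TimeFactor.eval, hp]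
        rw [e]
        simpa [TimeFactor.eval] using Bump.periodize_hasDerivAt (hv g (by simp)) y
    have h2 := ih (fun x hx => hv x (by simp [hx])) y
    have e : evalTime (g :: gs) = fun y => g.eval y * evalTime gs y := by
      funext y; simp [evalTime]
    rw [e]
    refine (h1.mul h2).congr_deriv ?_
    simp only [dTime, List.map_append, List.map_map, List.sum_append]
    rw [← List.sum_map_mul_right, ← List.sum_map_mul_left]
    congr 1 <;>
      exact congrArg List.sum (List.map_congr_left fun a _ => by simp [evalTime]; ring)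

lemma term_hasDerivAt_time (ν : ℝ) {τ : Term} (hτ : τ.Valid) (t : ℝ) (x : Fin 3 → ℝ) :
    HasDerivAt (fun s => τ.eval ν s x) (evalTerms ν τ.dt t x) t := by
  have h := ((((evalTime_hasDerivAt τ.time hτ.2.2.1 t).const_mul (τ.coeff ν)).mul_const
    (evalSpace τ.h1 (x 0))).mul_const (evalSpace τ.h2 (x 1))).mul_const (evalSpace τ.h3 (x 2))
  refine h.congr_deriv ?_
  simp only [evalTerms, Term.dt, List.map_map]
  rw [← List.sum_map_mul_left, ← List.sum_map_mul_right, ← List.sum_map_mul_right,
    ← List.sum_map_mul_right]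
  refine congrArg List.sum (List.map_congr_left fun a _ => ?_)
  simp only [Function.comp_apply, Term.eval, Term.coeff, evalTime, RatCode.val_mul]
  ring

lemma term_hasPartialAt (ν : ℝ) {τ : Term} (hτ : τ.Valid) (t : ℝ) (j : Fin 3) (x : Fin 3 → ℝ) :
    HasPartialAt (τ.eval ν t) j (evalTerms ν (τ.dx j) t x) x := by
  obtain ⟨-, -, -, h4, h5, h6⟩ := hτ
  rcases fin3_cases j with rfl | rfl | rfl
  · have h := (((evalSpace_hasDerivAt τ.h1 h4 (x 0)).const_mul
      (τ.coeff ν * evalTime τ.time t)).mul_const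
        (evalSpace τ.h2 (x 1))).mul_const (evalSpace τ.h3 (x 2))
    refine (h.congr_of_eventuallyEq (Eventually.of_forall fun s => ?_)).congr_deriv ?_
    · simp [Term.eval, evalTime]
    · simp only [evalTerms, Term.dx_zero, Term.d1, List.map_map]
      rw [← List.sum_map_mul_left, ← List.sum_map_mul_right, ← List.sum_map_mul_right]
      refine congrArg List.sum (List.map_congr_left fun a _ => ?_)
      simp only [Function.comp_apply, Term.eval, Term.coeff, evalTime, RatCode.val_mul]
      ring
  · have h := (((evalSpace_hasDerivAt τ.h2 h5 (x 1)).const_mul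
      (τ.coeff ν * evalTime τ.time t * evalSpace τ.h1 (x 0)))).mul_const (evalSpace τ.h3 (x 2))
    refine (h.congr_of_eventuallyEq (Eventually.of_forall fun s => ?_)).congr_deriv ?_
    · simp [Term.eval, evalTime]
    · simp only [evalTerms, Term.dx_one, Term.d2,
        List.map_map]
      rw [← List.sum_map_mul_left, ← List.sum_map_mul_right]
      refine congrArg List.sum (List.map_congr_left fun a _ => ?_)
      simp only [Function.comp_apply, Term.eval, Term.coeff, evalTime, RatCode.val_mul]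
      ring
  · have h := (evalSpace_hasDerivAt τ.h3 h6 (x 2)).const_mul
      (τ.coeff ν * evalTime τ.time t * evalSpace τ.h1 (x 0) * evalSpace τ.h2 (x 1))
    refine (h.congr_of_eventuallyEq (Eventually.of_forall fun s => ?_)).congr_deriv ?_
    · simp [Term.eval, evalTime]
    · simp only [evalTerms, Term.dx_two, Term.d3, List.map_map]
      rw [← List.sum_map_mul_left]
      refine congrArg List.sum (List.map_congr_left fun a _ => ?_)
      simp only [Function.comp_apply, Term.eval, Term.coeff, evalTime, RatCode.val_mul]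
      ring

lemma evalTerms_hasDerivAt_time (ν : ℝ) {L : List Term} (hL : ∀ τ ∈ L, τ.Valid) (t : ℝ)
    (x : Fin 3 → ℝ) : HasDerivAt (fun s => evalTerms ν L s x) (evalTerms ν (dtL L) t x) t := by
  induction L with
  | nil => simpa [dtL] using hasDerivAt_const t (0 : ℝ)
  | cons a l ih =>
    have h := (term_hasDerivAt_time ν (hL a (by simp)) t x).fun_add
      (ih fun τ hτ => hL τ (by simp [hτ]))
    simpa [dtL, List.flatMap_cons, evalTerms_append] using h

lemma evalTerms_hasPartialAt (ν : ℝ) {L : List Term} (hL : ∀ τ ∈ L, τ.Valid) (t : ℝ) (j : Fin 3)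
    (x : Fin 3 → ℝ) : HasPartialAt (evalTerms ν L t) j (evalTerms ν (dxL j L) t x) x := by
  induction L with
  | nil =>
    unfold HasPartialAt
    simpa [dxL] using hasDerivAt_const (x j) (0 : ℝ)
  | cons a l ih =>
    have h := (term_hasPartialAt ν (hL a (by simp)) t j x).fun_add
      (ih fun τ hτ => hL τ (by simp [hτ]))
    unfold HasPartialAt
    simpa [dxL, List.flatMap_cons, evalTerms_append] using h

lemma evalSpace_contDiff : ∀ gs : List Bump, (∀ g ∈ gs, g.Valid) →
    ContDiff ℝ ∞ (evalSpace gs) := by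
  intro gs
  induction gs with
  | nil =>
    intro _
    have e : evalSpace [] = fun _ => 1 := by funext s; simp [evalSpace]
    rw [e]
    exact contDiff_const
  | cons g gs ih =>
    intro hv
    have e : evalSpace (g :: gs) = fun y => periodize g.eval y * evalSpace gs y := by
      funext y; simp [evalSpace]
    rw [e]
    exact (Bump.periodize_contDiff (hv g (by simp))).mul (ih fun x hx => hv x (by simp [hx]))

lemma evalTime_contDiff : ∀ θs : List TimeFactor, (∀ θ ∈ θs, θ.bump.Valid) →
    ContDiff ℝ ∞ (evalTime θs) := by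
  intro gs
  induction gs with
  | nil =>
    intro _
    have e : evalTime [] = fun _ => 1 := by funext s; simp [evalTime]
    rw [e]
    exact contDiff_const
  | cons g gs ih =>
    intro hv
    have e : evalTime (g :: gs) = fun y => g.eval y * evalTime gs y := by
      funext y; simp [evalTime]
    rw [e]
    refine ContDiff.mul ?_ (ih fun x hx => hv x (by simp [hx]))
    cases hp : g.periodized
    · have e : g.eval = g.bump.eval := by funext s; simp [TimeFactor.eval, hp]
      rw [e]; exact g.bump.contDiff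
    · have e : g.eval = periodize g.bump.eval := by funext s; simp [TimeFactor.eval, hp]
      rw [e]; exact Bump.periodize_contDiff (hv g (by simp))

lemma evalTerms_contDiff (ν : ℝ) {L : List Term} (hL : ∀ τ ∈ L, τ.Valid) :
    ContDiff ℝ ∞ (fun z : ℝ × (Fin 3 → ℝ) => evalTerms ν L z.1 z.2) := by
  induction L with
  | nil => simpa using (contDiff_const : ContDiff ℝ ∞ fun _ : ℝ × (Fin 3 → ℝ) => (0 : ℝ))
  | cons a l ih =>
    simp only [evalTerms_cons]
    refine ContDiff.add ?_ (ih fun τ hτ => hL τ (by simp [hτ]))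
    obtain ⟨-, -, h3, h4, h5, h6⟩ := hL a (by simp)
    have hc : ∀ i : Fin 3, ContDiff ℝ ∞ fun z : ℝ × (Fin 3 → ℝ) => z.2 i := fun i =>
      (contDiff_apply ℝ ℝ i).comp contDiff_snd
    exact (((contDiff_const.mul ((evalTime_contDiff _ h3).comp contDiff_fst)).mul
      ((evalSpace_contDiff _ h4).comp (hc 0))).mul ((evalSpace_contDiff _ h5).comp (hc 1))).mul
        ((evalSpace_contDiff _ h6).comp (hc 2))

lemma evalSpace_add_int (gs : List Bump) (y : ℝ) (n : ℤ) :
    evalSpace gs (y + n) = evalSpace gs y := by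
  simp [evalSpace, periodize_add_int]

lemma evalTerms_periodic (ν : ℝ) (L : List Term) (t : ℝ) : PeriodicSpace (evalTerms ν L t) := by
  intro x n
  simp [evalTerms, Term.eval, evalSpace_add_int]

lemma dead_eval {θs : List TimeFactor} (hv : ∀ θ ∈ θs, θ.bump.Valid) {t : ℝ} (h : Dead θs t) :
    (θs.map fun θ => θ.eval t).prod = 0 := by
  obtain ⟨θ, hθ, hp, ho⟩ := h
  refine List.prod_eq_zero (List.mem_map.2 ⟨θ, hθ, ?_⟩)
  simp [TimeFactor.eval, hp, Bump.eval_outside (hv θ hθ) ho]

lemma Term.Good.eval_eq_zero {T : ℝ} {τ : Term} (h : τ.Good T) (hp : τ.isPeriodic = false)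
    (ν t : ℝ) (x : Fin 3 → ℝ) (ht : T ≤ t) : τ.eval ν t x = 0 := by
  simp [Term.eval, dead_eval h.1.2.2.1 (h.2 hp t ht)]

end

end Vale.Agent.P113
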