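import Vale.Agent.P113.Terms
import Vale.Agent.P113.Run

/-! P113: the velocity field of a machine and an input, as lists of terms. -/

namespace Vale.Agent.P113

open Set Filter Topology
open scoped ContDiff

noncomputable section

/-- `A` times a rational. -/
def RatCode.times (A : ℕ) (r : RatCode) : RatCode := (RatCode.ofNat' A).mul' r

/-- A plateau of value `κ` on `[lo, hi]` with margins `2/A`, times `s^k`. -/
def plateau (k A : ℕ) (lo hi : RatCode) : Bump :=
  ⟨true, k, 0, RatCode.ofNat' A, (RatCode.times A lo).add' ⟨0, 1, 1⟩,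
    (RatCode.times A (hi.add' lo.neg')).add' (RatCode.ofNat' 2)⟩

/-- The bump of the `k`-th phase. -/
def phaseBump (k : ℕ) : Bump :=
  ⟨false, 0, 0, RatCode.ofNat' 20, RatCode.ofNat' (2 * k + 3), RatCode.ofNat' 1⟩

/-- The cutoff equal to `κ` on `[0, 1]` and to `0` from `11/10` on. -/
def cutBump : Bump := ⟨true, 0, 0, RatCode.ofNat' 20, ⟨0, 1, 1⟩, RatCode.ofNat' 22⟩

/-- The numerator of a word, over `B ^ length`. -/
def wordNum (B : ℕ) : List ℕ → ℕ
  | [] => 0
  | d :: u => (2 * d + 1) * B ^ u.length + wordNum B u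

/-- Ten times the left end of a zone. -/
def zoneNum (z : Bool) : ℕ := bif z then 6 else 1

/-- The left end of a cylinder in the first coordinate. -/
def xLo (B : ℕ) (z : Bool) (u : List ℕ) : RatCode :=
  ⟨zoneNum z * B ^ u.length + 3 * wordNum B u, 0, 10 * B ^ u.length⟩

/-- The right end of a cylinder in the first coordinate. -/
def xHi (B : ℕ) (z : Bool) (u : List ℕ) : RatCode :=
  ⟨zoneNum z * B ^ u.length + 3 * wordNum B u + 3, 0, 10 * B ^ u.length⟩

/-- The coordinate of a word followed by blanks. -/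
def xPoint (M : Machine) (z : Bool) (u : List ℕ) : RatCode :=
  ⟨zoneNum z * M.base ^ u.length * (2 * M.digitBound)
      + 3 * (wordNum M.base u * (2 * M.digitBound) + 1),
    0, 10 * M.base ^ u.length * (2 * M.digitBound)⟩

/-- The number of slots. -/
def Machine.slots (M : Machine) : ℕ := M.branches.length

/-- The branch of a slot. -/
def Machine.slot (M : Machine) (j : ℕ) : Idx := M.branches.getD j Idx.park

/-- The height of a slot. -/
def Machine.height (M : Machine) (j : ℕ) : RatCode := ⟨M.slots + 2 * j, 0, 4 * M.slots⟩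

/-- The slope of the box cutoffs. -/
def Machine.slope (M : Machine) : ℕ := 20 * M.base ^ 3

/-- The box cutoff in the first coordinate. -/
def boxX (M : Machine) (A : Cyl) : Bump :=
  plateau 0 M.slope (xLo M.base A.zone A.wx) (xHi M.base A.zone A.wx)

/-- The box cutoff in the second coordinate. -/
def boxY (M : Machine) (A : Cyl) : Bump :=
  plateau 0 M.slope (xLo M.base false A.wy) (xHi M.base false A.wy)

/-- The cutoff of a slot, times `z ^ k`. -/
def slabBump (M : Machine) (k j : ℕ) : Bump :=
  plateau k (16 * M.slots) (M.height j) (M.height j)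

/-- `s` times a plateau around `[-1/20, 2/5]`. -/
def linBump : Bump := plateau 1 20 ⟨0, 1, 20⟩ ⟨2, 0, 5⟩

/-- The periodic time factor of phase `k`. -/
def tick (k : ℕ) : List TimeFactor := [⟨true, phaseBump k⟩]

/-- Lifting (or lowering) a box. -/
def liftTerm (M : Machine) (k : ℕ) (c : RatCode) (A : Cyl) : Term :=
  ⟨RatCode.times 20 c, 0, 0, 3, [], tick k, [boxX M A], [boxY M A], []⟩

/-- Translating a slot. -/
def shiftTerm (M : Machine) (k j : ℕ) (c : RatCode) : Term :=
  ⟨RatCode.times 20 c, 0, 0, 2, [], tick k, [], [], [slabBump M 0 j]⟩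

/-- The stream function scaling the first coordinate. -/
def streamX (M : Machine) (j : ℕ) (r : LogArg) : List Term :=
  [⟨RatCode.ofNat' 20, 0, 0, 3, [r], tick 2, [linBump], [], [slabBump M 1 j]⟩,
    ⟨RatCode.times 20 (M.height j).neg', 0, 0, 3, [r], tick 2, [linBump], [], [slabBump M 0 j]⟩]

/-- The stream function scaling the second coordinate. -/
def streamY (M : Machine) (j : ℕ) (r : LogArg) : List Term :=
  [⟨RatCode.ofNat' 20, 0, 0, 3, [r], tick 2, [], [linBump], [slabBump M 1 j]⟩,
    ⟨RatCode.times 20 (M.height j).neg', 0, 0, 3, [r], tick 2, [], [linBump], [slabBump M 0 j]⟩]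

/-- The negative of a term. -/
def Term.negate (τ : Term) : Term :=
  ⟨τ.q.neg', τ.m, τ.kPos, τ.kNeg, τ.logs, τ.time, τ.h1, τ.h2, τ.h3⟩

/-- The scaling ratio from `A` to `A'` in the first coordinate. -/
def ratioX (M : Machine) (A A' : Cyl) : LogArg := ⟨M.base ^ A.wx.length, M.base ^ A'.wx.length⟩

/-- The scaling ratio from `A` to `A'` in the second coordinate. -/
def ratioY (M : Machine) (A A' : Cyl) : LogArg := ⟨M.base ^ A.wy.length, M.base ^ A'.wy.length⟩

/-- First component, one slot. -/
def slotU0 (M : Machine) (j : ℕ) : List Term :=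
  shiftTerm M 1 j (xLo M.base (M.slot j).src.zone (M.slot j).src.wx).neg' ::
  shiftTerm M 3 j (xLo M.base ((M.slot j).tgt M).zone ((M.slot j).tgt M).wx) ::
  dxL 2 (streamX M j (ratioX M (M.slot j).src ((M.slot j).tgt M)))

/-- Second component, one slot. -/
def slotU1 (M : Machine) (j : ℕ) : List Term :=
  shiftTerm M 1 j (xLo M.base false (M.slot j).src.wy).neg' ::
  shiftTerm M 3 j (xLo M.base false ((M.slot j).tgt M).wy) ::
  dxL 2 (streamY M j (ratioY M (M.slot j).src ((M.slot j).tgt M)))

/-- Third component, one slot. -/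
def slotU2 (M : Machine) (j : ℕ) : List Term :=
  liftTerm M 0 (M.height j) (M.slot j).src ::
  liftTerm M 4 (M.height j).neg' ((M.slot j).tgt M) ::
  ((dxL 0 (streamX M j (ratioX M (M.slot j).src ((M.slot j).tgt M))) ++
    dxL 1 (streamY M j (ratioY M (M.slot j).src ((M.slot j).tgt M)))).map Term.negate)

/-- The periodic part of the velocity. -/
def perLists (M : Machine) : TermLists :=
  ((List.range M.slots).flatMap (slotU0 M), (List.range M.slots).flatMap (slotU1 M),
    (List.range M.slots).flatMap (slotU2 M))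

/-- Minus the cutoff times a term. -/
def Term.cut (τ : Term) : Term :=
  ⟨τ.q.neg', τ.m, τ.kPos, τ.kNeg + 1, τ.logs, ⟨false, cutBump⟩ :: τ.time, τ.h1, τ.h2, τ.h3⟩

/-- A uniform translation during phase `k` of the first time unit, from `1/4` to `c`. -/
def moveTerm (k : ℕ) (c : RatCode) : Term :=
  ⟨RatCode.times 20 (c.add' ⟨0, 1, 4⟩), 0, 0, 1, [], [⟨false, phaseBump k⟩], [], [], []⟩

/-- The starting first coordinate. -/
def startX (M : Machine) : RatCode :=
  xPoint M (M.isHalt M.start) [(Sym.work M.start).code, Sym.bottom.code]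

/-- The starting second coordinate. -/
def startY (M : Machine) (w : List ℕ) : RatCode := xPoint M false (tapes w)

/-- The velocity. -/
def velLists (M : Machine) (w : List ℕ) : TermLists :=
  ((perLists M).1 ++ (perLists M).1.map Term.cut ++ [moveTerm 1 (startX M)],
    (perLists M).2.1 ++ (perLists M).2.1.map Term.cut ++ [moveTerm 0 (startY M w)],
    (perLists M).2.2 ++ (perLists M).2.2.map Term.cut)

/-- The force compiler. -/
def compile (M : Machine) (w : List ℕ) : TermLists := forceLists (velLists M w)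

/-! ### Validity -/

lemma base_pos (M : Machine) : 0 < M.base := by have := base_ge M; omega

lemma slots_pos (M : Machine) : 0 < M.slots :=
  List.length_pos_of_mem (Idx.Ok.mem (M := M) (i := .park) trivial)

lemma plateau_l {k A : ℕ} {lo hi : RatCode} (hlo : 0 < lo.den) (hhi : 0 < hi.den) :
    (plateau k A lo hi).l.val = A * (hi.val - lo.val) + 2 := by
  simp only [plateau, RatCode.times]
  rw [RatCode.val_add (by simp [hlo, hhi]) (by simp), RatCode.val_mul,
    RatCode.val_add hhi (by simpa using hlo)]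
  simp only [RatCode.val_ofNat, RatCode.val_neg]
  push_cast
  ring

lemma plateau_b {k A : ℕ} {lo hi : RatCode} (hlo : 0 < lo.den) :
    (plateau k A lo hi).b.val = A * lo.val - 1 := by
  simp only [plateau, RatCode.times]
  rw [RatCode.val_add (by simp [hlo]) (by norm_num), RatCode.val_mul]
  have e : (⟨0, 1, 1⟩ : RatCode).val = -1 := by norm_num [RatCode.val]
  rw [e, RatCode.val_ofNat]
  ring

lemma plateau_valid {k A : ℕ} {lo hi : RatCode} (hA : 0 < A) (hlo : 0 < lo.den)
    (hhi : 0 < hi.den) (h : lo.val ≤ hi.val) : (plateau k A lo hi).Valid := by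
  refine ⟨by simp [plateau], by simp [plateau, RatCode.times, hlo], ?_,
    fun _ => ⟨by simp [plateau, RatCode.times, hlo, hhi], ?_⟩⟩
  · simp only [plateau, RatCode.val_ofNat]
    exact_mod_cast hA.ne'
  · rw [plateau_l hlo hhi]
    have : 0 ≤ (A:ℝ) * (hi.val - lo.val) := mul_nonneg (Nat.cast_nonneg _) (by linarith)
    linarith

lemma xLo_den (M : Machine) (z : Bool) (u : List ℕ) : 0 < (xLo M.base z u).den :=
  Nat.mul_pos (by norm_num) (pow_pos (base_pos M) _)

lemma xHi_den (M : Machine) (z : Bool) (u : List ℕ) : 0 < (xHi M.base z u).den :=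
  Nat.mul_pos (by norm_num) (pow_pos (base_pos M) _)

lemma xPoint_den (M : Machine) (z : Bool) (u : List ℕ) : 0 < (xPoint M z u).den := by
  have := base_ge M
  refine Nat.mul_pos (Nat.mul_pos (by norm_num) (pow_pos (base_pos M) _)) ?_
  unfold Machine.base at this
  omega

lemma height_den (M : Machine) (j : ℕ) : 0 < (M.height j).den :=
  Nat.mul_pos (by norm_num) (slots_pos M)

lemma slope_pos (M : Machine) : 0 < M.slope :=
  Nat.mul_pos (by norm_num) (pow_pos (base_pos M) _)

lemma xLo_le_xHi (M : Machine) (z : Bool) (u : List ℕ) :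
    (xLo M.base z u).val ≤ (xHi M.base z u).val := by
  simp only [xLo, xHi, RatCode.val]
  refine div_le_div_of_nonneg_right ?_ (Nat.cast_nonneg _)
  push_cast
  linarith

lemma boxX_valid (M : Machine) (A : Cyl) : (boxX M A).Valid :=
  plateau_valid (slope_pos M) (xLo_den ..) (xHi_den ..) (xLo_le_xHi ..)

lemma boxY_valid (M : Machine) (A : Cyl) : (boxY M A).Valid :=
  plateau_valid (slope_pos M) (xLo_den ..) (xHi_den ..) (xLo_le_xHi ..)

lemma slab_valid (M : Machine) (k j : ℕ) : (slabBump M k j).Valid :=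
  plateau_valid (Nat.mul_pos (by norm_num) (slots_pos M)) (height_den ..) (height_den ..) le_rfl

lemma lin_valid : linBump.Valid :=
  plateau_valid (by norm_num) (by norm_num) (by norm_num) (by norm_num [RatCode.val])

lemma phase_valid (k : ℕ) : (phaseBump k).Valid := by
  simp [Bump.Valid, phaseBump]

lemma cut_valid : cutBump.Valid := by
  simp [Bump.Valid, cutBump]

lemma tick_valid (k : ℕ) : ∀ θ ∈ tick k, θ.bump.Valid := by
  intro θ hθ
  simp only [tick, List.mem_singleton] at hθ
  subst hθ
  exact phase_valid k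

/-- A valid periodic list. -/
def PerL (L : List Term) : Prop := ∀ τ ∈ L, τ.Valid ∧ τ.isPeriodic = true

lemma PerL.dxL {L : List Term} (h : PerL L) (j : Fin 3) : PerL (dxL j L) := by
  intro σ hσ
  obtain ⟨τ, hτ, hs⟩ := List.mem_flatMap.1 hσ
  refine ⟨(dx_good (T := 0) j ⟨(h τ hτ).1, fun e => absurd ((h τ hτ).2.symm.trans e)
    Bool.true_eq_false.mp⟩ σ hs).1, ?_⟩
  rw [dx_periodic j τ σ hs]
  exact (h τ hτ).2

lemma PerL.negate {L : List Term} (h : PerL L) : PerL (L.map Term.negate) := by
  intro σ hσ
  obtain ⟨τ, hτ, rfl⟩ := List.mem_map.1 hσ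
  exact h τ hτ

lemma PerL.append {L L' : List Term} (h : PerL L) (h' : PerL L') : PerL (L ++ L') :=
  List.forall_mem_append.2 ⟨h, h'⟩

lemma PerL.cons {τ : Term} {L : List Term} (h : τ.Valid ∧ τ.isPeriodic = true) (h' : PerL L) :
    PerL (τ :: L) := List.forall_mem_cons.2 ⟨h, h'⟩

lemma perL_stream (M : Machine) (j : ℕ) (A A' : Cyl) :
    PerL (streamX M j (ratioX M A A')) ∧ PerL (streamY M j (ratioY M A A')) := by
  have hr : ∀ n m : ℕ, 0 < M.base ^ n ∧ 0 < M.base ^ m := fun n m =>
    ⟨pow_pos (base_pos M) _, pow_pos (base_pos M) _⟩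
  constructor <;> intro τ hτ <;>
    simp only [streamX, streamY, List.mem_cons, List.not_mem_nil, or_false] at hτ <;>
    rcases hτ with rfl | rfl <;>
    refine ⟨⟨?_, ?_, tick_valid 2, ?_, ?_, ?_⟩, rfl⟩ <;>
    simp [RatCode.times, height_den, ratioX, ratioY, lin_valid, slab_valid] <;>
    exact hr _ _

lemma shift_ok (M : Machine) (k j : ℕ) {c : RatCode} (hc : 0 < c.den) :
    (shiftTerm M k j c).Valid ∧ (shiftTerm M k j c).isPeriodic = true := by
  refine ⟨⟨?_, by simp [shiftTerm], tick_valid k, by simp [shiftTerm], by simp [shiftTerm], ?_⟩, rfl⟩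
  · simpa [shiftTerm, RatCode.times] using hc
  · simp [shiftTerm, slab_valid]

lemma lift_ok (M : Machine) (k : ℕ) {c : RatCode} (hc : 0 < c.den) (A : Cyl) :
    (liftTerm M k c A).Valid ∧ (liftTerm M k c A).isPeriodic = true := by
  refine ⟨⟨?_, by simp [liftTerm], tick_valid k, ?_, ?_, by simp [liftTerm]⟩, rfl⟩
  · simpa [liftTerm, RatCode.times] using hc
  · simp [liftTerm, boxX_valid]
  · simp [liftTerm, boxY_valid]

lemma perLists_ok (M : Machine) (i : Fin 3) : PerL (component (perLists M) i) := by
  intro τ hτ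
  rcases fin3_cases i with rfl | rfl | rfl <;>
    obtain ⟨j, -, hj⟩ := List.mem_flatMap.1 (show τ ∈ List.flatMap _ _ from hτ)
  · exact PerL.cons (shift_ok M 1 j (by simpa using xLo_den M _ _))
      (PerL.cons (shift_ok M 3 j (xLo_den ..)) ((perL_stream ..).1.dxL 2)) τ hj
  · exact PerL.cons (shift_ok M 1 j (by simpa using xLo_den M _ _))
      (PerL.cons (shift_ok M 3 j (xLo_den ..)) ((perL_stream ..).2.dxL 2)) τ hj
  · exact PerL.cons (lift_ok M 0 (height_den ..) _)
      (PerL.cons (lift_ok M 4 (by simpa using height_den M j) _)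
        (((perL_stream ..).1.dxL 0).append ((perL_stream ..).2.dxL 1)).negate) τ hj

lemma cut_good {τ : Term} (h : τ.Valid ∧ τ.isPeriodic = true) :
    τ.cut.Good 2 ∧ τ.cut.isPeriodic = false := by
  obtain ⟨⟨h1, h2, h3, h4, h5, h6⟩, -⟩ := h
  refine ⟨⟨⟨by simpa [Term.cut] using h1, h2, List.forall_mem_cons.2 ⟨cut_valid, h3⟩, h4, h5, h6⟩,
    fun _ t ht => ⟨⟨false, cutBump⟩, by simp [Term.cut], rfl, ?_⟩⟩, by
      simp [Term.cut, Term.isPeriodic]⟩
  simp only [Bump.Outside, Bump.arg, cutBump, if_true]
  right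
  simp [RatCode.val, RatCode.ofNat']
  linarith

lemma move_good (k : ℕ) (hk : k ≤ 1) {c : RatCode} (hc : 0 < c.den) :
    (moveTerm k c).Good 2 ∧ (moveTerm k c).isPeriodic = false := by
  refine ⟨⟨⟨by simp [moveTerm, RatCode.times, hc], by simp [moveTerm], ?_, by simp [moveTerm],
    by simp [moveTerm], by simp [moveTerm]⟩, fun _ t ht => ?_⟩, rfl⟩
  · simp [moveTerm, phase_valid]
  · refine ⟨⟨false, phaseBump k⟩, by simp [moveTerm], rfl, ?_⟩
    have hk' : (k:ℝ) ≤ 1 := by exact_mod_cast hk
    simp [Bump.Outside, Bump.arg, phaseBump]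
    rw [le_abs]
    left
    linarith

lemma velLists_good (M : Machine) (w : List ℕ) : Good3 2 (velLists M w) := by
  have hp : ∀ i, GoodL 2 (component (perLists M) i) := fun i τ hτ =>
    ⟨(perLists_ok M i τ hτ).1, fun e => absurd ((perLists_ok M i τ hτ).2.symm.trans e)
      Bool.true_eq_false.mp⟩
  have hc : ∀ i, GoodL 2 ((component (perLists M) i).map Term.cut) := by
    intro i σ hσ
    obtain ⟨τ, hτ, rfl⟩ := List.mem_map.1 hσ
    exact (cut_good (perLists_ok M i τ hτ)).1
  have hm : ∀ k ≤ 1, ∀ c : RatCode, 0 < c.den → GoodL 2 [moveTerm k c] := by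
    intro k hk c hcd σ hσ
    obtain rfl := List.mem_singleton.1 hσ
    exact (move_good k hk hcd).1
  intro i
  rcases fin3_cases i with rfl | rfl | rfl
  · exact ((hp 0).append (hc 0)).append (hm 1 le_rfl _ (xPoint_den ..))
  · exact ((hp 1).append (hc 1)).append (hm 0 zero_le_one _ (xPoint_den ..))
  · exact (hp 2).append (hc 2)

lemma velLists_perPart (M : Machine) (w : List ℕ) (i : Fin 3) :
    perPart (component (velLists M w) i) = component (perLists M) i := by
  have hp : ∀ i, perPart (component (perLists M) i) = component (perLists M) i := fun i =>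
    List.filter_eq_self.2 fun τ hτ => (perLists_ok M i τ hτ).2
  have hc : ∀ i, perPart ((component (perLists M) i).map Term.cut) = [] := by
    intro i
    rw [perPart, List.filter_eq_nil_iff]
    intro σ hσ
    obtain ⟨τ, hτ, rfl⟩ := List.mem_map.1 hσ
    simp [(cut_good (perLists_ok M i τ hτ)).2]
  have hm : ∀ k c, perPart [moveTerm k c] = [] := fun k c => rfl
  rcases fin3_cases i with rfl | rfl | rfl
  · show perPart ((component (perLists M) 0) ++ (component (perLists M) 0).map Term.cut ++ _) = _
    rw [perPart_append, perPart_append, hp, hc, hm, List.append_nil, List.append_nil]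
  · show perPart ((component (perLists M) 1) ++ (component (perLists M) 1).map Term.cut ++ _) = _
    rw [perPart_append, perPart_append, hp, hc, hm, List.append_nil, List.append_nil]
  · show perPart ((component (perLists M) 2) ++ (component (perLists M) 2).map Term.cut) = _
    rw [perPart_append, hp, hc, List.append_nil]

end

end Vale.Agent.P113
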